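/-
P217 (ORBIT): sums of homomorphisms for a commutative law, and slot stabilisers.
-/
import Vale.Agent.P217.LawFacts
import Vale.Agent.P217.Spec
import Vale.Agent.P217.Easy.Series
import Vale.Agent.P217.Continuity

namespace Vale.Agent.P217

open MvPowerSeries

/-- The sum of two series without constant term for the law `B`. -/
noncomputable def serAdd {R : Type} [CommRing R] (B : FormalGroup R) (f g : PowerSeries R) :
    PowerSeries R :=
  MvPowerSeries.subst ![f, g] B.toPowerSeries

section

variable {R : Type} [CommRing R]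

lemma constantCoeff_serAdd (B : FormalGroup R) {f g : PowerSeries R}
    (hf : PowerSeries.constantCoeff f = 0) (hg : PowerSeries.constantCoeff g = 0) :
    PowerSeries.constantCoeff (serAdd B f g) = 0 :=
  MvPowerSeries.constantCoeff_subst_eq_zero (Easy.hasSubst_pair hf hg)
    (fun i => by fin_cases i <;> simp <;> first | exact hf | exact hg) B.zero_constantCoeff

/-- Substitution into a sum of two series. -/
lemma subst_serAdd {σ : Type} (B : FormalGroup R) {f g : PowerSeries R}
    (hf : PowerSeries.constantCoeff f = 0) (hg : PowerSeries.constantCoeff g = 0)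
    {a : MvPowerSeries σ R} (ha : MvPowerSeries.constantCoeff a = 0) :
    PowerSeries.subst a (serAdd B f g) =
      MvPowerSeries.subst ![PowerSeries.subst a f, PowerSeries.subst a g] B.toPowerSeries := by
  have hs : PowerSeries.HasSubst a :=
    PowerSeries.HasSubst.of_constantCoeff_zero (S := R) ha
  rw [serAdd, PowerSeries.subst_def, MvPowerSeries.subst_comp_subst_apply
    (Easy.hasSubst_pair hf hg) hs.const]
  congr 1
  funext i
  fin_cases i <;> rfl

/-- The sum of two homomorphisms into a commutative law is a homomorphism. -/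
theorem IsHom.serAdd {A B : FormalGroup R} [B.IsComm] {f g : PowerSeries R}
    (hf : IsHom A B f) (hg : IsHom A B g) : IsHom A B (serAdd B f g) := by
  obtain ⟨hf0, hf⟩ := hf
  obtain ⟨hg0, hg⟩ := hg
  refine ⟨constantCoeff_serAdd B hf0 hg0, ?_⟩
  rw [subst_serAdd B hf0 hg0 A.zero_constantCoeff, hf, hg,
    subst_serAdd B hf0 hg0 (MvPowerSeries.constantCoeff_X (R := R) (0 : Fin 2)),
    subst_serAdd B hf0 hg0 (MvPowerSeries.constantCoeff_X (R := R) (1 : Fin 2))]
  set a := PowerSeries.subst (MvPowerSeries.X (R := R) (0 : Fin 2)) f with ha_def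
  set b := PowerSeries.subst (MvPowerSeries.X (R := R) (1 : Fin 2)) f with hb_def
  set c := PowerSeries.subst (MvPowerSeries.X (R := R) (0 : Fin 2)) g with hc_def
  set d := PowerSeries.subst (MvPowerSeries.X (R := R) (1 : Fin 2)) g with hd_def
  have ha : PowerSeries.HasSubst a := PowerSeries.HasSubst.of_constantCoeff_zero
    (PowerSeries.constantCoeff_subst_eq_zero (MvPowerSeries.constantCoeff_X 0) f hf0)
  have hb : PowerSeries.HasSubst b := PowerSeries.HasSubst.of_constantCoeff_zero
    (PowerSeries.constantCoeff_subst_eq_zero (MvPowerSeries.constantCoeff_X 1) f hf0)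
  have hc : PowerSeries.HasSubst c := PowerSeries.HasSubst.of_constantCoeff_zero
    (PowerSeries.constantCoeff_subst_eq_zero (MvPowerSeries.constantCoeff_X 0) g hg0)
  have hd : PowerSeries.HasSubst d := PowerSeries.HasSubst.of_constantCoeff_zero
    (PowerSeries.constantCoeff_subst_eq_zero (MvPowerSeries.constantCoeff_X 1) g hg0)
  let A' : FormalGroup.Point B (Fin 2) := ⟨a, ha⟩
  let B' : FormalGroup.Point B (Fin 2) := ⟨b, hb⟩
  let C' : FormalGroup.Point B (Fin 2) := ⟨c, hc⟩
  let D' : FormalGroup.Point B (Fin 2) := ⟨d, hd⟩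
  have key : (A' + B') + (C' + D') = (A' + C') + (B' + D') := add_add_add_comm _ _ _ _
  have key' := congrArg Subtype.val key
  simp only [FormalGroup.add_apply] at key'
  exact key'


end

variable {p n : ℕ} [Fact p.Prime]

lemma LawFacts.isComm_special {F : FormalGroup (LT p n)} (hL : LawFacts p n F) :
    (special p n F).IsComm := by
  constructor
  have e : (![MvPowerSeries.X 1, MvPowerSeries.X 0] : Fin 2 → MvPowerSeries (Fin 2) (Res p n)) =
      MvPowerSeries.X ∘ (Equiv.swap 0 1 : Equiv.Perm (Fin 2)).toEmbedding := by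
    funext i; fin_cases i <;> rfl
  ext d
  rw [e, ← MvPowerSeries.rename_eq_subst]
  have hd : d = Finsupp.embDomain (Equiv.swap 0 1 : Equiv.Perm (Fin 2)).toEmbedding
      (d.mapDomain (Equiv.swap 0 1 : Equiv.Perm (Fin 2))) := by
    rw [Finsupp.embDomain_eq_mapDomain, ← Finsupp.mapDomain_comp]
    simp [Function.comp_def]
    exact Finsupp.mapDomain_id.symm
  conv_rhs => rw [hd]
  rw [MvPowerSeries.coeff_embDomain_rename]
  simp only [special, FormalGroup.map_toPowerSeries, MvPowerSeries.coeff_map]
  rw [hL.comm d]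

/-- `x +_H Σ_H α_s x^(p^(M_s))`. -/
noncomputable def slotSeries (F : FormalGroup (LT p n)) {m : ℕ} (α : Fin m → Res p n)
    (M : Fin m → ℕ) : PowerSeries (Res p n) :=
  (List.ofFn fun s => PowerSeries.C (α s) * PowerSeries.X ^ p ^ M s).foldl
    (serAdd (special p n F)) PowerSeries.X

lemma coeff_serAdd_low {B : FormalGroup (Res p n)} {f g : PowerSeries (Res p n)} {T : ℕ}
    (hf : PowerSeries.constantCoeff f = 0) (hg0 : PowerSeries.constantCoeff g = 0)
    (hg : ∀ b < T, PowerSeries.coeff b g = 0) {b : ℕ} (hb : b < T) :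
    PowerSeries.coeff b (serAdd B f g) = PowerSeries.coeff b f := by
  have h2 : MvPowerSeries.subst ![f, (0 : PowerSeries (Res p n))] B.toPowerSeries = f :=
    FormalGroup.add_zero B (PowerSeries.HasSubst.of_constantCoeff_zero' hf)
  conv_rhs => rw [← h2]
  rw [serAdd, PowerSeries.coeff_def (s := Finsupp.single () b) (by simp),
    MvPowerSeries.coeff_subst (Easy.hasSubst_pair hf hg0),
    MvPowerSeries.coeff_subst (Easy.hasSubst_pair hf (map_zero _))]
  refine finsum_congr fun d => ?_
  congr 1
  rcases Nat.eq_zero_or_pos (d 1) with h1 | h1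
  · simp [Finsupp.prod_fintype, h1]
  · have hord : (T : ℕ∞) ≤ MvPowerSeries.order (g : MvPowerSeries Unit (Res p n)) := by
      refine MvPowerSeries.nat_le_order fun e he => ?_
      have : e = Finsupp.single () (e ()) := by ext; simp
      rw [this]
      refine hg _ ?_
      simpa [Finsupp.degree_eq_sum] using he
    have hz : MvPowerSeries.coeff (Finsupp.single () b)
        ((f : MvPowerSeries Unit (Res p n)) ^ d 0 * g ^ d 1) = 0 := by
      refine MvPowerSeries.coeff_of_lt_order ?_
      refine lt_of_lt_of_le ?_ MvPowerSeries.le_order_mul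
      refine lt_of_lt_of_le ?_ (le_add_of_nonneg_left bot_le)
      obtain ⟨k, hk⟩ : ∃ k, d 1 = k + 1 := ⟨d 1 - 1, by omega⟩
      rw [hk, pow_succ]
      refine lt_of_lt_of_le ?_ MvPowerSeries.le_order_mul
      refine lt_of_lt_of_le ?_ (le_add_of_nonneg_left bot_le)
      refine lt_of_lt_of_le ?_ hord
      simpa [Finsupp.degree_eq_sum] using hb
    simp only [Finsupp.prod_fintype, Fin.prod_univ_two, Matrix.cons_val_zero, Matrix.cons_val_one,
      Matrix.cons_val_fin_one, pow_zero, implies_true]
    rw [hz, zero_pow (by omega), mul_zero, map_zero]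

/-- Slot series are stabilisers, congruent to the identity below the least `p^(M_s)`. -/
theorem slotSeries_deep {F : FormalGroup (LT p n)} (hL : LawFacts p n F) {m : ℕ}
    (α : Fin m → Res p n) (M : Fin m → ℕ) {T : ℕ} (hT : 2 ≤ T) (hM : ∀ s, T ≤ p ^ M s) :
    DeepStabilizer p n F T (slotSeries F α M) := by
  classical
  have := hL.isComm_special
  suffices h : ∀ (l : List (PowerSeries (Res p n))) (f : PowerSeries (Res p n)),
      (∀ g ∈ l, IsHom (special p n F) (special p n F) g ∧ ∀ b < T, PowerSeries.coeff b g = 0) →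
      IsHom (special p n F) (special p n F) f →
      IsHom (special p n F) (special p n F) (l.foldl (serAdd (special p n F)) f) ∧
        ∀ b < T, PowerSeries.coeff b (l.foldl (serAdd (special p n F)) f) =
          PowerSeries.coeff b f by
    obtain ⟨h1, h2⟩ := h (List.ofFn fun s => PowerSeries.C (α s) * PowerSeries.X ^ p ^ M s)
      PowerSeries.X (fun g hg => by
        obtain ⟨s, rfl⟩ := List.mem_ofFn.1 hg
        refine ⟨hL.special_mono (α s) (M s), fun b hb => ?_⟩
        rw [PowerSeries.coeff_C_mul, PowerSeries.coeff_X_pow, if_neg (by have := hM s; omega),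
          mul_zero]) (Cont.isHom_X _)
    refine ⟨⟨h1, ?_⟩, h2⟩
    rw [slotSeries, h2 1 (by omega), PowerSeries.coeff_one_X]
    exact isUnit_one
  intro l
  induction l with
  | nil => exact fun f _ hf => ⟨hf, fun _ _ => rfl⟩
  | cons g l ih =>
    intro f hl hf
    obtain ⟨hg, hg'⟩ := hl g List.mem_cons_self
    obtain ⟨h1, h2⟩ := ih (serAdd (special p n F) f g)
      (fun g' hg' => hl g' (List.mem_cons_of_mem _ hg')) (hf.serAdd hg)
    exact ⟨h1, fun b hb => (h2 b hb).trans (coeff_serAdd_low hf.1 hg.1 hg' hb)⟩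

end Vale.Agent.P217
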