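/-
P217 (ORBIT): perturbations of the point along the slots, and branches of towers.
Definitions only.
-/
import Vale.Agent.P217.SpecOrbit

namespace Vale.Agent.P217

open Filter

variable {p n : ℕ} [Fact p.Prime] {K : Type} [NormedField K]

/-- A point near `x` with the same constants that also kills `I_h`. -/
structure IsPert (h : ℕ) (x x' : LT p n →+* K) : Prop where
  norm_le : ∀ a, ‖x' a‖ ≤ 1
  norm_lt : ∀ a ∈ IsLocalRing.maximalIdeal (LT p n), ‖x' a‖ < 1
  const : ∀ c, x' (MvPowerSeries.C c) = x (MvPowerSeries.C c)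
  low : ∀ a ∈ heightIdeal p n h, x' a = 0

/-- The coordinates of the difference in the slots. -/
noncomputable def duOf (h : ℕ) (hh : 1 ≤ h) (x x' : LT p n →+* K) (j : Fin (n - h)) : K :=
  x' (MvPowerSeries.X (slot n h hh j)) - x (MvPowerSeries.X (slot n h hh j))

/-- The values of the parameters. -/
noncomputable def uvec (x : LT p n →+* K) (l : Fin (n - 1)) : K :=
  x (MvPowerSeries.X l)

/-- A series over `LT` read as a series in the parameters and the variables, with constants
mapped by `x`. -/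
noncomputable def bigSeries {τ : Type} (x : LT p n →+* K) (A : MvPowerSeries τ (LT p n)) :
    MvPowerSeries (Fin (n - 1) ⊕ τ) K :=
  fun d => x (MvPowerSeries.C (MvPowerSeries.coeff (Finsupp.sumFinsuppEquivProdFinsupp d).1
    (MvPowerSeries.coeff (Finsupp.sumFinsuppEquivProdFinsupp d).2 A)))

/-- The slot variables among all parameters. -/
noncomputable def slotVar (h : ℕ) (l : Fin (n - 1)) : MvPowerSeries (Fin (n - h)) K :=
  if hl : h ≤ l.val + 1 then MvPowerSeries.X ⟨l.val + 1 - h, by omega⟩ else 0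

/-- A branch of length `k` of the tower above the point `x'`, written `G'(t_j, z_j)` over a tower
`t`: `z_0 = 0`, `e'(G'(t_{j+1}, z_{j+1})) = G'(t_j, z_j)`, with `z_{j+1}` small. -/
def IsBranch (F : FormalGroup (LT p n)) (e : PowerSeries (LT p n)) (h : ℕ) (x x' : LT p n →+* K)
    (t : ℕ → K) (k : ℕ) (z : ℕ → K) : Prop :=
  z 0 = 0 ∧ ∀ j < k, ‖z (j + 1)‖ ^ p ^ h < ‖x (par p n h)‖ ∧
    ev₁ (PowerSeries.map x' e) (ev (lawAt p n F x') ![t (j + 1), z (j + 1)]) =
      ev (lawAt p n F x') ![t j, z j]

/-- The slot point `π_k(α, M)`, the limit of `e^m (α t_{k+m}^(p^M))`. -/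
noncomputable def slotLevel (e : PowerSeries (LT p n)) (x : LT p n →+* K) (t : ℕ → K)
    (α : Res p n) (M k : ℕ) : K :=
  limUnder Filter.atTop fun m =>
    (ev₁ (PowerSeries.map x e))^[m] (constAt x α * t (k + m) ^ p ^ M)

end Vale.Agent.P217
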