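/-
P217 (ORBIT): interfaces inside the chart half.
-/
import Vale.Agent.P217.Orbit.PertDefs

namespace Vale.Agent.P217

variable (p n : ℕ) [Fact p.Prime]

/-- The part of total degree below `D`. -/
noncomputable def truncDeg {K : Type} [CommRing K] {r : ℕ} (D : ℕ)
    (f : MvPowerSeries (Fin r) K) : MvPowerSeries (Fin r) K :=
  fun d => if d.degree < D then MvPowerSeries.coeff d f else 0

/-- The conditions on a point used by the chart half. -/
structure IsBasePoint {K : Type} [NormedField K] (h : ℕ) (x : LT p n →+* K) : Prop where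
  norm_le : ∀ a, ‖x a‖ ≤ 1
  norm_lt : ∀ a ∈ IsLocalRing.maximalIdeal (LT p n), ‖x a‖ < 1
  low : ∀ a ∈ heightIdeal p n h, x a = 0
  par_ne : x (par p n h) ≠ 0

/-- A tower of small points above zero for one coordinate. -/
structure IsTowerAt {K : Type} [NormedField K] (e : PowerSeries (LT p n)) (x : LT p n →+* K)
    (t : ℕ → K) : Prop where
  zero : t 0 = 0
  small : ∀ k, ‖t k‖ < 1
  step : ∀ k, ev₁ (PowerSeries.map x e) (t (k + 1)) = t k

/-- Branches of every length exist near the point and `z_k^(P^k)` is a series in the slot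
coordinates. -/
def BranchStatement : Prop :=
  ∀ F : FormalGroup (LT p n), IsUniversalLaw p n F → ∀ e, IsPSeries p n e →
    ∀ h (hh : 1 ≤ h), h < n →
      ∀ (K : Type) [NormedField K] [CompleteSpace K], IsUltrametricDist K → IsAlgClosed K →
        CharP K p → ∀ (x : LT p n →+* K), IsBasePoint p n h x → ∀ t, IsTowerAt p n e x t →
          ∀ k, ∃ (c : K) (L : MvPowerSeries (Fin (n - h)) K),
            c ≠ 0 ∧ ‖c‖ ≤ 1 ∧ IntegralSeries L ∧ MvPowerSeries.constantCoeff L = 0 ∧
            ∀ x', IsPert h x x' → (∀ j, ‖duOf h hh x x' j‖ < ‖c‖) →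
              (∃ z, IsBranch F e h x x' t k z) ∧
              ∀ z, IsBranch F e h x x' t k z →
                z k ^ (p ^ h) ^ k = ev L fun j => duOf h hh x x' j / c

/-- A direction in which all first torsion points are stationary to first order is zero. -/
def TangentStatement : Prop :=
  ∀ F : FormalGroup (LT p n), IsUniversalLaw p n F → ∀ e, IsPSeries p n e →
    ∀ h (hh : 1 ≤ h), h < n → ∀ P : Ideal (LT p n),
      ∀ (K : Type) [NormedField K] [CompleteSpace K], IsUltrametricDist K → IsAlgClosed K →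
        CharP K p → ∀ G : GoodPoint p n F h hh P e K, IsBasePoint p n h G.x →
          ∀ ξ : Fin (n - h) → K,
          (∀ l, ∃ (C s₀ : ℝ), 0 < s₀ ∧ ∀ (s : K), ‖s‖ ≤ s₀ → ∀ x', IsPert h G.x x' →
            (∀ j, duOf h hh G.x x' j = s * ξ j) →
            ∃ z, IsBranch F e h G.x x' (fun k => if k = 0 then 0 else G.tor l) 1 z ∧
              ‖z 1‖ ^ p ^ h ≤ C * ‖s‖ ^ 2) →
          ξ = 0

/-- The unipotent coordinates of the deep orbit, known to every order through the branches. -/
def CoordStatement : Prop :=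
  ∀ F : FormalGroup (LT p n), IsUniversalLaw p n F → ∀ e, IsPSeries p n e →
    ∀ h (hh : 1 ≤ h), h < n →
      ∀ (K : Type) [NormedField K] [CompleteSpace K], IsUltrametricDist K → IsAlgClosed K →
        CharP K p → ∀ (x : LT p n →+* K), IsBasePoint p n h x → ∀ t, IsTowerAt p n e x t →
          ∀ τ : PowerSeries K, PowerSeries.constantCoeff τ = 0 →
            (∀ b, ‖PowerSeries.coeff b τ‖ ≤ 1) →
            PowerSeries.subst (PowerSeries.mk fun b => x (PowerSeries.coeff (p ^ h * b) e)) τ =
              PowerSeries.mk (fun b => PowerSeries.coeff b τ ^ p ^ h) →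
            ∃ η : MvPowerSeries (Fin (n - h)) K, MvPowerSeries.constantCoeff η = 0 ∧
              ∀ k D, 1 ≤ k → D ≤ (p ^ h) ^ k → ∃ C s₀ : ℝ, 0 < s₀ ∧ ∀ x' z ρ,
                IsPert h x x' → IsBranch F e h x x' t k z → (∀ j, ‖duOf h hh x x' j‖ ≤ ρ) →
                ρ ≤ s₀ →
                ‖ev (truncDeg D η) (fun j => duOf h hh x x' j) - ev₁ τ (z k) ^ (p ^ h) ^ k‖
                  ≤ C * ρ ^ D

end Vale.Agent.P217
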