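/-
P217 (ORBIT): formal fixed points, i.e. the formal implicit function theorem.
-/
import Mathlib

namespace Vale.Agent.P217

open MvPowerSeries

section

variable {σ τ R : Type*} [CommRing R]

/-- `f` and `g` agree in degrees below `D`. -/
def AgreeBelow (D : ℕ) (f g : MvPowerSeries σ R) : Prop :=
  ∀ d : σ →₀ ℕ, d.degree < D → coeff d f = coeff d g

lemma AgreeBelow.mono {D D' : ℕ} {f g : MvPowerSeries σ R} (h : AgreeBelow D f g) (hD : D' ≤ D) :
    AgreeBelow D' f g := fun d hd => h d (lt_of_lt_of_le hd hD)

lemma agreeBelow_iff_le_order {D : ℕ} {f g : MvPowerSeries σ R} :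
    AgreeBelow D f g ↔ (D : ℕ∞) ≤ (f - g).order := by
  constructor
  · intro h
    refine nat_le_order fun d hd => ?_
    rw [map_sub, h d hd, sub_self]
  · intro h d hd
    have : coeff d (f - g) = 0 :=
      coeff_of_lt_order (lt_of_lt_of_le (by exact_mod_cast hd) h)
    rwa [map_sub, sub_eq_zero] at this

/-- A product of series without constant term, one factor changed. -/
lemma le_order_pow_sub_pow {D : ℕ} {f g : MvPowerSeries σ R} (hf : constantCoeff f = 0)
    (hg : constantCoeff g = 0) (h : (D : ℕ∞) ≤ (f - g).order) (k : ℕ) :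
    ((D + k : ℕ) : ℕ∞) ≤ (f ^ (k + 1) - g ^ (k + 1)).order := by
  induction k with
  | zero => simpa using h
  | succ k ih =>
    have e : f ^ (k + 1 + 1) - g ^ (k + 1 + 1) =
        (f - g) * f ^ (k + 1) + g * (f ^ (k + 1) - g ^ (k + 1)) := by ring
    have h1 : (1 : ℕ∞) ≤ g.order := one_le_order_iff_constCoeff_eq_zero.mpr hg
    have h2 : ((k + 1 : ℕ) : ℕ∞) ≤ (f ^ (k + 1)).order :=
      le_order_pow_of_constantCoeff_eq_zero (k + 1) hf
    rw [e]
    refine le_trans (le_min ?_ ?_) min_order_le_add
    · refine le_trans ?_ le_order_mul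
      refine le_trans ?_ (add_le_add h h2)
      push_cast
      rfl
    · refine le_trans ?_ le_order_mul
      refine le_trans ?_ (add_le_add h1 ih)
      push_cast
      exact le_of_eq (by abel)

end

variable {σ τ R : Type*} [Finite σ] [Finite τ] [CommRing R]

lemma hasSubst_elim {ζ : τ → MvPowerSeries σ R} (hζ : ∀ i, constantCoeff (ζ i) = 0) :
    HasSubst (Sum.elim (X : σ → MvPowerSeries σ R) ζ) :=
  hasSubst_of_constantCoeff_zero fun s => by cases s <;> simp [hζ]

/-- Substituting series agreeing below `D` into a series without constant term and without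
linear term in the substituted variables gives agreement below `D + 1`. -/
lemma agreeBelow_subst {D : ℕ} (Φ : MvPowerSeries (σ ⊕ τ) R)
    (h1 : ∀ j, coeff (Finsupp.single (Sum.inr j) 1) Φ = 0)
    {ζ ζ' : τ → MvPowerSeries σ R} (hζ : ∀ i, constantCoeff (ζ i) = 0)
    (hζ' : ∀ i, constantCoeff (ζ' i) = 0) (h : ∀ i, AgreeBelow D (ζ i) (ζ' i)) :
    AgreeBelow (D + 1) (subst (Sum.elim X ζ) Φ) (subst (Sum.elim X ζ') Φ) := by
  classical
  intro d hd
  rw [coeff_subst (hasSubst_elim hζ), coeff_subst (hasSubst_elim hζ')]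
  refine finsum_congr fun e => ?_
  by_cases he : ∃ j, e = Finsupp.single (Sum.inr j) 1
  · obtain ⟨j, rfl⟩ := he
    simp [h1 j]
  congr 1
  -- the two monomials differ only in degree `≥ D + 1`
  rw [Finsupp.prod, Finsupp.prod]
  have key : ∀ s : Finset (σ ⊕ τ),
      ((∑ x ∈ s, e x : ℕ) : ℕ∞) ≤ (∏ x ∈ s, Sum.elim X ζ x ^ e x).order ∧
      (((D : ℕ) : ℕ∞) + (∑ x ∈ s, e x : ℕ) ≤
        (∏ x ∈ s, Sum.elim X ζ x ^ e x - ∏ x ∈ s, Sum.elim X ζ' x ^ e x).order + 1) := by
    intro s
    induction s using Finset.induction_on with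
    | empty => simp
    | insert a s ha ih =>
      obtain ⟨ih1, ih2⟩ := ih
      have hc : constantCoeff (Sum.elim X ζ a : MvPowerSeries σ R) = 0 := by
        cases a <;> simp [hζ]
      have hc' : constantCoeff (Sum.elim X ζ' a : MvPowerSeries σ R) = 0 := by
        cases a <;> simp [hζ']
      rw [Finset.prod_insert ha, Finset.prod_insert ha, Finset.sum_insert ha]
      set A := ∏ x ∈ s, Sum.elim X ζ x ^ e x
      set B := ∏ x ∈ s, Sum.elim X ζ' x ^ e x
      have hA : ((e a : ℕ) : ℕ∞) ≤ (Sum.elim X ζ a ^ e a : MvPowerSeries σ R).order :=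
        le_order_pow_of_constantCoeff_eq_zero _ hc
      have hB : ((e a : ℕ) : ℕ∞) ≤ (Sum.elim X ζ' a ^ e a : MvPowerSeries σ R).order :=
        le_order_pow_of_constantCoeff_eq_zero _ hc'
      refine ⟨?_, ?_⟩
      · rw [Nat.cast_add]
        exact le_trans (add_le_add hA ih1) le_order_mul
      · have e0 : Sum.elim X ζ a ^ e a * A - Sum.elim X ζ' a ^ e a * B =
            (Sum.elim X ζ a ^ e a - Sum.elim X ζ' a ^ e a) * A +
              Sum.elim X ζ' a ^ e a * (A - B) := by ring
        rw [e0]
        refine le_trans ?_ (add_le_add min_order_le_add le_rfl)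
        rw [← min_add_add_right]
        refine le_min ?_ ?_
        · by_cases h0 : e a = 0
          · simp [h0]
          · obtain ⟨k, hk⟩ : ∃ k, e a = k + 1 := ⟨e a - 1, by omega⟩
            have hdiff : AgreeBelow D (Sum.elim X ζ a) (Sum.elim X ζ' a) := by
              cases a with
              | inl x => exact fun _ _ => rfl
              | inr x => exact h x
            have h3 := le_order_pow_sub_pow hc hc' (agreeBelow_iff_le_order.1 hdiff) k
            refine le_trans ?_ (add_le_add le_order_mul le_rfl)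
            rw [hk]
            refine le_trans ?_ (add_le_add (add_le_add h3 ih1) le_rfl)
            push_cast
            exact le_of_eq (by abel)
        · refine le_trans ?_ (add_le_add le_order_mul le_rfl)
          rw [add_assoc]
          refine le_trans ?_ (add_le_add hB ih2)
          push_cast
          exact le_of_eq (by abel)
  have hk := key e.support
  rcases eq_or_ne (∑ x ∈ e.support, e x) 0 with h0 | h0
  · have : e.support = ∅ := by
      by_contra hne
      obtain ⟨x, hx⟩ := Finset.nonempty_iff_ne_empty.2 hne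
      exact Finsupp.mem_support_iff.1 hx (Finset.sum_eq_zero_iff.1 h0 x hx)
    simp [this]
  rcases Nat.lt_or_ge (∑ x ∈ e.support, e x) 2 with h2 | h2
  · -- a linear monomial, hence a variable of `σ`
    have hdeg : e.degree = 1 := by
      have : e.degree = ∑ x ∈ e.support, e x := rfl
      omega
    obtain ⟨x, hx⟩ := (Finsupp.sum_eq_one_iff e).1 hdeg
    cases x with
    | inl x => subst hx; simp
    | inr x => exact (he ⟨x, hx⟩).elim
  · have h3 : ((D + 1 : ℕ) : ℕ∞) + 1 ≤
        (∏ x ∈ e.support, Sum.elim X ζ x ^ e x - ∏ x ∈ e.support, Sum.elim X ζ' x ^ e x).order + 1 := by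
      refine le_trans ?_ hk.2
      have : (2 : ℕ∞) ≤ ((∑ x ∈ e.support, e x : ℕ) : ℕ∞) := by exact_mod_cast h2
      refine le_trans (le_of_eq ?_) (add_le_add le_rfl this)
      push_cast
      rw [add_assoc]
      rfl
    have h4 := (WithTop.add_le_add_iff_right (by simp : (1 : ℕ∞) ≠ ⊤)).1 h3
    exact agreeBelow_iff_le_order.2 h4 d hd

/-- Formal fixed points: if `Φ` has neither constant term nor linear term in the unknowns, then
`ζ = Φ(X, ζ)` has a solution without constant term. -/
theorem exists_fixed (Φ : τ → MvPowerSeries (σ ⊕ τ) R) (h0 : ∀ i, constantCoeff (Φ i) = 0)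
    (h1 : ∀ i j, coeff (Finsupp.single (Sum.inr j) 1) (Φ i) = 0) :
    ∃ ζ : τ → MvPowerSeries σ R, (∀ i, constantCoeff (ζ i) = 0) ∧
      ∀ i, ζ i = subst (Sum.elim X ζ) (Φ i) := by
  classical
  let T : (τ → MvPowerSeries σ R) → τ → MvPowerSeries σ R :=
    fun ζ i => subst (Sum.elim X ζ) (Φ i)
  let it : ℕ → τ → MvPowerSeries σ R := fun N => T^[N] fun _ => 0
  have hit0 : ∀ N i, constantCoeff (it N i) = 0 := by
    intro N
    induction N with
    | zero => intro i; simp [it]
    | succ N ih =>
      intro i
      simp only [it, Function.iterate_succ_apply']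
      exact constantCoeff_subst_eq_zero (hasSubst_elim ih)
        (fun s => by cases s <;> simp [ih, it]) (h0 i)
  have hstep : ∀ N i, AgreeBelow (N + 1) (it N i) (it (N + 1) i) := by
    intro N
    induction N with
    | zero =>
      intro i d hd
      have : d = 0 := (Finsupp.degree_eq_zero_iff d).1 (by omega)
      subst this
      simp [hit0]
    | succ N ih =>
      intro i
      simp only [it, Function.iterate_succ_apply']
      have := agreeBelow_subst (Φ i) (h1 i) (hit0 N) (hit0 (N + 1)) ih
      simpa only [it, Function.iterate_succ_apply'] using this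
  have hstab : ∀ N M i, N ≤ M → AgreeBelow (N + 1) (it N i) (it M i) := by
    intro N M i hNM
    induction M, hNM using Nat.le_induction with
    | base => exact fun _ _ => rfl
    | succ M hNM ih => exact fun d hd => (ih d hd).trans (hstep M i d (by omega))
  let ζ : τ → MvPowerSeries σ R := fun i d => coeff d (it d.degree i)
  have hζ : ∀ N i, AgreeBelow (N + 1) (ζ i) (it N i) := by
    intro N i d hd
    exact hstab d.degree N i (by omega) d (Nat.lt_succ_self _)
  have hζ0 : ∀ i, constantCoeff (ζ i) = 0 := fun i => by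
    rw [← coeff_zero_eq_constantCoeff_apply, hζ 0 i 0 (by simp), coeff_zero_eq_constantCoeff_apply]
    exact hit0 0 i
  refine ⟨ζ, hζ0, fun i => ?_⟩
  ext d
  have e1 := agreeBelow_subst (Φ i) (h1 i) hζ0 (hit0 d.degree) (hζ d.degree) d (by omega)
  have e2 : coeff d (ζ i) = coeff d (it (d.degree + 1) i) := hζ (d.degree + 1) i d (by omega)
  rw [e1, e2]
  simp only [it, Function.iterate_succ_apply']
  rfl

end Vale.Agent.P217
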