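/-
P217 (ORBIT): implicit series over a nonarchimedean field and formal inverses.
-/
import Vale.Agent.P217.EvalLemmasSubst
import Vale.Agent.P217.Orbit.Fixed

namespace Vale.Agent.P217

open MvPowerSeries

section formal

variable {R : Type*} [CommRing R]

lemma coeff_single_subst {σ τ : Type*} [Fintype σ] [DecidableEq σ] (b : σ → MvPowerSeries τ R)
    (hb : ∀ i, constantCoeff (b i) = 0) (f : MvPowerSeries σ R) (l : τ) :
    coeff (Finsupp.single l 1) (subst b f) =
      ∑ k, coeff (Finsupp.single k 1) f * coeff (Finsupp.single l 1) (b k) := by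
  classical
  rw [coeff_subst (hasSubst_of_constantCoeff_zero hb),
    finsum_eq_sum_of_support_subset (s := Finset.univ.image fun k : σ => Finsupp.single k 1)]
  · rw [Finset.sum_image fun x _ y _ h => (Finsupp.single_left_inj (one_ne_zero : (1 : ℕ) ≠ 0)).1 h]
    exact Finset.sum_congr rfl fun k _ => by
      rw [Finsupp.prod_single_index (h := fun s e => b s ^ e) (pow_zero _), pow_one, smul_eq_mul]
  · have hord : ∀ e : σ →₀ ℕ, (e.degree : ℕ∞) ≤ (e.prod fun s k => b s ^ k).order := by
      intro e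
      induction e using Finsupp.induction with
      | zero => simp
      | single_add a k f ha hk ih =>
        rw [map_add, Finsupp.degree_single, Nat.cast_add,
          Finsupp.prod_add_index' (fun _ => pow_zero _) (fun _ _ _ => pow_add _ _ _),
          Finsupp.prod_single_index (h := fun s e => b s ^ e) (pow_zero _)]
        exact le_trans (add_le_add (le_order_pow_of_constantCoeff_eq_zero k (hb a)) ih) le_order_mul
    intro e he
    simp only [Finset.coe_image, Finset.coe_univ, Set.image_univ, Set.mem_range]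
    by_contra hc
    apply he
    show coeff e f • coeff (Finsupp.single l 1) (e.prod fun s k => b s ^ k) = 0
    rcases lt_trichotomy e.degree 1 with h | h | h
    · have : e = 0 := (Finsupp.degree_eq_zero_iff e).1 (by omega)
      subst this
      rw [Finsupp.prod_zero_index, coeff_one, if_neg (by simp), smul_zero]
    · obtain ⟨k, rfl⟩ := (Finsupp.sum_eq_one_iff e).1 h
      exact absurd ⟨k, rfl⟩ hc
    · rw [coeff_of_lt_order (lt_of_lt_of_le (by
        rw [Finsupp.degree_single l 1]; exact_mod_cast h) (hord e)), smul_zero]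

/-- The matrix of linear coefficients. -/
noncomputable def linMatrix {m r : ℕ} (η : Fin m → MvPowerSeries (Fin r) R) : Matrix (Fin m) (Fin r) R :=
  Matrix.of fun i j => coeff (Finsupp.single j 1) (η i)

lemma linMatrix_subst {m r s : ℕ} (F : Fin m → MvPowerSeries (Fin r) R)
    (b : Fin r → MvPowerSeries (Fin s) R) (hb : ∀ i, constantCoeff (b i) = 0) :
    linMatrix (fun i => subst b (F i)) = linMatrix F * linMatrix b := by
  ext i j
  simp [linMatrix, Matrix.mul_apply, coeff_single_subst b hb]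

lemma linMatrix_X {r : ℕ} : linMatrix (fun i => (X i : MvPowerSeries (Fin r) R)) = 1 := by
  classical
  ext i j
  rw [linMatrix, Matrix.of_apply, coeff_X, Matrix.one_apply]
  simp [Finsupp.single_left_inj, eq_comm]

lemma exists_right_inverse_series {r : ℕ} (η : Fin r → MvPowerSeries (Fin r) R)
    (h0 : ∀ i, constantCoeff (η i) = 0) (hdet : IsUnit (linMatrix η).det) :
    ∃ ζ : Fin r → MvPowerSeries (Fin r) R, (∀ i, constantCoeff (ζ i) = 0) ∧
      ∀ i, subst ζ (η i) = X i := by
  classical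
  set M := linMatrix η with hM
  let e : Fin r → MvPowerSeries (Fin r ⊕ Fin r) R := fun j => X (Sum.inr j)
  have he : ∀ j, constantCoeff (e j) = 0 := fun j => constantCoeff_X _
  let h : Fin r → MvPowerSeries (Fin r ⊕ Fin r) R := fun j =>
    X (Sum.inl j) - subst e (η j) + ∑ k, C (M j k) * X (Sum.inr k)
  let Φ : Fin r → MvPowerSeries (Fin r ⊕ Fin r) R := fun i => ∑ j, C (M⁻¹ i j) * h j
  have hh0 : ∀ j, constantCoeff (h j) = 0 := fun j => by
    simp [h, constantCoeff_subst_eq_zero (hasSubst_of_constantCoeff_zero he) he (h0 j)]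
  have hh1 : ∀ j l, coeff (Finsupp.single (Sum.inr l) 1) (h j) = 0 := by
    intro j l
    simp only [h, map_add, map_sub, map_sum, coeff_C_mul, coeff_single_subst e he, e, coeff_X,
      Finsupp.single_left_inj (one_ne_zero : (1 : ℕ) ≠ 0)]
    simp [hM, linMatrix]
  obtain ⟨ζ, hζ0, hζ⟩ := exists_fixed Φ
    (fun i => by simp [Φ, hh0])
    (fun i l => by simp [Φ, coeff_C_mul, hh1])
  refine ⟨ζ, hζ0, ?_⟩
  have hel := hasSubst_elim hζ0
  have hse : ∀ j, subst (Sum.elim X ζ) (subst e (η j)) = subst ζ (η j) := by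
    intro j
    rw [subst_comp_subst_apply (hasSubst_of_constantCoeff_zero he) hel]
    congr 1
    funext k
    simp only [e, subst_X hel, Sum.elim_inr]
  have hζ' : ∀ i, ζ i = ∑ j, C (M⁻¹ i j) * (X j - subst ζ (η j) + ∑ k, C (M j k) * ζ k) := by
    intro i
    conv_lhs => rw [hζ i]
    rw [← substAlgHom_apply hel]
    simp only [Φ, h, map_sum, map_mul, map_add, map_sub, substAlgHom_apply, subst_X hel,
      subst_C, Sum.elim_inl, Sum.elim_inr, hse]
  let CM : Matrix (Fin r) (Fin r) (MvPowerSeries (Fin r) R) :=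
    M.map (C : R →+* MvPowerSeries (Fin r) R)
  let CN : Matrix (Fin r) (Fin r) (MvPowerSeries (Fin r) R) :=
    M⁻¹.map (C : R →+* MvPowerSeries (Fin r) R)
  have hMN : CM * CN = 1 := by
    rw [← Matrix.map_mul, Matrix.mul_nonsing_inv M hdet]
    simp
  have hvec : ζ = CN.mulVec ((fun j => X j - subst ζ (η j)) + CM.mulVec ζ) := by
    funext i
    conv_lhs => rw [hζ' i]
    simp only [Matrix.mulVec, dotProduct, Pi.add_apply, CM, CN, Matrix.map_apply]
  have h2 := congrArg CM.mulVec hvec
  rw [Matrix.mulVec_mulVec, hMN, Matrix.one_mulVec] at h2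
  intro i
  have h3 := congrFun h2 i
  simp only [Pi.add_apply] at h3
  exact (sub_eq_zero.1 (by linear_combination -h3)).symm

/-- Formal inverse of a family with invertible linear part. -/
theorem exists_formal_inverse {r : ℕ} (η : Fin r → MvPowerSeries (Fin r) R)
    (h0 : ∀ i, constantCoeff (η i) = 0) (hdet : IsUnit (linMatrix η).det) :
    ∃ U : Fin r → MvPowerSeries (Fin r) R, (∀ i, constantCoeff (U i) = 0) ∧
      (∀ i, subst η (U i) = X i) ∧ (∀ i, subst U (η i) = X i) ∧
      linMatrix U = (linMatrix η)⁻¹ := by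
  classical
  obtain ⟨ζ, hζ0, hζ⟩ := exists_right_inverse_series η h0 hdet
  have hlin : linMatrix η * linMatrix ζ = 1 := by
    rw [← linMatrix_subst η ζ hζ0, funext hζ, linMatrix_X]
  have hinv : linMatrix ζ = (linMatrix η)⁻¹ := (Matrix.inv_eq_right_inv hlin).symm
  have hdet' : IsUnit (linMatrix ζ).det := by
    rw [hinv]
    exact Matrix.isUnit_nonsing_inv_det _ hdet
  obtain ⟨η', hη'0, hη'⟩ := exists_right_inverse_series ζ hζ0 hdet'
  have hsζ : HasSubst ζ := hasSubst_of_constantCoeff_zero hζ0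
  have hsη' : HasSubst η' := hasSubst_of_constantCoeff_zero hη'0
  have heq : η' = η := by
    funext i
    have h1 := subst_comp_subst_apply hsζ hsη' (η i)
    rw [hζ i, subst_X hsη', funext hη'] at h1
    rw [h1, subst_self, id_eq]
  exact ⟨ζ, hζ0, fun i => by rw [← heq]; exact hη' i, hζ, hinv⟩

/-- The linear coefficients after composing with a formal inverse. -/
theorem linMatrix_subst_inverse {m r : ℕ} (F : Fin m → MvPowerSeries (Fin r) R)
    {η U : Fin r → MvPowerSeries (Fin r) R} (hU0 : ∀ i, constantCoeff (U i) = 0)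
    (hU : linMatrix U = (linMatrix η)⁻¹) :
    linMatrix (fun i => subst U (F i)) = linMatrix F * (linMatrix η)⁻¹ := by
  rw [linMatrix_subst F U hU0, hU]

/-- Independence of linear parts survives a formal change of coordinates. -/
theorem linearIndependent_linMatrix_subst {m r : ℕ} (F : Fin m → MvPowerSeries (Fin r) R)
    {η U : Fin r → MvPowerSeries (Fin r) R} (hU0 : ∀ i, constantCoeff (U i) = 0)
    (hU : linMatrix U = (linMatrix η)⁻¹) (hdet : IsUnit (linMatrix η).det)
    (hF : LinearIndependent R (linMatrix F).row) :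
    LinearIndependent R (linMatrix fun i => subst U (F i)).row := by
  rw [linMatrix_subst_inverse F hU0 hU]
  have hinj : Function.Injective (fun v : Fin r → R => Matrix.vecMul v (linMatrix η)⁻¹) := by
    intro v w h
    have := congrArg (fun x => Matrix.vecMul x (linMatrix η)) h
    simpa [Matrix.vecMul_vecMul, Matrix.nonsing_inv_mul _ hdet] using this
  have := hF.map' ((linMatrix η)⁻¹.vecMulLinear) (LinearMap.ker_eq_bot.2 hinj)
  exact this

end formal

section analytic

variable {K : Type*} [NormedField K] [IsUltrametricDist K]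

/-- The ring of elements of norm at most one. -/
def unitBallRing (K : Type*) [NormedField K] [IsUltrametricDist K] : Subring K where
  carrier := {x | ‖x‖ ≤ 1}
  one_mem' := by simp
  zero_mem' := by simp
  mul_mem' := fun ha hb => by
    simp only [Set.mem_ofPred_eq, norm_mul] at ha hb ⊢
    exact mul_le_one₀ ha (norm_nonneg _) hb
  add_mem' := fun ha hb => (IsUltrametricDist.norm_add_le_max _ _).trans (max_le ha hb)
  neg_mem' := fun ha => by simpa using ha

/-- A monomial is a contraction of order `ρ ^ (degree - 1)`. -/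
lemma norm_monomial_sub_le_pow {σ : Type*} {a b : σ → K} {ρ δ : ℝ} (hρ : 0 ≤ ρ) (hδ : 0 ≤ δ)
    (ha : ∀ i, ‖a i‖ ≤ ρ) (hb : ∀ i, ‖b i‖ ≤ ρ) (h : ∀ i, ‖a i - b i‖ ≤ δ) (d : σ →₀ ℕ) :
    ‖(d.prod fun i e => a i ^ e) - d.prod fun i e => b i ^ e‖ * ρ ≤ ρ ^ d.degree * δ := by
  suffices H : ∀ (N : ℕ) (d : σ →₀ ℕ), d.degree = N →
      ‖(d.prod fun i e => a i ^ e) - d.prod fun i e => b i ^ e‖ * ρ ≤ ρ ^ N * δ from H _ d rfl
  clear d
  intro N
  induction N with
  | zero =>
    intro d hd
    obtain rfl := (Finsupp.degree_eq_zero_iff d).1 hd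
    simp [hδ]
  | succ N ih =>
    intro d hd
    classical
    obtain ⟨i, hi⟩ : ∃ i, d i ≠ 0 := by
      by_contra! hc
      rw [show d = 0 from Finsupp.ext hc] at hd
      simp at hd
    obtain ⟨d', rfl⟩ : ∃ d', d = d' + Finsupp.single i 1 :=
      ⟨d - Finsupp.single i 1, (tsub_add_cancel_of_le
        (Finsupp.single_le_iff.2 (Nat.one_le_iff_ne_zero.2 hi))).symm⟩
    rw [map_add, Finsupp.degree_single] at hd
    have hp : ∀ c : σ → K, ((d' + Finsupp.single i 1).prod fun j e => c j ^ e) =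
        (d'.prod fun j e => c j ^ e) * c i := fun c => by
      rw [Finsupp.prod_add_index' (fun _ => pow_zero _) (fun _ _ _ => pow_add _ _ _),
        Finsupp.prod_single_index (h := fun j e => c j ^ e) (pow_zero _), pow_one]
    rw [hp, hp]
    set A := d'.prod fun j e => a j ^ e
    set B := d'.prod fun j e => b j ^ e with hB
    have hA : ‖A - B‖ * ρ ≤ ρ ^ N * δ := ih d' (by omega)
    have hBn : ‖B‖ ≤ ρ ^ N := by
      rw [hB, ← show d'.degree = N by omega]
      exact norm_monomial_le hb d'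
    have e : A * a i - B * b i = (A - B) * a i + B * (a i - b i) := by ring
    rw [e]
    refine le_trans (mul_le_mul_of_nonneg_right (IsUltrametricDist.norm_add_le_max _ _) hρ) ?_
    rw [max_mul_of_nonneg _ _ hρ, norm_mul, norm_mul]
    refine max_le ?_ ?_
    · calc ‖A - B‖ * ‖a i‖ * ρ = ‖A - B‖ * ρ * ‖a i‖ := by ring
        _ ≤ ρ ^ N * δ * ρ := mul_le_mul hA (ha i) (norm_nonneg _) (by positivity)
        _ = _ := by ring
    · calc ‖B‖ * ‖a i - b i‖ * ρ ≤ ρ ^ N * δ * ρ :=
          mul_le_mul_of_nonneg_right (mul_le_mul hBn (h i) (norm_nonneg _) (by positivity)) hρ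
        _ = _ := by ring

variable [CompleteSpace K]

/-- An integral series without linear terms in `z` is a strict contraction in `z`. -/
lemma norm_ev_sub_ev_le_mul {σ : Type*} [Finite σ] {Φ : MvPowerSeries (σ ⊕ Unit) K}
    (hΦ : IntegralSeries Φ) (h1 : coeff (Finsupp.single (Sum.inr ()) 1) Φ = 0)
    {t : σ → K} {z w : K} {ρ : ℝ} (hρ0 : 0 < ρ) (hρ1 : ρ < 1) (ht : ∀ i, ‖t i‖ ≤ ρ)
    (hz : ‖z‖ ≤ ρ) (hw : ‖w‖ ≤ ρ) :
    ‖ev Φ (Sum.elim t fun _ => z) - ev Φ (Sum.elim t fun _ => w)‖ ≤ ρ * ‖z - w‖ := by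
  have hA : ∀ s, ‖Sum.elim t (fun _ : Unit => z) s‖ ≤ ρ := fun s => by cases s <;> simp [ht, hz]
  have hB : ∀ s, ‖Sum.elim t (fun _ : Unit => w) s‖ ≤ ρ := fun s => by cases s <;> simp [ht, hw]
  rw [ev_eq_tsum, ev_eq_tsum, ← (conv_of_integral hΦ fun s => (hA s).trans_lt hρ1).tsum_sub
    (conv_of_integral hΦ fun s => (hB s).trans_lt hρ1)]
  refine norm_tsum_le_of_forall (by positivity) fun d => ?_
  rw [evTerm, evTerm, ← mul_sub, norm_mul]
  rcases lt_trichotomy d.degree 1 with hd | hd | hd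
  · obtain rfl : d = 0 := (Finsupp.degree_eq_zero_iff d).1 (by omega)
    simp only [Finsupp.prod_zero_index, sub_self, norm_zero, mul_zero]
    positivity
  · obtain ⟨s, rfl⟩ := (Finsupp.sum_eq_one_iff d).1 hd
    rw [Finsupp.prod_single_index (h := fun i e => Sum.elim t (fun _ : Unit => z) i ^ e) (pow_zero _),
      Finsupp.prod_single_index (h := fun i e => Sum.elim t (fun _ : Unit => w) i ^ e) (pow_zero _)]
    simp only [pow_one]
    cases s with
    | inl i => simp only [Sum.elim_inl, sub_self, norm_zero, mul_zero]; positivity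
    | inr u => rw [h1, norm_zero, zero_mul]; positivity
  · have h := norm_monomial_sub_le_pow hρ0.le (norm_nonneg (z - w)) hA hB
      (fun s => by cases s <;> simp) d
    have h2 : ρ ^ d.degree ≤ ρ ^ 2 := pow_le_pow_of_le_one hρ0.le hρ1.le (by omega)
    have h3 : ‖(d.prod fun i e => Sum.elim t (fun _ => z) i ^ e) -
        d.prod fun i e => Sum.elim t (fun _ => w) i ^ e‖ ≤ ρ * ‖z - w‖ :=
      le_of_mul_le_mul_right (by
        calc _ ≤ ρ ^ d.degree * ‖z - w‖ := h
          _ ≤ ρ ^ 2 * ‖z - w‖ := mul_le_mul_of_nonneg_right h2 (norm_nonneg _)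
          _ = _ := by ring) hρ0
    calc _ ≤ 1 * (ρ * ‖z - w‖) := mul_le_mul (hΦ d) h3 (norm_nonneg _) zero_le_one
      _ = _ := one_mul _

/-- The scaled implicit function theorem: `S(c² t, z) = 0` is solved by `z = c L(t)`. -/
theorem implicit_series {σ : Type*} [Finite σ] (S : MvPowerSeries (σ ⊕ Unit) K)
    (hS : IntegralSeries S) (h0 : constantCoeff S = 0) (c : K) (hc : c ≠ 0)
    (hlin : coeff (Finsupp.single (Sum.inr ()) 1) S = c) :
    ∃ L : MvPowerSeries σ K, IntegralSeries L ∧ constantCoeff L = 0 ∧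
      (∀ t : σ → K, (∀ i, ‖t i‖ < 1) → ‖c * ev L t‖ < ‖c‖ ∧
        ev S (Sum.elim (fun i => c ^ 2 * t i) fun _ => c * ev L t) = 0) ∧
      ∀ t : σ → K, (∀ i, ‖t i‖ < 1) → ∀ z : K, ‖z‖ < ‖c‖ →
        ev S (Sum.elim (fun i => c ^ 2 * t i) fun _ => z) = 0 → z = c * ev L t := by
  classical
  set z₁ : σ ⊕ Unit →₀ ℕ := Finsupp.single (Sum.inr ()) 1 with hz₁
  have hc1 : ‖c‖ ≤ 1 := hlin ▸ hS z₁
  let μ : σ ⊕ Unit → K := Sum.elim (fun _ => c ^ 2) fun _ => c
  let wgt : σ ⊕ Unit → ℕ := Sum.elim (fun _ => 2) fun _ => 1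
  let W : (σ ⊕ Unit →₀ ℕ) → ℕ := fun d => d.sum fun s k => wgt s * k
  let Φ : MvPowerSeries (σ ⊕ Unit) K := fun d =>
    if d = z₁ then 0 else -(coeff d S * c ^ (W d - 2))
  have hΦd : ∀ d, coeff d Φ = if d = z₁ then 0 else -(coeff d S * c ^ (W d - 2)) := fun d => rfl
  have hΦ : IntegralSeries Φ := fun d => by
    rw [hΦd]
    split_ifs
    · simp
    · rw [norm_neg, norm_mul, norm_pow]
      exact mul_le_one₀ (hS d) (by positivity) (pow_le_one₀ (norm_nonneg _) hc1)
  have hΦ0 : constantCoeff Φ = 0 := by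
    rw [← coeff_zero_eq_constantCoeff_apply, hΦd,
      if_neg (by rw [hz₁]; exact (Finsupp.single_ne_zero.2 one_ne_zero).symm),
      coeff_zero_eq_constantCoeff_apply, h0, zero_mul, neg_zero]
  have hΦ1 : coeff z₁ Φ = 0 := by rw [hΦd, if_pos rfl]
  -- the scaled series
  have hμ : ∀ d : σ ⊕ Unit →₀ ℕ, (d.prod fun s k => μ s ^ k) = c ^ W d := by
    intro d
    simp only [W, Finsupp.prod, Finsupp.sum, ← Finset.prod_pow_eq_pow_sum]
    refine Finset.prod_congr rfl fun s _ => ?_
    cases s <;> simp [μ, wgt, pow_mul]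
  have hW : ∀ d : σ ⊕ Unit →₀ ℕ, d ≠ 0 → d ≠ z₁ → 2 ≤ W d := by
    intro d hd0 hd1
    obtain ⟨s, hs⟩ : ∃ s, d s ≠ 0 := by
      by_contra! h
      exact hd0 (Finsupp.ext h)
    have hmem : ∀ s, d s ≠ 0 → wgt s * d s ≤ W d := fun s hs =>
      Finset.single_le_sum (f := fun s => wgt s * d s) (fun _ _ => Nat.zero_le _)
        (Finsupp.mem_support_iff.2 hs)
    cases s with
    | inl i => exact le_trans (by simp only [wgt, Sum.elim_inl]; omega) (hmem _ hs)
    | inr u =>
      by_cases h2 : ∃ i, d (Sum.inl i) ≠ 0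
      · obtain ⟨i, hi⟩ := h2
        exact le_trans (by simp only [wgt, Sum.elim_inl]; omega) (hmem _ hi)
      push Not at h2
      have : 2 ≤ d (Sum.inr u) := by
        by_contra h
        apply hd1
        ext s
        cases s with
        | inl i => simp [hz₁, h2 i]
        | inr v => rw [hz₁, Subsingleton.elim v u]; simp; omega
      exact le_trans (by simp only [wgt, Sum.elim_inr]; omega) (hmem _ hs)
  have hresc : rescale μ S = C (c ^ 2) * (X (Sum.inr ()) - Φ) := by
    refine MvPowerSeries.ext fun d => ?_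
    rw [coeff_rescale, coeff_C_mul, map_sub, hΦd, hμ, coeff_X, ← hz₁]
    by_cases h1 : d = z₁
    · subst h1
      rw [if_pos rfl, if_pos rfl, hlin]
      simp [W, hz₁, wgt]
      ring
    rw [if_neg h1, if_neg h1]
    by_cases h2 : d = 0
    · subst h2
      rw [coeff_zero_eq_constantCoeff_apply, h0]
      simp
    obtain ⟨k, hk⟩ : ∃ k, W d = k + 2 := ⟨W d - 2, by have := hW d h2 h1; omega⟩
    rw [hk, Nat.add_sub_cancel, pow_add]
    ring
  have hscale : ∀ a : σ ⊕ Unit → K, ev (rescale μ S) a = ev S fun s => μ s * a s := by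
    intro a
    rw [ev_eq_tsum, ev_eq_tsum]
    refine tsum_congr fun d => ?_
    simp only [evTerm, coeff_rescale, mul_pow, Finsupp.prod_mul]
    ring
  have hSev : ∀ (t : σ → K) (w : K), (∀ i, ‖t i‖ < 1) → ‖w‖ < 1 →
      ev S (Sum.elim (fun i => c ^ 2 * t i) fun _ => c * w) =
        c ^ 2 * (w - ev Φ (Sum.elim t fun _ => w)) := by
    intro t w ht hw
    have hlt : ∀ s, ‖Sum.elim t (fun _ : Unit => w) s‖ < 1 := fun s => by
      cases s <;> simp [ht, hw]
    have h := hscale (Sum.elim t fun _ => w)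
    rw [hresc, ev_C_mul, ev_sub (conv_X _ _) (conv_of_integral hΦ hlt), ev_X] at h
    rw [show (Sum.elim (fun i => c ^ 2 * t i) fun _ : Unit => c * w) =
      fun s => μ s * Sum.elim t (fun _ => w) s from funext fun s => by cases s <;> simp [μ]]
    exact h.symm
  -- the fixed point
  let O := unitBallRing K
  let Φ' : MvPowerSeries (σ ⊕ Unit) O := fun d => ⟨coeff d Φ, hΦ d⟩
  have hΦ'm : MvPowerSeries.map O.subtype Φ' = Φ := MvPowerSeries.ext fun d => rfl
  obtain ⟨ζ, hζ0, hζ⟩ := exists_fixed (σ := σ) (fun _ : Unit => Φ')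
    (fun _ => Subtype.ext (by
      change coeff 0 Φ = 0
      rw [coeff_zero_eq_constantCoeff_apply, hΦ0]))
    (fun _ u => Subtype.ext hΦ1)
  set L : MvPowerSeries σ K := MvPowerSeries.map O.subtype (ζ ()) with hL
  have hLi : IntegralSeries L := fun d => by
    rw [hL, coeff_map]
    exact (coeff d (ζ ())).2
  have hL0 : constantCoeff L = 0 := by rw [hL, constantCoeff_map, hζ0, map_zero]
  have hLfix : L = subst (Sum.elim (X : σ → MvPowerSeries σ K) fun _ => L) Φ := by
    conv_lhs => rw [hL, hζ ()]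
    rw [map_subst (hasSubst_elim hζ0), hΦ'm]
    congr 1
    funext s
    cases s with
    | inl i => simp
    | inr u => rfl
  have hLev : ∀ t : σ → K, (∀ i, ‖t i‖ < 1) →
      ev L t = ev Φ (Sum.elim t fun _ => ev L t) := by
    intro t ht
    conv_lhs => rw [hLfix]
    rw [ev_subst hΦ (fun s => by cases s <;> simp [IntegralSeries.X, hLi])
      (fun s => by cases s <;> simp [hL0]) ht]
    congr 1
    funext s
    cases s <;> simp [ev_X]
  refine ⟨L, hLi, hL0, fun t ht => ?_, fun t ht z hz heq => ?_⟩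
  · have h1 := norm_ev_lt_one hLi hL0 ht
    refine ⟨?_, ?_⟩
    · rw [norm_mul]
      exact mul_lt_of_lt_one_right (norm_pos_iff.2 hc) h1
    · rw [hSev t _ ht h1, ← hLev t ht, sub_self, mul_zero]
  · set w := z / c with hw
    have hzw : z = c * w := by rw [hw, mul_div_cancel₀ _ hc]
    have hw1 : ‖w‖ < 1 := by rwa [hw, norm_div, div_lt_one (norm_pos_iff.2 hc)]
    rw [hzw, hSev t w ht hw1, mul_eq_zero, or_iff_right (pow_ne_zero 2 hc), sub_eq_zero] at heq
    have h1 := norm_ev_lt_one hLi hL0 ht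
    obtain ⟨ρ, hρ0, hρ1, hρ⟩ := exists_radius
      (a := Sum.elim t fun b : Bool => if b then w else ev L t)
      (fun s => by rcases s with i | b; exact ht i; cases b <;> simp [hw1, h1])
    have hcon := norm_ev_sub_ev_le_mul hΦ hΦ1 (t := t) hρ0 hρ1
      (fun i => by simpa using hρ (Sum.inl i))
      (z := w) (w := ev L t) (by simpa using hρ (Sum.inr true)) (by simpa using hρ (Sum.inr false))
    rw [← heq, ← hLev t ht] at hcon
    have : w = ev L t := by
      by_contra hne
      have hpos := norm_pos_iff.2 (sub_ne_zero.2 hne)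
      nlinarith
    rw [hzw, this]

end analytic

end Vale.Agent.P217
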