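/-
P217 (ORBIT): basic facts on perturbations of the point along the slots.
-/
import Vale.Agent.P217.Orbit.PertDefs
import Vale.Agent.P217.EvalLemmasTranslate
import Vale.Agent.P217.ContLimit

namespace Vale.Agent.P217

open MvPowerSeries Filter Topology

variable {p n : ℕ} [Fact p.Prime] {K : Type} [NormedField K]

/-- The constants at a point. -/
noncomputable def constHom (x : LT p n →+* K) : WittVector p (Res p n) →+* K :=
  x.comp MvPowerSeries.C

lemma constHom_apply (x : LT p n →+* K) (c : WittVector p (Res p n)) :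
    constHom x c = x (MvPowerSeries.C c) := rfl

lemma red_C_constantCoeff (a : LT p n) :
    red p n (MvPowerSeries.C (MvPowerSeries.constantCoeff a)) = red p n a := by
  simp [red]

lemma X_mem_maximal (l : Fin (n - 1)) :
    (MvPowerSeries.X l : LT p n) ∈ IsLocalRing.maximalIdeal (LT p n) := by
  rw [IsLocalRing.mem_maximalIdeal, mem_nonunits_iff, MvPowerSeries.isUnit_iff_constantCoeff]
  simp

variable [IsUltrametricDist K] [CompleteSpace K]

/-- A small ring homomorphism is evaluation at the values of the parameters. -/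
theorem ringHom_eq_ev_LT {x : LT p n →+* K} (h1 : ∀ a, ‖x a‖ ≤ 1)
    (h2 : ∀ a ∈ IsLocalRing.maximalIdeal (LT p n), ‖x a‖ < 1) (a : LT p n) :
    x a = ev (MvPowerSeries.map (constHom x) a) (uvec x) := by
  classical
  have hu : ∀ l, ‖uvec x l‖ < 1 := fun l => h2 _ (X_mem_maximal l)
  obtain ⟨ε, hε0, hε1, hε⟩ := exists_radius hu
  have hint : IntegralSeries (MvPowerSeries.map (constHom x) a) :=
    IntegralSeries.map (constHom x) (fun c => h1 _) a
  have key : ∀ D : ℕ, ‖x a - ev (MvPowerSeries.map (constHom x) a) (uvec x)‖ ≤ ε ^ D := by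
    intro D
    set S := (finite_degree_lt (σ := Fin (n - 1)) D).toFinset with hS
    set q : MvPolynomial (Fin (n - 1)) (WittVector p (Res p n)) :=
      ∑ d ∈ S, MvPolynomial.monomial d (MvPowerSeries.coeff d a) with hq
    have hq' : ∀ d, d.degree < D →
        MvPowerSeries.coeff d (a - (q : MvPowerSeries _ _)) = 0 := fun d hd => by
      rw [map_sub, MvPolynomial.coeff_coe, hq, MvPolynomial.coeff_sum,
        Finset.sum_eq_single d (fun e _ he => by rw [MvPolynomial.coeff_monomial, if_neg he])
          (fun hn => absurd (by simpa [hS] using hd : d ∈ S) hn),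
        MvPolynomial.coeff_monomial, if_pos rfl, sub_self]
    have e1 : ‖x (a - (q : LT p n))‖ ≤ ε ^ D := by
      have hball : ∀ k : ℕ, Ideal.span (Set.range (MvPowerSeries.X : Fin (n - 1) → LT p n)) ^ k ≤
          ({ carrier := {b | ‖x b‖ ≤ ε ^ k}
             zero_mem' := by simp [pow_nonneg hε0.le]
             add_mem' := fun {b c} hb hc => by
               simp only [Set.mem_ofPred_eq, map_add] at hb hc ⊢
               exact (IsUltrametricDist.norm_add_le_max _ _).trans (max_le hb hc)
             smul_mem' := fun c b hb => by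
               simp only [Set.mem_ofPred_eq, smul_eq_mul, map_mul, norm_mul] at hb ⊢
               exact (mul_le_mul (h1 c) hb (norm_nonneg _) zero_le_one).trans (one_mul _).le } :
            Ideal (LT p n)) := by
        intro k
        induction k with
        | zero => intro b _; show ‖x b‖ ≤ ε ^ 0; simpa using h1 b
        | succ k ih =>
          rw [pow_succ, Ideal.mul_le]
          intro b hb c hc
          show ‖x (b * c)‖ ≤ ε ^ (k + 1)
          rw [map_mul, norm_mul, pow_succ]
          refine mul_le_mul (ih hb) ?_ (norm_nonneg _) (pow_nonneg hε0.le _)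
          induction hc using Submodule.span_induction with
          | mem b hb => obtain ⟨l, rfl⟩ := hb; exact hε l
          | zero => simp [hε0.le]
          | add b c _ _ hb hc =>
            rw [map_add]
            exact (IsUltrametricDist.norm_add_le_max _ _).trans (max_le hb hc)
          | smul r b _ hb =>
            rw [smul_eq_mul, map_mul, norm_mul]
            exact (mul_le_mul (h1 r) hb (norm_nonneg _) zero_le_one).trans (one_mul _).le
      exact hball D (mem_span_X_pow_of_coeff_eq_zero D _ hq')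
    have e2 : x (q : LT p n) = ev (MvPowerSeries.map (constHom x) (q : LT p n)) (uvec x) := by
      have hqm : MvPowerSeries.map (constHom x) (q : LT p n) =
          ((MvPolynomial.map (constHom x) q : MvPolynomial (Fin (n - 1)) K) : MvPowerSeries _ K) := by
        ext d
        simp [MvPolynomial.coeff_coe, MvPolynomial.coeff_map]
      rw [hqm, ev_coe, MvPolynomial.eval_map]
      refine (DFunLike.congr_fun (?_ : x.comp (MvPolynomial.coeToMvPowerSeries.ringHom) =
        MvPolynomial.eval₂Hom (constHom x) (uvec x)) q :)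
      refine MvPolynomial.ringHom_ext (fun c => ?_) (fun l => ?_) <;>
        simp [constHom, uvec]
    have hi2 : IntegralSeries (MvPowerSeries.map (constHom x) (q : LT p n)) :=
      IntegralSeries.map (constHom x) (fun c => h1 _) _
    have e3 : ‖ev (MvPowerSeries.map (constHom x) (a - (q : LT p n))) (uvec x)‖ ≤ ε ^ D :=
      norm_ev_le_pow (IntegralSeries.map (constHom x) (fun c => h1 _) _)
        (fun d hd => by rw [MvPowerSeries.coeff_map, hq' d hd, map_zero]) hε0.le hε1.le hε
    have e4 : x a - ev (MvPowerSeries.map (constHom x) a) (uvec x) =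
        x (a - (q : LT p n)) - ev (MvPowerSeries.map (constHom x) (a - (q : LT p n))) (uvec x) := by
      rw [map_sub x, map_sub (MvPowerSeries.map _), ev_sub (conv_of_integral hint hu)
        (conv_of_integral hi2 hu), e2]
      ring
    rw [e4, sub_eq_add_neg]
    exact (IsUltrametricDist.norm_add_le_max _ _).trans (max_le e1 (by rwa [norm_neg]))
  have h0 : ‖x a - ev (MvPowerSeries.map (constHom x) a) (uvec x)‖ ≤ 0 :=
    ge_of_tendsto' (tendsto_pow_atTop_nhds_zero_of_lt_one hε0.le hε1) key
  exact sub_eq_zero.1 (norm_le_zero_iff.1 h0)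

/-- The vector supported on the slots. -/
noncomputable def extDu (h : ℕ) (du : Fin (n - h) → K) (l : Fin (n - 1)) : K :=
  if hl : h ≤ l.val + 1 then du ⟨l.val + 1 - h, by omega⟩ else 0

section

variable {h : ℕ} (hh : 1 ≤ h)

omit [Fact p.Prime] [IsUltrametricDist K] [CompleteSpace K] in
lemma extDu_slot (du : Fin (n - h) → K) (j : Fin (n - h)) :
    extDu h du (slot n h hh j) = du j := by
  have hl : h ≤ (slot n h hh j).val + 1 := by simp only [slot]; omega
  rw [extDu, dif_pos hl]
  congr 1
  ext
  simp only [slot]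
  omega

omit [Fact p.Prime] [IsUltrametricDist K] [CompleteSpace K] in
lemma norm_extDu_le {du : Fin (n - h) → K} {η : ℝ} (hη : 0 ≤ η) (hdu : ∀ j, ‖du j‖ ≤ η)
    (l : Fin (n - 1)) : ‖extDu h du l‖ ≤ η := by
  rw [extDu]
  split
  · exact hdu _
  · simpa using hη

omit [Fact p.Prime] [IsUltrametricDist K] [CompleteSpace K] in
lemma norm_extDu_lt {du : Fin (n - h) → K} (hdu : ∀ j, ‖du j‖ < 1) (l : Fin (n - 1)) :
    ‖extDu h du l‖ < 1 := by
  rw [extDu]
  split
  · exact hdu _
  · simp

omit [IsUltrametricDist K] [CompleteSpace K] in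
lemma uvec_eq_of_isPert {x x' : LT p n →+* K} (hx : ∀ a ∈ heightIdeal p n h, x a = 0)
    (hx' : IsPert h x x') : uvec x' = uvec x + extDu h (duOf h hh x x') := by
  funext l
  rw [Pi.add_apply]
  by_cases hl : h ≤ l.val + 1
  · rw [extDu, dif_pos hl, duOf]
    have : slot n h hh ⟨l.val + 1 - h, by omega⟩ = l := by
      ext; simp only [slot]; omega
    rw [this, uvec, uvec]
    ring
  · have hmem : (MvPowerSeries.X l : LT p n) ∈ heightIdeal p n h := by
      refine Ideal.subset_span ⟨l.val + 1, show l.val + 1 < h by omega, ?_⟩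
      rw [par, dif_pos ⟨by omega, by omega⟩]
      rfl
    rw [extDu, dif_neg hl, uvec, uvec, hx'.low _ hmem, hx _ hmem, add_zero]

end

section

variable {h : ℕ} (hh : 1 ≤ h) {x x' : LT p n →+* K}
  (h1 : ∀ a, ‖x a‖ ≤ 1) (h2 : ∀ a ∈ IsLocalRing.maximalIdeal (LT p n), ‖x a‖ < 1)
  (h3 : ∀ a ∈ heightIdeal p n h, x a = 0)

omit [CompleteSpace K] in
include h2 in
lemma norm_duOf_lt (hx' : IsPert h x x') (j : Fin (n - h)) : ‖duOf h hh x x' j‖ < 1 := by
  rw [duOf, sub_eq_add_neg]
  exact norm_add_lt_one (hx'.norm_lt _ (X_mem_maximal _))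
    (by rw [norm_neg]; exact h2 _ (X_mem_maximal _))

include h3 in
lemma apply_eq_ev_of_isPert (hx' : IsPert h x x') (a : LT p n) :
    x' a = ev (MvPowerSeries.map (constHom x) a) (uvec x + extDu h (duOf h hh x x')) := by
  rw [ringHom_eq_ev_LT hx'.norm_le hx'.norm_lt, uvec_eq_of_isPert hh h3 hx']
  rw [show constHom x' = constHom x from RingHom.ext hx'.const]

include h1 h2 h3 in
/-- A perturbation moves all values by at most the size of the slot coordinates. -/
lemma norm_apply_sub_le (hx' : IsPert h x x') {η : ℝ} (hη : ∀ j, ‖duOf h hh x x' j‖ ≤ η)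
    (hη0 : 0 ≤ η) (a : LT p n) : ‖x' a - x a‖ ≤ η := by
  rw [apply_eq_ev_of_isPert hh h3 hx', ringHom_eq_ev_LT h1 h2]
  have hu : ∀ l, ‖uvec x l‖ < 1 := fun l => h2 _ (X_mem_maximal l)
  refine norm_ev_sub_ev_le (IntegralSeries.map (constHom x) (fun c => h1 _) a) (fun l => ?_) hu hη0 fun l => ?_
  · exact norm_add_lt_one (hu l) (norm_extDu_lt (norm_duOf_lt hh h2 hx') l)
  · rw [Pi.add_apply, add_sub_cancel_left]
    exact norm_extDu_le hη0 hη l

/-- The perturbation with given slot coordinates. -/
noncomputable def pertHom (du : Fin (n - h) → K) (hdu : ∀ j, ‖du j‖ < 1) : LT p n →+* K where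
  toFun a := ev (MvPowerSeries.map (constHom x) a) (uvec x + extDu h du)
  map_one' := by rw [map_one, ev_one]
  map_zero' := by rw [map_zero, ev_zero]
  map_mul' a b := by
    have hu : ∀ l, ‖(uvec x + extDu h du) l‖ < 1 := fun l =>
      norm_add_lt_one (h2 _ (X_mem_maximal l)) (norm_extDu_lt hdu l)
    rw [map_mul, ev_mul (conv_of_integral (IntegralSeries.map (constHom x) (fun c => h1 _) a) hu)
      (conv_of_integral (IntegralSeries.map (constHom x) (fun c => h1 _) b) hu)]
  map_add' a b := by
    have hu : ∀ l, ‖(uvec x + extDu h du) l‖ < 1 := fun l =>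
      norm_add_lt_one (h2 _ (X_mem_maximal l)) (norm_extDu_lt hdu l)
    rw [map_add, ev_add (conv_of_integral (IntegralSeries.map (constHom x) (fun c => h1 _) a) hu)
      (conv_of_integral (IntegralSeries.map (constHom x) (fun c => h1 _) b) hu)]

lemma pertHom_apply (du : Fin (n - h) → K) (hdu : ∀ j, ‖du j‖ < 1) (a : LT p n) :
    pertHom h1 h2 du hdu a = ev (MvPowerSeries.map (constHom x) a) (uvec x + extDu h du) := rfl

lemma pertHom_C (du : Fin (n - h) → K) (hdu : ∀ j, ‖du j‖ < 1) (c : WittVector p (Res p n)) :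
    pertHom h1 h2 du hdu (MvPowerSeries.C c) = x (MvPowerSeries.C c) := by
  rw [pertHom_apply, MvPowerSeries.map_C, ev_C, constHom_apply]

lemma pertHom_X (du : Fin (n - h) → K) (hdu : ∀ j, ‖du j‖ < 1) (l : Fin (n - 1)) :
    pertHom h1 h2 du hdu (MvPowerSeries.X l) = uvec x l + extDu h du l := by
  rw [pertHom_apply, MvPowerSeries.map_X, ev_X]
  rfl

include hh h3 in
lemma isPert_pertHom (du : Fin (n - h) → K) (hdu : ∀ j, ‖du j‖ < 1) :
    IsPert h x (pertHom h1 h2 du hdu) ∧ duOf h hh x (pertHom h1 h2 du hdu) = du := by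
  have hu : ∀ l, ‖(uvec x + extDu h du) l‖ < 1 := fun l =>
    norm_add_lt_one (h2 _ (X_mem_maximal l)) (norm_extDu_lt hdu l)
  refine ⟨⟨fun a => ?_, fun a ha => ?_, pertHom_C h1 h2 du hdu, fun a ha => ?_⟩, funext fun j => ?_⟩
  · exact norm_ev_le_one (IntegralSeries.map (constHom x) (fun c => h1 _) a) fun l => (hu l).le
  · set c := MvPowerSeries.constantCoeff a with hc
    have hcm : (MvPowerSeries.C c : LT p n) ∈ IsLocalRing.maximalIdeal (LT p n) := by
      rw [IsLocalRing.mem_maximalIdeal, mem_nonunits_iff] at ha ⊢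
      rw [MvPowerSeries.isUnit_iff_constantCoeff] at ha ⊢
      simpa [hc] using ha
    have e : a = MvPowerSeries.C c + (a - MvPowerSeries.C c) := by ring
    rw [e, map_add]
    refine norm_add_lt_one (by rw [pertHom_C]; exact h2 _ hcm) ?_
    rw [pertHom_apply]
    exact norm_ev_lt_one (IntegralSeries.map (constHom x) (fun c => h1 _) _) (by simp [hc]) hu
  · suffices heightIdeal p n h ≤ RingHom.ker (pertHom h1 h2 du hdu) from this ha
    refine Ideal.span_le.2 ?_
    rintro _ ⟨i, hi, rfl⟩
    rw [SetLike.mem_coe, RingHom.mem_ker]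
    have hmem : par p n i ∈ heightIdeal p n h := Ideal.subset_span ⟨i, hi, rfl⟩
    by_cases hi' : 1 ≤ i ∧ i < n
    · have h0 := h3 _ hmem
      rw [par, dif_pos hi'] at h0 ⊢
      rw [pertHom_X, uvec, h0, extDu, dif_neg, add_zero]
      have hi2 : i < h := hi
      simp only
      omega
    · rw [par, dif_neg hi'] at hmem ⊢
      split_ifs at hmem ⊢ with h0
      · have hp := h3 _ hmem
        rw [map_natCast] at hp ⊢
        exact hp
      · exact absurd (h3 1 hmem) (by simp)
  · rw [duOf, pertHom_X, extDu_slot hh, uvec, add_sub_cancel_left]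

/-- A two-block series evaluates to the series at the perturbed point. -/
lemma ev_bigSeries {τ : Type} [Finite τ] (hx' : IsPert h x x') (A : MvPowerSeries τ (LT p n))
    (h1' : ∀ a, ‖x a‖ ≤ 1) {y : τ → K} (hy : ∀ i, ‖y i‖ < 1) :
    ev (bigSeries x A) (Sum.elim (uvec x') y) = ev (MvPowerSeries.map x' A) y := by
  have hint : IntegralSeries (bigSeries x A) := fun d => h1' _
  rw [← ev_evLeft hint (x := uvec x') (fun l => hx'.norm_lt _ (X_mem_maximal l)) hy]
  congr 1
  ext d
  rw [coeff_evLeft, MvPowerSeries.coeff_map, ringHom_eq_ev_LT hx'.norm_le hx'.norm_lt]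
  congr 1
  ext c
  rw [coeff_slice, MvPowerSeries.coeff_map, constHom_apply, hx'.const, MvPowerSeries.coeff_apply,
    bigSeries, Equiv.apply_symm_apply]

end

end Vale.Agent.P217
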