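/-
P217 (ORBIT): the `p`-series at a point killing `I_h`: it is a series in `x^(p^h)`.
-/
import Vale.Agent.P217.SpecPos
import Vale.Agent.P217.EvalLemmasBounds
import Vale.Agent.P217.Easy.Ideals
import Vale.Agent.P217.Easy.PSeries
import Vale.Agent.P217.Law.Basic

noncomputable section

namespace Vale.Agent.P217

open MvPowerSeries

/-- The series `g` with `x_* e = g(X^(p^h))`. -/
def gSer {p n : ℕ} [Fact p.Prime] {K : Type} [CommRing K] (h : ℕ) (e : PowerSeries (LT p n))
    (x : LT p n →+* K) : PowerSeries K :=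
  PowerSeries.mk fun b => x (PowerSeries.coeff (p ^ h * b) e)

variable {p n : ℕ} [Fact p.Prime]

theorem coeff_gSer {K : Type} [CommRing K] (h b : ℕ) (e : PowerSeries (LT p n))
    (x : LT p n →+* K) :
    PowerSeries.coeff b (gSer h e x) = x (PowerSeries.coeff (p ^ h * b) e) := by
  rw [gSer, PowerSeries.coeff_mk]

/-- (1) the `p`-series at the point is a series in `X^(p^h)`. -/
theorem map_eq_expand_gSer {K : Type} [CommRing K] {e : PowerSeries (LT p n)}
    (hE : PSeriesFacts p n e) {h : ℕ} (hn : h ≤ n) {x : LT p n →+* K}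
    (hx : ∀ a ∈ heightIdeal p n h, x a = 0) :
    PowerSeries.map x e =
      PowerSeries.expand (p ^ h) (pow_ne_zero _ (Fact.out : p.Prime).ne_zero) (gSer h e x) := by
  ext b
  rw [PowerSeries.coeff_map, PowerSeries.coeff_expand]
  split_ifs with hb
  · rw [coeff_gSer, Nat.mul_div_cancel' hb]
  · exact hx _ (hE.frobenius h hn b hb)

/-- Evaluation of an expanded series. -/
theorem ev₁_expand {K : Type} [NormedField K] (P : ℕ) (hP : P ≠ 0) (f : PowerSeries K) (z : K) :
    ev₁ (PowerSeries.expand P hP f) z = ev₁ f (z ^ P) := by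
  have key : ∀ (g : PowerSeries K) (a : K), ev₁ g a = ∑' b : ℕ, PowerSeries.coeff b g * a ^ b := by
    intro g a
    rw [ev₁, ev, ← (Finsupp.uniqueEquiv (α := Unit) (M := ℕ) ()).symm.tsum_eq]
    refine tsum_congr fun b => ?_
    simp [PowerSeries.coeff]
  rw [key, key]
  refine ((mul_right_injective₀ hP).tsum_eq ?_).symm.trans (tsum_congr fun b => ?_)
  · intro m hm
    by_contra hn
    refine hm ?_
    have : ¬ P ∣ m := fun ⟨c, hc⟩ => hn ⟨c, hc.symm⟩
    show PowerSeries.coeff m _ * _ = 0
    rw [PowerSeries.coeff_expand_of_not_dvd P hP f this, zero_mul]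
  · rw [PowerSeries.coeff_expand_mul, pow_mul]

/-- (1) values of the `p`-series at the point. -/
theorem ev₁_map_eq_gSer {K : Type} [NormedField K] {e : PowerSeries (LT p n)}
    (hE : PSeriesFacts p n e) {h : ℕ} (hn : h ≤ n) {x : LT p n →+* K}
    (hx : ∀ a ∈ heightIdeal p n h, x a = 0) (z : K) :
    ev₁ (PowerSeries.map x e) z = ev₁ (gSer h e x) (z ^ p ^ h) := by
  rw [map_eq_expand_gSer hE hn hx, ev₁_expand]

/-- The constant coefficient of `g`. -/
theorem constantCoeff_gSer {K : Type} [CommRing K] {e : PowerSeries (LT p n)}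
    (he : IsPSeries p n e) (h : ℕ) (x : LT p n →+* K) :
    PowerSeries.constantCoeff (gSer h e x) = 0 := by
  rw [← PowerSeries.coeff_zero_eq_constantCoeff_apply, coeff_gSer, mul_zero,
    PowerSeries.coeff_zero_eq_constantCoeff_apply, he.1, map_zero]

/-- `e` is the multiplication by `p` of the universal law. -/
theorem IsPSeries.eq_mser {F : FormalGroup (LT p n)} (hF : IsUniversalLaw p n F)
    {e : PowerSeries (LT p n)} (he : IsPSeries p n e) : e = Easy.mser F p := by
  refine eq_of_log_eq p n (a := e) (b := Easy.mser F p) he.1 (Easy.constantCoeff_mser F p) ?_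
  have h2 := Easy.subst_mser_log (F := F.map (toRat p n)) (logSeries_constantCoeff p n) hF p
  rw [← Easy.map_mser F (toRat p n)] at h2
  refine he.2.trans (h2.trans ?_).symm
  rw [nsmul_eq_mul, map_natCast]

/-- (2) the linear coefficient of `g` is the value of `u_h`. -/
theorem coeff_one_gSer {K : Type} [CommRing K] {F : FormalGroup (LT p n)}
    (hF : IsUniversalLaw p n F) {e : PowerSeries (LT p n)} (he : IsPSeries p n e) {h : ℕ}
    (h1 : 1 ≤ h) (hn : h ≤ n) {x : LT p n →+* K} (hx : ∀ a ∈ heightIdeal p n h, x a = 0) :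
    PowerSeries.coeff 1 (gSer h e x) = x (par p n h) := by
  rw [coeff_gSer, mul_one, ← sub_eq_zero, ← map_sub, he.eq_mser hF]
  exact hx _ (mem_heightIdeal_of_dvd h1 hn (Easy.offDvd_coeff_mser hF h1 hn).2)

/-- Below degree `p^(n-h)` the coefficients of `g` vanish in the residue field. -/
theorem coeff_red_of_special {e : PowerSeries (LT p n)} (hE : PSeriesFacts p n e) (b : ℕ) :
    red p n (PowerSeries.coeff b e) = if b = p ^ n then 1 else 0 := by
  have := congrArg (PowerSeries.coeff b) hE.special
  rwa [PowerSeries.coeff_map, PowerSeries.coeff_X_pow] at this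

theorem mem_maximal_of_red {a : LT p n} (ha : red p n a = 0) :
    a ∈ IsLocalRing.maximalIdeal (LT p n) :=
  (IsLocalRing.mem_maximalIdeal a).2 fun hu => (hu.map (red p n)).ne_zero ha

section Norm

variable {K : Type} [NormedField K] {x : LT p n →+* K}

/-- All coefficients of `g` are integral. -/
theorem integral_gSer (h1 : ∀ a, ‖x a‖ ≤ 1) (h : ℕ) (e : PowerSeries (LT p n)) (b : ℕ) :
    ‖PowerSeries.coeff b (gSer h e x)‖ ≤ 1 := by
  rw [coeff_gSer]
  exact h1 _

/-- (3) coefficients below `p^(n-h)` are small. -/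
theorem norm_coeff_gSer_lt (hlt : ∀ a ∈ IsLocalRing.maximalIdeal (LT p n), ‖x a‖ < 1)
    {e : PowerSeries (LT p n)} (hE : PSeriesFacts p n e) {h b : ℕ} (hn : h ≤ n)
    (hb : b < p ^ (n - h)) : ‖PowerSeries.coeff b (gSer h e x)‖ < 1 := by
  rw [coeff_gSer]
  refine hlt _ (mem_maximal_of_red ?_)
  rw [coeff_red_of_special hE, if_neg]
  have : p ^ h * b < p ^ n := by
    rw [← Nat.add_sub_cancel' hn, pow_add]
    exact Nat.mul_lt_mul_of_pos_left hb (pow_pos (Fact.out : p.Prime).pos _)
  omega

/-- (3) the coefficient at `p^(n-h)` is a unit. -/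
theorem norm_coeff_gSer_eq_one [IsUltrametricDist K]
    (hlt : ∀ a ∈ IsLocalRing.maximalIdeal (LT p n), ‖x a‖ < 1)
    {e : PowerSeries (LT p n)} (hE : PSeriesFacts p n e) {h : ℕ} (hn : h ≤ n) :
    ‖PowerSeries.coeff (p ^ (n - h)) (gSer h e x)‖ = 1 := by
  rw [coeff_gSer, ← pow_add, Nat.add_sub_cancel' hn]
  have hm : PowerSeries.coeff (p ^ n) e - 1 ∈ IsLocalRing.maximalIdeal (LT p n) :=
    mem_maximal_of_red (by rw [map_sub, coeff_red_of_special hE, if_pos rfl, map_one, sub_self])
  have hlt1 := hlt _ hm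
  rw [map_sub, map_one] at hlt1
  have : x (PowerSeries.coeff (p ^ n) e) = (x (PowerSeries.coeff (p ^ n) e) - 1) + 1 := by ring
  rw [this, IsUltrametricDist.norm_add_eq_max_of_norm_ne_norm (by rw [norm_one]; exact hlt1.ne),
    norm_one, max_eq_right hlt1.le]

/-- (6) nearby points have nearby series. -/
theorem norm_coeff_gSer_sub_le {x x₂ : LT p n →+* K} {η : ℝ} (hη : ∀ a, ‖x a - x₂ a‖ ≤ η)
    (h : ℕ) (e : PowerSeries (LT p n)) (b : ℕ) :
    ‖PowerSeries.coeff b (gSer h e x - gSer h e x₂)‖ ≤ η := by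
  rw [map_sub, coeff_gSer, coeff_gSer]
  exact hη _

end Norm

section Triangular

variable {e : PowerSeries (LT p n)}

/-- (4) the coefficient at `p^(h+i)` does not involve the parameters above `u_(h+i)`. -/
theorem pderiv_coeff_eq_zero (hE : PSeriesFacts p n e) {h : ℕ} (hh : 1 ≤ h) {i j : Fin (n - h)}
    (hij : i < j) :
    MvPowerSeries.pderiv (WittVector p (Res p n)) (slot n h hh j)
      (PowerSeries.coeff (p ^ (h + i.val)) e) = 0 := by
  refine MvPowerSeries.ext fun d => ?_
  rw [MvPowerSeries.coeff_pderiv, map_zero]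
  by_contra hne
  have hg := hE.grading _ _ (left_ne_zero_of_mul hne)
  have h1 := Finset.single_le_sum
    (f := fun l => (d + Finsupp.single (slot n h hh j) 1 : Fin (n - 1) →₀ ℕ) l *
      (p ^ (l.val + 1) - 1))
    (fun l _ => Nat.zero_le _) (Finset.mem_univ (slot n h hh j))
  simp only [Finsupp.add_apply, Finsupp.single_eq_same] at h1
  have hslot : (slot n h hh j).val + 1 = h + j.val := by simp [slot]; omega
  rw [hslot] at h1
  have hp := (Fact.out : p.Prime).one_lt
  have hlt : p ^ (h + i.val) < p ^ (h + j.val) :=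
    Nat.pow_lt_pow_right hp (by have : i.val < j.val := hij; omega)
  have h2 := Nat.le_mul_of_pos_left (p ^ (h + j.val) - 1)
    (show 0 < d (slot n h hh j) + 1 by omega)
  have h3 : 0 < p ^ (h + i.val) := pow_pos (by omega) _
  simp only [Finsupp.add_apply] at hg
  omega

/-- The derivative of the coefficient at `p^(h+i)` in `u_(h+i)` is a constant unit. -/
theorem pderiv_coeff_self (hE : PSeriesFacts p n e) {h : ℕ} (hh : 1 ≤ h) (i : Fin (n - h)) :
    MvPowerSeries.pderiv (WittVector p (Res p n)) (slot n h hh i)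
        (PowerSeries.coeff (p ^ (h + i.val)) e) =
      MvPowerSeries.C (MvPowerSeries.coeff (Finsupp.single (slot n h hh i) 1)
        (PowerSeries.coeff (p ^ (h + i.val)) e)) := by
  classical
  refine MvPowerSeries.ext fun d => ?_
  rw [MvPowerSeries.coeff_pderiv, MvPowerSeries.coeff_C]
  rcases eq_or_ne d 0 with rfl | hd
  · simp
  rw [if_neg hd]
  by_contra hne
  have hg := hE.grading _ _ (left_ne_zero_of_mul hne)
  simp only [Finsupp.add_apply, add_mul, Finset.sum_add_distrib] at hg
  have hslot : (slot n h hh i).val + 1 = h + i.val := by simp [slot]; omega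
  rw [Finset.sum_eq_single (s := Finset.univ) (f := fun l : Fin (n - 1) =>
    Finsupp.single (slot n h hh i) 1 l * (p ^ (l.val + 1) - 1)) (slot n h hh i)
    (fun l _ hl => by simp [Finsupp.single_eq_of_ne hl])
    (fun hc => absurd (Finset.mem_univ _) hc),
    Finsupp.single_eq_same, one_mul, hslot] at hg
  obtain ⟨l, hl⟩ := Finsupp.ne_iff.1 hd
  have h1 := Finset.single_le_sum (f := fun l => d l * (p ^ (l.val + 1) - 1))
    (fun l _ => Nat.zero_le _) (Finset.mem_univ l)
  have hp := (Fact.out : p.Prime).two_le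
  have h2 : 0 < p ^ (l.val + 1) - 1 := by
    have := Nat.le_self_pow (show l.val + 1 ≠ 0 by omega) p
    omega
  have h3 : 0 < d l * (p ^ (l.val + 1) - 1) :=
    Nat.mul_pos (Nat.pos_of_ne_zero (by simpa using hl)) h2
  omega

/-- (4) at a point killing `p` that derivative is `1`. -/
theorem map_pderiv_coeff_self {K : Type} [CommRing K] (hE : PSeriesFacts p n e) {h : ℕ}
    (hh : 1 ≤ h) (i : Fin (n - h)) {x : LT p n →+* K}
    (hx : ∀ a ∈ heightIdeal p n h, x a = 0) :
    x (MvPowerSeries.pderiv (WittVector p (Res p n)) (slot n h hh i)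
      (PowerSeries.coeff (p ^ (h + i.val)) e)) = 1 := by
  rw [pderiv_coeff_self hE hh i]
  have hlin := hE.linear (slot n h hh i)
  have hslot : (slot n h hh i).val + 1 = h + i.val := by simp [slot]; omega
  rw [hslot] at hlin
  set c := MvPowerSeries.coeff (Finsupp.single (slot n h hh i) 1)
    (PowerSeries.coeff (p ^ (h + i.val)) e)
  obtain ⟨v, hv⟩ := exists_eq_p_mul (w := c - 1) (by rw [map_sub, hlin, map_one, sub_self])
  rw [← sub_eq_zero, ← map_one x, ← map_sub]
  refine hx _ ?_
  rw [← map_one (MvPowerSeries.C (σ := Fin (n - 1))), ← map_sub, hv, map_mul, map_natCast]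
  exact Ideal.mul_mem_right _ _ (Ideal.subset_span ⟨0, hh, par_zero⟩)

end Triangular

section Hom

variable {K : Type} [CommRing K]

/-- (5) the `p`-series at the point is an endomorphism of the law at the point. -/
theorem IsHom.map {R : Type} [CommRing R] {A B : FormalGroup R} {f : PowerSeries R}
    (hf : IsHom A B f) (x : R →+* K) : IsHom (A.map x) (B.map x) (PowerSeries.map x f) := by
  have hc : PowerSeries.constantCoeff (PowerSeries.map x f) = 0 := by
    rw [← PowerSeries.coeff_zero_eq_constantCoeff_apply, PowerSeries.coeff_map,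
      PowerSeries.coeff_zero_eq_constantCoeff_apply, hf.1, map_zero]
  refine ⟨hc, ?_⟩
  have h := congrArg (MvPowerSeries.map x) hf.2
  rw [PowerSeries.map_subst (PowerSeries.HasSubst.of_constantCoeff_zero A.zero_constantCoeff),
    MvPowerSeries.map_subst (Easy.hasSubst_pair
      (PowerSeries.constantCoeff_subst_eq_zero (MvPowerSeries.constantCoeff_X 0) f hf.1)
      (PowerSeries.constantCoeff_subst_eq_zero (MvPowerSeries.constantCoeff_X 1) f hf.1))] at h
  rw [FormalGroup.map_toPowerSeries, FormalGroup.map_toPowerSeries]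
  refine h.trans ?_
  congr 1
  funext i
  fin_cases i <;>
    simp [PowerSeries.map_subst (PowerSeries.HasSubst.X _)]

theorem expand_injective {σ : Type} (P : ℕ) (hP : P ≠ 0) :
    Function.Injective (MvPowerSeries.expand P hP : MvPowerSeries σ K → MvPowerSeries σ K) := by
  intro a b hab
  ext d
  rw [← MvPowerSeries.coeff_expand_smul P hP a d, hab, MvPowerSeries.coeff_expand_smul]

/-- (5) `g` is a homomorphism from the Frobenius twist of the law to the law. -/
theorem subst_gSer [CharP K p] {F : FormalGroup (LT p n)} {e : PowerSeries (LT p n)}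
    (hom : IsHom F F e) (he : IsPSeries p n e) (hE : PSeriesFacts p n e) {h : ℕ} (hn : h ≤ n)
    {x : LT p n →+* K} (hx : ∀ a ∈ heightIdeal p n h, x a = 0) :
    PowerSeries.subst (MvPowerSeries.map (iterateFrobenius K p h) (F.map x).toPowerSeries)
        (gSer h e x) =
      MvPowerSeries.subst ![PowerSeries.subst (MvPowerSeries.X (0 : Fin 2)) (gSer h e x),
        PowerSeries.subst (MvPowerSeries.X (1 : Fin 2)) (gSer h e x)] (F.map x).toPowerSeries := by
  have hp0 : p ≠ 0 := (Fact.out : p.Prime).ne_zero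
  have hP : p ^ h ≠ 0 := pow_ne_zero _ hp0
  have hg0 := constantCoeff_gSer he h x
  have hX : PowerSeries.HasSubst ((PowerSeries.X : PowerSeries K) ^ p ^ h) :=
    PowerSeries.HasSubst.X_pow hP
  have hkey : ∀ (a : MvPowerSeries (Fin 2) K), PowerSeries.HasSubst a →
      PowerSeries.subst a (PowerSeries.expand (p ^ h) hP (gSer h e x)) =
        PowerSeries.subst (a ^ p ^ h) (gSer h e x) := by
    intro a ha
    rw [PowerSeries.expand_apply, PowerSeries.subst_comp_subst_apply hX ha,
      PowerSeries.subst_pow ha, PowerSeries.subst_X ha]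
  set A := (F.map x).toPowerSeries
  have hA : MvPowerSeries.constantCoeff A = 0 := (F.map x).zero_constantCoeff
  have hAP : A ^ p ^ h =
      MvPowerSeries.expand (p ^ h) hP (MvPowerSeries.map (iterateFrobenius K p h) A) := by
    rw [← MvPowerSeries.map_iterateFrobenius_expand p hp0 A h, MvPowerSeries.map_expand]
  have hmain := (hom.map x).2
  rw [map_eq_expand_gSer hE hn hx, hkey _ (PowerSeries.HasSubst.of_constantCoeff_zero hA),
    hkey _ (PowerSeries.HasSubst.X 0), hkey _ (PowerSeries.HasSubst.X 1), hAP,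
    ← PowerSeries.expand_subst _ hP (PowerSeries.HasSubst.of_constantCoeff_zero
      (by rw [MvPowerSeries.constantCoeff_map, hA, map_zero]))] at hmain
  refine expand_injective (p ^ h) hP (hmain.trans ?_)
  rw [MvPowerSeries.expand_subst _ hP (Easy.hasSubst_pair
    (PowerSeries.constantCoeff_subst_eq_zero (MvPowerSeries.constantCoeff_X 0) _ hg0)
    (PowerSeries.constantCoeff_subst_eq_zero (MvPowerSeries.constantCoeff_X 1) _ hg0))]
  congr 1
  funext i
  fin_cases i <;>
    simp [PowerSeries.expand_subst _ hP (PowerSeries.HasSubst.X _)]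

end Hom

end Vale.Agent.P217
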