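import Vale.Agent.P217.EvalLemmasSubst
import Vale.Agent.P217.SpecPos
import Vale.Agent.P217.Orbit.Fixed
import Vale.Agent.P217.Easy.Series

/-!
P217, ORBIT: the small points of an integral formal group law over a complete ultrametric field
form a group, homomorphisms act additively, and multiplication by `p` is evaluation of the
`p`-series.
-/

noncomputable section

namespace Vale.Agent.P217

variable {K : Type} [NormedField K] [IsUltrametricDist K]

/-- The closed unit disc as a subring. -/
def unitDisc (K : Type) [NormedField K] [IsUltrametricDist K] : Subring K where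
  carrier := {a | ‖a‖ ≤ 1}
  mul_mem' ha hb := by
    simp only [Set.mem_ofPred_eq, norm_mul] at *
    exact mul_le_one₀ ha (norm_nonneg _) hb
  one_mem' := norm_one.le
  add_mem' ha hb := (IsUltrametricDist.norm_add_le_max _ _).trans (max_le ha hb)
  zero_mem' := by simp
  neg_mem' ha := by simpa using ha

variable [CompleteSpace K]

section points

variable {G : FormalGroup K}

omit [IsUltrametricDist K] [CompleteSpace K] in
lemma norm_pair_lt {a b : K} (ha : ‖a‖ < 1) (hb : ‖b‖ < 1) : ∀ j, ‖(![a, b] : Fin 2 → K) j‖ < 1 :=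
  Fin.forall_fin_two.2 ⟨ha, hb⟩

omit [CompleteSpace K] in
/-- The sum of two points is bounded by their maximum. -/
lemma norm_fadd_le (hG : IntegralSeries G.toPowerSeries) {a b : K} {ρ : ℝ} (hρ : ρ ≤ 1)
    (ha : ‖a‖ ≤ ρ) (hb : ‖b‖ ≤ ρ) : ‖ev G.toPowerSeries ![a, b]‖ ≤ ρ :=
  norm_ev_le_of_constantCoeff hG G.zero_constantCoeff ((norm_nonneg a).trans ha) hρ
    (Fin.forall_fin_two.2 ⟨ha, hb⟩)

omit [CompleteSpace K] in
lemma norm_fadd_lt (hG : IntegralSeries G.toPowerSeries) {a b : K} (ha : ‖a‖ < 1) (hb : ‖b‖ < 1) :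
    ‖ev G.toPowerSeries ![a, b]‖ < 1 :=
  norm_ev_lt_one hG G.zero_constantCoeff (norm_pair_lt ha hb)

omit [IsUltrametricDist K] [CompleteSpace K] in
lemma powerSeries_X_eq : (PowerSeries.X : PowerSeries K) = MvPowerSeries.X () := rfl

lemma fadd_zero (hG : IntegralSeries G.toPowerSeries) {a : K} (ha : ‖a‖ < 1) :
    ev G.toPowerSeries ![a, 0] = a := by
  have h := congrArg (fun f => ev f fun _ : Unit => a)
    (FormalGroup.add_zero G (PowerSeries.HasSubst.X' (R := K)))
  rw [powerSeries_X_eq] at h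
  rw [ev_subst_pair hG (IntegralSeries.X ()) IntegralSeries.zero (MvPowerSeries.constantCoeff_X ())
    (map_zero _) (fun _ => ha), ev_X, ev_zero] at h
  exact h

lemma zero_fadd (hG : IntegralSeries G.toPowerSeries) {a : K} (ha : ‖a‖ < 1) :
    ev G.toPowerSeries ![0, a] = a := by
  have h := congrArg (fun f => ev f fun _ : Unit => a)
    (FormalGroup.zero_add G (PowerSeries.HasSubst.X' (R := K)))
  rw [powerSeries_X_eq] at h
  rw [ev_subst_pair hG IntegralSeries.zero (IntegralSeries.X ()) (map_zero _)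
    (MvPowerSeries.constantCoeff_X ()) (fun _ => ha), ev_X, ev_zero] at h
  exact h

lemma fadd_assoc (hG : IntegralSeries G.toPowerSeries) {a b c : K} (ha : ‖a‖ < 1) (hb : ‖b‖ < 1)
    (hc : ‖c‖ < 1) :
    ev G.toPowerSeries ![ev G.toPowerSeries ![a, b], c] =
      ev G.toPowerSeries ![a, ev G.toPowerSeries ![b, c]] := by
  set X : Fin 3 → MvPowerSeries (Fin 3) K := MvPowerSeries.X
  have hz : ∀ j, ‖(![a, b, c] : Fin 3 → K) j‖ < 1 :=
    Fin.forall_fin_succ.2 ⟨ha, Fin.forall_fin_two.2 ⟨hb, hc⟩⟩
  have h0 : ∀ i, MvPowerSeries.constantCoeff (X i) = 0 := MvPowerSeries.constantCoeff_X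
  have hi : ∀ i, IntegralSeries (X i) := fun i => IntegralSeries.X i
  have hI : ∀ i j, IntegralSeries (MvPowerSeries.subst ![X i, X j] G.toPowerSeries) := fun i j =>
    hG.subst (Fin.forall_fin_two.2 ⟨hi i, hi j⟩) (Easy.hasSubst_pair (h0 i) (h0 j))
  have hI0 : ∀ i j, MvPowerSeries.constantCoeff
      (MvPowerSeries.subst ![X i, X j] G.toPowerSeries) = 0 := fun i j =>
    MvPowerSeries.constantCoeff_subst_eq_zero (Easy.hasSubst_pair (h0 i) (h0 j))
      (Fin.forall_fin_two.2 ⟨h0 i, h0 j⟩) G.zero_constantCoeff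
  have h := congrArg (fun f => ev f ![a, b, c]) G.assoc
  rw [ev_subst_pair hG (hI 0 1) (hi 2) (hI0 0 1) (h0 2) hz,
    ev_subst_pair hG (hi 0) (hI 1 2) (h0 0) (hI0 1 2) hz,
    ev_subst_pair hG (hi 0) (hi 1) (h0 0) (h0 1) hz,
    ev_subst_pair hG (hi 1) (hi 2) (h0 1) (h0 2) hz, ev_X, ev_X, ev_X] at h
  simpa using h

lemma fadd_comm [G.IsComm] (hG : IntegralSeries G.toPowerSeries) {a b : K} (ha : ‖a‖ < 1)
    (hb : ‖b‖ < 1) : ev G.toPowerSeries ![a, b] = ev G.toPowerSeries ![b, a] := by
  conv_lhs => rw [FormalGroup.IsComm.comm (F := G)]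
  rw [ev_subst_pair hG (IntegralSeries.X 1) (IntegralSeries.X 0) (MvPowerSeries.constantCoeff_X _)
    (MvPowerSeries.constantCoeff_X _) (norm_pair_lt ha hb), ev_X, ev_X]
  simp

/-- Every small point has a small right inverse. -/
lemma exists_fadd_eq_zero (hG : IntegralSeries G.toPowerSeries) {a : K} (ha : ‖a‖ < 1) :
    ∃ b, ‖b‖ ≤ ‖a‖ ∧ ev G.toPowerSeries ![a, b] = 0 := by
  classical
  set O := unitDisc K
  let G₀ : MvPowerSeries (Fin 2) O := fun d => ⟨MvPowerSeries.coeff d G.toPowerSeries, hG d⟩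
  have hG₀ : MvPowerSeries.map O.subtype G₀ = G.toPowerSeries :=
    MvPowerSeries.ext fun d => by rw [MvPowerSeries.coeff_map]; rfl
  set inl : MvPowerSeries (Unit ⊕ Unit) O := MvPowerSeries.X (Sum.inl ())
  set inr : MvPowerSeries (Unit ⊕ Unit) O := MvPowerSeries.X (Sum.inr ())
  have hs := Easy.hasSubst_pair (R := O) (a := inl) (b := inr) (MvPowerSeries.constantCoeff_X _)
    (MvPowerSeries.constantCoeff_X _)
  set Φ : Unit → MvPowerSeries (Unit ⊕ Unit) O :=
    fun _ => inr - MvPowerSeries.subst ![inl, inr] G₀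
  have hc0 : MvPowerSeries.constantCoeff G₀ = 0 := Subtype.ext G.zero_constantCoeff
  have hΦ0 : ∀ i, MvPowerSeries.constantCoeff (Φ i) = 0 := fun i => by
    simp only [Φ, map_sub, inr, MvPowerSeries.constantCoeff_X,
      MvPowerSeries.constantCoeff_subst_eq_zero hs
        (Fin.forall_fin_two.2 ⟨MvPowerSeries.constantCoeff_X _, MvPowerSeries.constantCoeff_X _⟩)
        hc0, sub_zero]
  have hΦ1 : ∀ i j, MvPowerSeries.coeff (Finsupp.single (Sum.inr j) 1) (Φ i) = 0 := by
    intro i j
    simp only [Φ, map_sub]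
    rw [MvPowerSeries.coeff_subst hs, finsum_eq_single _ (Finsupp.single (1 : Fin 2) 1)]
    · have h1 : MvPowerSeries.coeff (Finsupp.single (1 : Fin 2) 1) G₀ = 1 :=
        Subtype.ext G.lin_coeff_Y
      simp [h1, inr]
    · intro e he
      refine smul_eq_zero_of_right _ ?_
      have hprod : (e.prod fun s k => (![inl, inr] : Fin 2 → _) s ^ k) =
          MvPowerSeries.monomial
            (Finsupp.single (Sum.inl ()) (e 0) + Finsupp.single (Sum.inr ()) (e 1)) 1 := by
        rw [Finsupp.prod_fintype _ _ (fun _ => pow_zero _), Fin.prod_univ_two]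
        simp [inl, inr, MvPowerSeries.X_pow_eq, MvPowerSeries.monomial_mul_monomial]
      rw [hprod, MvPowerSeries.coeff_monomial, if_neg]
      intro hc
      apply he
      have e0 := DFunLike.congr_fun hc (Sum.inl ())
      have e1 := DFunLike.congr_fun hc (Sum.inr ())
      simp at e0 e1
      ext s
      fin_cases s <;> simp [← e0, ← e1]
  obtain ⟨ζ₀, hζ0, hζ⟩ := exists_fixed Φ hΦ0 hΦ1
  have hfix := hζ ()
  simp only [Φ] at hfix
  have hse := hasSubst_elim hζ0
  rw [← MvPowerSeries.coe_substAlgHom hse, map_sub, MvPowerSeries.coe_substAlgHom hse,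
    MvPowerSeries.subst_comp_subst_apply hs hse] at hfix
  have hsub : MvPowerSeries.subst ![MvPowerSeries.X (), ζ₀ ()] G₀ = 0 := by
    have e : (fun s => MvPowerSeries.subst (Sum.elim MvPowerSeries.X ζ₀) (![inl, inr] s)) =
        ![MvPowerSeries.X (), ζ₀ ()] := by
      funext s; fin_cases s <;> simp [inl, inr, MvPowerSeries.subst_X hse]
    rw [e, MvPowerSeries.subst_X hse] at hfix
    simpa using hfix.symm
  set ζ : MvPowerSeries Unit K := MvPowerSeries.map O.subtype (ζ₀ ())
  have hζi : IntegralSeries ζ := fun d => by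
    rw [MvPowerSeries.coeff_map]; exact (MvPowerSeries.coeff d (ζ₀ ())).2
  have hζc : MvPowerSeries.constantCoeff ζ = 0 := by
    simp [ζ, MvPowerSeries.constantCoeff_map, hζ0]
  refine ⟨ev ζ fun _ => a, norm_ev_le_of_constantCoeff hζi hζc (norm_nonneg a) ha.le
    (fun _ => le_rfl), ?_⟩
  have hK : MvPowerSeries.subst ![MvPowerSeries.X (), ζ] G.toPowerSeries = 0 := by
    have := congrArg (MvPowerSeries.map O.subtype) hsub
    rw [map_zero, MvPowerSeries.map_subst
      (Easy.hasSubst_pair (MvPowerSeries.constantCoeff_X _) (hζ0 ())), hG₀] at this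
    rw [← this]
    congr 1
    funext s; fin_cases s <;> simp [ζ]
  have h := congrArg (fun f => ev f fun _ : Unit => a) hK
  rwa [ev_subst_pair hG (IntegralSeries.X ()) hζi (MvPowerSeries.constantCoeff_X _) hζc
    (fun _ => ha), ev_X, ev_zero] at h

end points

/-- A small point of the formal group law `G`. -/
@[ext]
structure Pt (G : FormalGroup K) where
  /-- the value -/
  val : K
  small : ‖val‖ < 1

namespace Pt

variable {G : FormalGroup K}

instance : Zero (Pt G) := ⟨⟨0, by simp⟩⟩

omit [IsUltrametricDist K] [CompleteSpace K] in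
@[simp] lemma val_zero : (0 : Pt G).val = 0 := rfl

variable [hG : Fact (IntegralSeries G.toPowerSeries)]

instance : Add (Pt G) :=
  ⟨fun a b => ⟨ev G.toPowerSeries ![a.val, b.val], norm_fadd_lt hG.out a.small b.small⟩⟩

omit [CompleteSpace K] in
@[simp] lemma val_add (a b : Pt G) : (a + b).val = ev G.toPowerSeries ![a.val, b.val] := rfl

instance : AddMonoid (Pt G) where
  add_assoc a b c := Pt.ext (fadd_assoc hG.out a.small b.small c.small)
  zero_add a := Pt.ext (zero_fadd hG.out a.small)
  add_zero a := Pt.ext (fadd_zero hG.out a.small)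
  nsmul := nsmulRec

lemma exists_right_neg (a : Pt G) : ∃ b : Pt G, a + b = 0 :=
  let ⟨b, hb, h⟩ := exists_fadd_eq_zero hG.out a.small
  ⟨⟨b, hb.trans_lt a.small⟩, Pt.ext h⟩

instance : Neg (Pt G) := ⟨fun a => (exists_right_neg a).choose⟩

lemma add_neg_self (a : Pt G) : a + -a = 0 := (exists_right_neg a).choose_spec

instance : AddGroup (Pt G) where
  zsmul := zsmulRec
  neg_add_cancel a := by
    calc -a + a = -a + (a + (-a + - -a)) := by rw [add_neg_self, add_zero]
      _ = -a + - -a := by rw [← add_assoc a, add_neg_self, zero_add]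
      _ = 0 := add_neg_self _

instance [G.IsComm] : AddCommGroup (Pt G) where
  add_comm a b := Pt.ext (fadd_comm hG.out a.small b.small)

/-- `copies` is iterated addition. -/
lemma val_nsmul (m : ℕ) (a : Pt G) : (m • a).val = copies G.toPowerSeries m a.val := by
  induction m with
  | zero => simp [copies]
  | succ m ih => rw [succ_nsmul, val_add, ih, copies]

omit [CompleteSpace K] in
lemma norm_val_add_le {a b : Pt G} {ρ : ℝ} (hρ : ρ ≤ 1) (ha : ‖a.val‖ ≤ ρ) (hb : ‖b.val‖ ≤ ρ) :
    ‖(a + b).val‖ ≤ ρ :=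
  norm_fadd_le hG.out hρ ha hb

lemma norm_val_neg_le (a : Pt G) : ‖(-a).val‖ ≤ ‖a.val‖ := by
  obtain ⟨b, hb, h⟩ := exists_fadd_eq_zero hG.out a.small
  have : a + (⟨b, hb.trans_lt a.small⟩ : Pt G) = 0 := Pt.ext h
  rwa [neg_eq_of_add_eq_zero_right this]

/-- The iterated sum `evSum` is the sum of points. -/
lemma evSum_eq_sum [G.IsComm] {r m : ℕ} (y : Fin m → Fin r → K) (hy : ∀ s l, ‖y s l‖ < 1)
    (l : Fin r) : evSum G.toPowerSeries y l = (∑ s, (⟨y s l, hy s l⟩ : Pt G)).val := by
  induction m with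
  | zero => simp [evSum]
  | succ m ih =>
    rw [evSum, Fin.sum_univ_castSucc, val_add]
    exact congrArg (fun z => ev G.toPowerSeries ![z, y (Fin.last m) l])
      (ih (fun s => y s.castSucc) fun s => hy s.castSucc)

/-- `combination` is the sum of multiples of points. -/
lemma combination_eq_sum [G.IsComm] {r : ℕ} (c : Fin r → ℕ) (z : Fin r → Pt G) :
    combination G.toPowerSeries c (fun i => (z i).val) = (∑ i, c i • z i).val := by
  rw [combination, evSum_eq_sum _ (fun s _ => by rw [← val_nsmul]; exact (c s • z s).small)]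
  congr 1
  exact Finset.sum_congr rfl fun i _ => Pt.ext (val_nsmul (c i) (z i)).symm

end Pt

/-- An integral homomorphism of laws acts additively on small points. -/
lemma ev₁_fadd {A B : FormalGroup K} (hA : IntegralSeries A.toPowerSeries)
    (hB : IntegralSeries B.toPowerSeries) {f : PowerSeries K} (hf : IntegralSeries f)
    (hom : IsHom A B f) {a b : K} (ha : ‖a‖ < 1) (hb : ‖b‖ < 1) :
    ev₁ f (ev A.toPowerSeries ![a, b]) = ev B.toPowerSeries ![ev₁ f a, ev₁ f b] := by
  obtain ⟨hf0, hf'⟩ := hom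
  have hab := norm_pair_lt ha hb
  have hi : ∀ i : Fin 2, IntegralSeries (PowerSeries.subst (MvPowerSeries.X i) f :
      MvPowerSeries (Fin 2) K) := fun i =>
    hf.subst (fun _ => IntegralSeries.X i) (PowerSeries.HasSubst.X i).const
  have h0 : ∀ i : Fin 2, (PowerSeries.subst (MvPowerSeries.X i) f :
      MvPowerSeries (Fin 2) K).constantCoeff = 0 := fun i =>
    PowerSeries.constantCoeff_subst_eq_zero (MvPowerSeries.constantCoeff_X i) f hf0
  have h := congrArg (fun g => ev g ![a, b]) hf'
  rw [ev_psubst hf hA A.zero_constantCoeff hab, ev_subst_pair hB (hi 0) (hi 1) (h0 0) (h0 1) hab,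
    ev_psubst hf (IntegralSeries.X 0) (MvPowerSeries.constantCoeff_X _) hab,
    ev_psubst hf (IntegralSeries.X 1) (MvPowerSeries.constantCoeff_X _) hab, ev_X, ev_X] at h
  simpa using h

/-- The additive map of small points given by an integral homomorphism. -/
def Pt.hom {A B : FormalGroup K} [hA : Fact (IntegralSeries A.toPowerSeries)]
    [hB : Fact (IntegralSeries B.toPowerSeries)] (f : PowerSeries K) (hf : IntegralSeries f)
    (hom : IsHom A B f) : Pt A →+ Pt B where
  toFun a := ⟨ev₁ f a.val, norm_ev_lt_one hf hom.1 fun _ => a.small⟩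
  map_zero' := Pt.ext ((ev_apply_zero f).trans hom.1)
  map_add' a b := Pt.ext (ev₁_fadd hA.out hB.out hf hom a.small b.small)

omit [CompleteSpace K] in
lemma integral_mser {G : FormalGroup K} (hG : IntegralSeries G.toPowerSeries) :
    ∀ m, IntegralSeries (Easy.mser G m : MvPowerSeries Unit K)
  | 0 => IntegralSeries.zero
  | m + 1 => hG.subst (Fin.forall_fin_two.2 ⟨integral_mser hG m, IntegralSeries.X ()⟩)
      (Easy.hasSubst_pair (Easy.constantCoeff_mser G m) (MvPowerSeries.constantCoeff_X ()))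

/-- `copies` is evaluation of the multiplication series. -/
lemma copies_eq_ev₁ {G : FormalGroup K} (hG : IntegralSeries G.toPowerSeries) {z : K}
    (hz : ‖z‖ < 1) : ∀ m, copies G.toPowerSeries m z = ev₁ (Easy.mser G m) z
  | 0 => (ev_zero (K := K) fun _ : Unit => z).symm
  | m + 1 => by
    rw [copies, copies_eq_ev₁ hG hz m]
    simp only [ev₁, Easy.mser, powerSeries_X_eq]
    rw [ev_subst_pair hG (integral_mser hG m) (IntegralSeries.X ())
      (Easy.constantCoeff_mser G m) (MvPowerSeries.constantCoeff_X ()) (fun _ => hz), ev_X]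

section LT

variable {p n : ℕ} [Fact p.Prime] {F : FormalGroup (LT p n)}

omit [IsUltrametricDist K] [CompleteSpace K] in
lemma lawAt_eq_map (x : LT p n →+* K) :
    lawAt p n F x = (F.map x).toPowerSeries := rfl

omit [IsUltrametricDist K] [CompleteSpace K] in
lemma integral_lawAt {x : LT p n →+* K} (hx : ∀ a, ‖x a‖ ≤ 1) :
    IntegralSeries (F.map x).toPowerSeries :=
  IntegralSeries.map x hx F.toPowerSeries

/-- The `p`-series is the `p`-fold formal sum. -/
theorem mser_eq_of_isPSeries (hF : IsUniversalLaw p n F) {e : PowerSeries (LT p n)}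
    (he : IsPSeries p n e) : Easy.mser F p = e := by
  obtain ⟨he0, hel⟩ := he
  set L := logSeries p n
  have hL0 : PowerSeries.constantCoeff L = 0 := by
    simp [L, logSeries, ← PowerSeries.coeff_zero_eq_constantCoeff_apply]
  have hL1 : IsUnit (PowerSeries.coeff 1 L) := by simp [L, logSeries, logCoeff]
  have key : ∀ y : PowerSeries (RatLT p n), PowerSeries.constantCoeff y = 0 →
      PowerSeries.subst (PowerSeries.subst y L) (L.substInvOfIsUnit hL1) = y := by
    intro y hy
    rw [← PowerSeries.subst_comp_subst_apply (PowerSeries.HasSubst.of_constantCoeff_zero' hL0)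
      (PowerSeries.HasSubst.of_constantCoeff_zero' hy),
      PowerSeries.subst_substInvOfIsUnit_left _ hL0,
      PowerSeries.subst_X (PowerSeries.HasSubst.of_constantCoeff_zero' hy)]
  have h1 := Easy.subst_mser_log (F := F.map (toRat p n)) hL0 hF p
  rw [← Easy.map_mser] at h1
  have hinj : Function.Injective (PowerSeries.map (toRat p n)) :=
    PowerSeries.map_injective _
      (fun a b hab => MvPowerSeries.ext fun d => IsFractionRing.injective (WittVector p (Res p n))
        (FractionRing (WittVector p (Res p n))) (by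
          simpa [toRat, MvPowerSeries.coeff_map] using congrArg (MvPowerSeries.coeff d) hab))
  refine hinj ?_
  have hc : ∀ y : PowerSeries (LT p n), PowerSeries.constantCoeff y = 0 →
      PowerSeries.constantCoeff (PowerSeries.map (toRat p n) y) = 0 := fun y hy => by
    rw [← PowerSeries.coeff_zero_eq_constantCoeff_apply, PowerSeries.coeff_map,
      PowerSeries.coeff_zero_eq_constantCoeff_apply, hy, map_zero]
  rw [← key _ (hc _ (Easy.constantCoeff_mser F p)), ← key _ (hc e he0), h1, hel, nsmul_eq_mul,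
    map_natCast]

/-- `p` copies of a small point are its image under the `p`-series. -/
theorem copies_p_eq (hF : IsUniversalLaw p n F) {e : PowerSeries (LT p n)} (he : IsPSeries p n e)
    {x : LT p n →+* K} (hx : ∀ a, ‖x a‖ ≤ 1) {z : K} (hz : ‖z‖ < 1) :
    copies (F.map x).toPowerSeries p z = ev₁ (PowerSeries.map x e) z := by
  rw [copies_eq_ev₁ (integral_lawAt hx) hz p, ← Easy.map_mser, mser_eq_of_isPSeries hF he]

omit [IsUltrametricDist K] [CompleteSpace K] in
/-- Symmetric coefficients give a commutative law. -/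
theorem isComm_map {R : Type} [CommRing R] (h : LawFacts p n F) (x : LT p n →+* R) :
    (F.map x).IsComm := by
  classical
  refine ⟨?_⟩
  have e : (![MvPowerSeries.X 1, MvPowerSeries.X 0] : Fin 2 → MvPowerSeries (Fin 2) R) =
      fun i => MvPowerSeries.X (Equiv.swap (0 : Fin 2) 1 i) := by
    funext i; fin_cases i <;> simp
  have hs : MvPowerSeries.HasSubst
      fun i : Fin 2 => (MvPowerSeries.X (Equiv.swap (0 : Fin 2) 1 i) : MvPowerSeries (Fin 2) R) :=
    MvPowerSeries.hasSubst_of_constantCoeff_zero fun _ => MvPowerSeries.constantCoeff_X _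
  refine MvPowerSeries.ext fun d => ?_
  rw [e, MvPowerSeries.coeff_subst hs,
    finsum_eq_single _ (d.mapDomain (Equiv.swap (0 : Fin 2) 1))]
  · have hd : (Finsupp.single 0 (d 0) + Finsupp.single 1 (d 1) : Fin 2 →₀ ℕ) = d := by
      ext i; fin_cases i <;> simp
    have hv : ∀ i, (d.mapDomain (Equiv.swap (0 : Fin 2) 1)) (Equiv.swap (0 : Fin 2) 1 i) = d i :=
      fun i => Finsupp.mapDomain_apply (Equiv.injective _) d i
    rw [Finsupp.prod_fintype _ _ (fun _ => pow_zero _), Fin.prod_univ_two]
    have h0 := hv 0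
    have h1 := hv 1
    simp only [Equiv.swap_apply_left, Equiv.swap_apply_right] at h0 h1
    simp [h0, h1, MvPowerSeries.X_pow_eq, MvPowerSeries.monomial_mul_monomial, add_comm, hd,
      FormalGroup.map_toPowerSeries, h.comm d]
  · intro c hc
    rw [Finsupp.prod_fintype _ _ (fun _ => pow_zero _), Fin.prod_univ_two]
    simp only [Equiv.swap_apply_left, Equiv.swap_apply_right, MvPowerSeries.X_pow_eq,
      MvPowerSeries.monomial_mul_monomial, MvPowerSeries.coeff_monomial]
    rw [if_neg, smul_zero]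
    intro hd
    apply hc
    rw [hd]
    ext i
    fin_cases i <;> simp [Finsupp.mapDomain_equiv_apply]

end LT

end Vale.Agent.P217
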