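/-
P217 (ORBIT): the branches of a tower near the point, one Frobenius twist per level.
-/
import Vale.Agent.P217.Orbit.ChartDefs
import Vale.Agent.P217.Orbit.Pert
import Vale.Agent.P217.Orbit.PointFacts
import Vale.Agent.P217.Orbit.Points
import Vale.Agent.P217.Orbit.Implicit
import Vale.Agent.P217.EvalLemmasDeriv
import Vale.Agent.P217.EvalLemmasFrob

noncomputable section

namespace Vale.Agent.P217

open MvPowerSeries

variable {p n : ℕ} [Fact p.Prime] {K : Type} [NormedField K] {h : ℕ} {τ υ : Type}

/-- The coefficients of the series `g` with `e = g(X^(p^h))` modulo `I_h`. -/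
def gLift (h : ℕ) (e : PowerSeries (LT p n)) : PowerSeries (LT p n) :=
  PowerSeries.mk fun b => PowerSeries.coeff (p ^ h * b) e

omit [NormedField K] in
lemma map_gLift {R : Type} [CommRing R] (h : ℕ) (e : PowerSeries (LT p n)) (x : LT p n →+* R) :
    PowerSeries.map x (gLift h e) = gSer h e x := by
  ext b
  rw [PowerSeries.coeff_map, gLift, gSer, PowerSeries.coeff_mk, PowerSeries.coeff_mk]

/-- A series over `LT` near the point, the slot coordinates among the variables. -/
def pertSer (h : ℕ) (x : LT p n →+* K) (A : MvPowerSeries τ (LT p n)) (a : τ → K)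
    (b : τ → MvPowerSeries (Fin (n - h) ⊕ υ) K) : MvPowerSeries (Fin (n - h) ⊕ υ) K :=
  subst (Sum.elim (fun l : Fin (n - 1) =>
      if hl : h ≤ l.val + 1 then X (Sum.inl ⟨l.val + 1 - h, by omega⟩) else 0) b)
    (translate (bigSeries x A) (Sum.elim (uvec x) a))

variable [IsUltrametricDist K] [CompleteSpace K] [Finite τ] [Finite υ]

variable {x : LT p n →+* K} (hx : IsBasePoint p n h x)

omit [Fact p.Prime] [IsUltrametricDist K] [CompleteSpace K] [Finite τ] [Finite υ] in
lemma elimSlot_zero {b : τ → MvPowerSeries (Fin (n - h) ⊕ υ) K}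
    (hb : ∀ i, constantCoeff (b i) = 0) (v : Fin (n - 1) ⊕ τ) :
    constantCoeff (Sum.elim (fun l : Fin (n - 1) =>
      if hl : h ≤ l.val + 1 then X (Sum.inl ⟨l.val + 1 - h, by omega⟩) else 0) b v :
        MvPowerSeries (Fin (n - h) ⊕ υ) K) = 0 := by
  cases v with
  | inl l => simp only [Sum.elim_inl]; split <;> simp
  | inr i => exact hb i

omit [Fact p.Prime] [IsUltrametricDist K] [CompleteSpace K] [Finite τ] [Finite υ] in
lemma elimSlot_integral {b : τ → MvPowerSeries (Fin (n - h) ⊕ υ) K}
    (hb : ∀ i, IntegralSeries (b i)) (v : Fin (n - 1) ⊕ τ) :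
    IntegralSeries (Sum.elim (fun l : Fin (n - 1) =>
      if hl : h ≤ l.val + 1 then X (Sum.inl ⟨l.val + 1 - h, by omega⟩) else 0) b v :
        MvPowerSeries (Fin (n - h) ⊕ υ) K) := by
  cases v with
  | inl l =>
    simp only [Sum.elim_inl]
    split
    · exact IntegralSeries.X _
    · exact IntegralSeries.zero
  | inr i => exact hb i

include hx

omit [IsUltrametricDist K] [CompleteSpace K] [Finite τ] in
lemma norm_elim_uvec_lt {a : τ → K} (ha : ∀ i, ‖a i‖ < 1) (v : Fin (n - 1) ⊕ τ) :
    ‖Sum.elim (uvec x) a v‖ < 1 := by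
  cases v with
  | inl l => exact hx.norm_lt _ (X_mem_maximal l)
  | inr i => exact ha i

omit [IsUltrametricDist K] [CompleteSpace K] [Finite τ] in
lemma integral_bigSeries (A : MvPowerSeries τ (LT p n)) : IntegralSeries (bigSeries x A) :=
  fun _ => hx.norm_le _

omit [IsUltrametricDist K] [CompleteSpace K] in
lemma isPert_self : IsPert h x x := ⟨hx.norm_le, hx.norm_lt, fun _ => rfl, hx.low⟩

omit [CompleteSpace K] [Finite υ] in
lemma integral_pertSer (A : MvPowerSeries τ (LT p n)) {a : τ → K} (ha : ∀ i, ‖a i‖ < 1)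
    {b : τ → MvPowerSeries (Fin (n - h) ⊕ υ) K} (hb : ∀ i, IntegralSeries (b i))
    (hb0 : ∀ i, constantCoeff (b i) = 0) : IntegralSeries (pertSer h x A a b) :=
  (translate_integral (integral_bigSeries hx A) fun v => (norm_elim_uvec_lt hx ha v).le).subst
    (elimSlot_integral hb) (hasSubst_of_constantCoeff_zero (elimSlot_zero hb0))

lemma constantCoeff_pertSer (A : MvPowerSeries τ (LT p n)) {a : τ → K} (ha : ∀ i, ‖a i‖ < 1)
    {b : τ → MvPowerSeries (Fin (n - h) ⊕ υ) K} (hb : ∀ i, IntegralSeries (b i))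
    (hb0 : ∀ i, constantCoeff (b i) = 0) :
    constantCoeff (pertSer h x A a b) = ev (MvPowerSeries.map x A) a := by
  rw [← ev_apply_zero, pertSer,
    ev_subst (translate_integral (integral_bigSeries hx A) fun v => (norm_elim_uvec_lt hx ha v).le)
      (elimSlot_integral hb) (elimSlot_zero hb0) (fun _ => by simp),
    show (fun v => ev (Sum.elim (fun l : Fin (n - 1) =>
      if hl : h ≤ l.val + 1 then X (Sum.inl ⟨l.val + 1 - h, by omega⟩) else 0) b v :
        MvPowerSeries (Fin (n - h) ⊕ υ) K) fun _ => 0) = fun _ => 0 from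
      funext fun v => by rw [ev_apply_zero]; exact elimSlot_zero hb0 v,
    ev_apply_zero, constantCoeff_translate (integral_bigSeries hx A) (norm_elim_uvec_lt hx ha),
    ev_bigSeries (h := h) (isPert_self hx) A hx.norm_le ha]

lemma ev_pertSer (hh : 1 ≤ h) {x' : LT p n →+* K} (hx' : IsPert h x x')
    (A : MvPowerSeries τ (LT p n)) {a : τ → K} (ha : ∀ i, ‖a i‖ < 1)
    {b : τ → MvPowerSeries (Fin (n - h) ⊕ υ) K} (hb : ∀ i, IntegralSeries (b i))
    (hb0 : ∀ i, constantCoeff (b i) = 0) {y : υ → K} (hy : ∀ i, ‖y i‖ < 1) :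
    ev (pertSer h x A a b) (Sum.elim (duOf h hh x x') y) =
      ev (MvPowerSeries.map x' A) (fun i => a i + ev (b i) (Sum.elim (duOf h hh x x') y)) := by
  set Y := Sum.elim (duOf h hh x x') y with hYdef
  have hY : ∀ v, ‖Y v‖ < 1 := fun v => by
    cases v with
    | inl j => exact norm_duOf_lt hh hx.norm_lt hx' j
    | inr i => exact hy i
  have hbY : ∀ i, ‖ev (b i) Y‖ < 1 := fun i => norm_ev_lt_one (hb i) (hb0 i) hY
  rw [pertSer,
    ev_subst (translate_integral (integral_bigSeries hx A) fun v => (norm_elim_uvec_lt hx ha v).le)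
      (elimSlot_integral hb) (elimSlot_zero hb0) hY,
    ev_translate (integral_bigSeries hx A) (norm_elim_uvec_lt hx ha) (fun v =>
      norm_ev_lt_one (elimSlot_integral hb v) (elimSlot_zero hb0 v) hY),
    ← ev_bigSeries (h := h) hx' A hx.norm_le (y := fun i => a i + ev (b i) Y)
      (fun i => norm_add_lt_one (ha i) (hbY i))]
  congr 1
  funext v
  cases v with
  | inl l =>
    simp only [Pi.add_apply, Sum.elim_inl]
    rw [uvec_eq_of_isPert hh hx.low hx', Pi.add_apply]
    congr 1
    rw [extDu]
    split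
    · rw [ev_X, hYdef, Sum.elim_inl]
    · exact ev_zero _
  | inr i => rfl

omit [IsUltrametricDist K] [CompleteSpace K] [Finite τ] [Finite υ] hx in
lemma pderiv_bigSeries (x : LT p n →+* K) (A : MvPowerSeries τ (LT p n)) (i : τ) :
    pderiv K (Sum.inr i) (bigSeries x A) = bigSeries x (pderiv (LT p n) i A) := by
  classical
  ext d
  rw [coeff_pderiv, MvPowerSeries.coeff_apply, MvPowerSeries.coeff_apply, bigSeries, bigSeries,
    coeff_pderiv]
  have e : Finsupp.sumFinsuppEquivProdFinsupp (d + Finsupp.single (Sum.inr i) 1) =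
      ((Finsupp.sumFinsuppEquivProdFinsupp d).1,
        (Finsupp.sumFinsuppEquivProdFinsupp d).2 + Finsupp.single i 1) := by
    refine Prod.ext (Finsupp.ext fun l => ?_) (Finsupp.ext fun l => ?_)
    · simp
    · by_cases hl : i = l <;> simp [hl]
  rw [e, ← Nat.cast_add_one, ← Nat.cast_add_one, ← nsmul_eq_mul', ← nsmul_eq_mul',
    map_nsmul, map_nsmul, map_nsmul, Finsupp.snd_sumFinsuppEquivProdFinsupp]

omit [Finite υ] in
lemma coeff_pertSer (A : MvPowerSeries τ (LT p n)) [Fintype τ] {a : τ → K} (ha : ∀ i, ‖a i‖ < 1)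
    {b : τ → MvPowerSeries (Fin (n - h) ⊕ υ) K} (hb0 : ∀ i, constantCoeff (b i) = 0) (u : υ) :
    coeff (Finsupp.single (Sum.inr u) 1) (pertSer h x A a b) =
      ∑ i, ev (MvPowerSeries.map x (pderiv (LT p n) i A)) a *
        coeff (Finsupp.single (Sum.inr u) 1) (b i) := by
  classical
  rw [pertSer, coeff_single_subst _ (elimSlot_zero hb0), Fintype.sum_sum_type]
  rw [Finset.sum_eq_zero (s := (Finset.univ : Finset (Fin (n - 1)))), zero_add]
  · refine Finset.sum_congr rfl fun i _ => ?_
    rw [coeff_single_translate (integral_bigSeries hx A) (norm_elim_uvec_lt hx ha),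
      pderiv_bigSeries, ev_bigSeries (h := h) (isPert_self hx) _ hx.norm_le ha, Sum.elim_inr]
  · intro l _
    simp only [Sum.elim_inl]
    split
    · rw [coeff_X, if_neg (by simp [Finsupp.single_left_inj]), mul_zero]
    · rw [map_zero, mul_zero]

omit hx [Finite τ] [Finite υ]

/-- Branches of every length exist near the point and are series in the slot coordinates. -/
theorem branch (hFacts : FactsStatement p n) : BranchStatement p n := by
  intro F hF e he h hh hhn K iK iC hult halg hchar x hx t ht k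
  classical
  obtain ⟨hom, hE⟩ := (hFacts F hF).2 e he
  have hp : p.Prime := Fact.out
  have hexp : ExpChar K p := ExpChar.prime hp
  set P := p ^ h with hPdef
  have hP : P ≠ 0 := pow_ne_zero _ hp.ne_zero
  induction k with
  | zero =>
    refine ⟨1, 0, one_ne_zero, by simp, IntegralSeries.zero, map_zero _, fun x' _ _ => ?_⟩
    refine ⟨⟨fun _ => 0, rfl, fun j hj => absurd hj (Nat.not_lt_zero j)⟩, fun z hz => ?_⟩
    rw [hz.1, ev_zero]
    simp
  | succ k ih =>
    obtain ⟨c, L, hc0, hc1, hLi, hL0, hIH⟩ := ih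
    set q := P ^ k with hq
    have hqp : q = p ^ (h * k) := by rw [hq, hPdef, pow_mul]
    have hq0 : q ≠ 0 := pow_ne_zero _ hP
    -- the untwisted equation
    have ht0 : ∀ i : Fin 2, ‖(![t k, 0] : Fin 2 → K) i‖ < 1 :=
      norm_pair_lt (ht.small k) (by simp)
    have ht1 : ∀ i : Unit, ‖(fun _ => t (k + 1) : Unit → K) i‖ < 1 := fun _ => ht.small (k + 1)
    let V := Fin (n - h) ⊕ Fin 2
    let vz : V := Sum.inr 0
    let vw : V := Sum.inr 1
    set Pe : MvPowerSeries V K := pertSer h x (e : MvPowerSeries Unit (LT p n))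
      (fun _ => t (k + 1)) (fun _ => 0) with hPe
    set Pg : MvPowerSeries V K := pertSer h x (gLift h e : MvPowerSeries Unit (LT p n))
      (fun _ => 0) (fun _ => X vz) with hPg
    have hPei : IntegralSeries Pe :=
      integral_pertSer hx _ ht1 (fun _ => IntegralSeries.zero) (fun _ => map_zero _)
    have hPe0 : constantCoeff Pe = t k := by
      rw [hPe, constantCoeff_pertSer hx _ ht1 (fun _ => IntegralSeries.zero) (fun _ => map_zero _)]
      exact ht.step k
    have hPgi : IntegralSeries Pg :=
      integral_pertSer hx _ (fun _ => by simp) (fun _ => IntegralSeries.X _)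
        (fun _ => constantCoeff_X _)
    have hPg0 : constantCoeff Pg = 0 := by
      rw [hPg, constantCoeff_pertSer hx _ (fun _ => by simp) (fun _ => IntegralSeries.X _)
        (fun _ => constantCoeff_X _), ev_apply_zero, MvPowerSeries.constantCoeff_map]
      show x (PowerSeries.constantCoeff (gLift h e)) = 0
      rw [← PowerSeries.coeff_zero_eq_constantCoeff_apply, gLift, PowerSeries.coeff_mk, mul_zero,
        PowerSeries.coeff_zero_eq_constantCoeff_apply, he.1, map_zero]
    set b₁ : Fin 2 → MvPowerSeries V K := ![Pe - C (t k), Pg] with hb₁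
    set b₂ : Fin 2 → MvPowerSeries V K := ![0, X vw] with hb₂
    have hb₁i : ∀ i, IntegralSeries (b₁ i) := Fin.forall_fin_two.2
      ⟨hPei.sub (IntegralSeries.of_C (ht.small k).le), hPgi⟩
    have hb₁0 : ∀ i, constantCoeff (b₁ i) = 0 := Fin.forall_fin_two.2
      ⟨by simp [hb₁, hPe0], by simpa [hb₁] using hPg0⟩
    have hb₂i : ∀ i, IntegralSeries (b₂ i) := Fin.forall_fin_two.2
      ⟨IntegralSeries.zero, IntegralSeries.X _⟩
    have hb₂0 : ∀ i, constantCoeff (b₂ i) = 0 := Fin.forall_fin_two.2
      ⟨by simp [hb₂], by simp [hb₂]⟩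
    set S₀ : MvPowerSeries V K := pertSer h x F.toPowerSeries ![t k, 0] b₁ -
      pertSer h x F.toPowerSeries ![t k, 0] b₂ with hS₀
    have hS₀i : IntegralSeries S₀ :=
      (integral_pertSer hx _ ht0 hb₁i hb₁0).sub (integral_pertSer hx _ ht0 hb₂i hb₂0)
    have hS₀0 : constantCoeff S₀ = 0 := by
      rw [hS₀, map_sub, constantCoeff_pertSer hx _ ht0 hb₁i hb₁0,
        constantCoeff_pertSer hx _ ht0 hb₂i hb₂0, sub_self]
    -- its value
    have hS₀ev : ∀ x', IsPert h x x' → ∀ a w : K, ‖a‖ < 1 → ‖w‖ < 1 →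
        ev S₀ (Sum.elim (duOf h hh x x') ![a ^ P, w]) =
          ev₁ (PowerSeries.map x' e) (ev (lawAt p n F x') ![t (k + 1), a]) -
            ev (lawAt p n F x') ![t k, w] := by
      intro x' hx' a w ha hw
      have hy : ∀ i : Fin 2, ‖(![a ^ P, w] : Fin 2 → K) i‖ < 1 :=
        norm_pair_lt (by rw [norm_pow]; exact pow_lt_one₀ (norm_nonneg _) ha hP) hw
      have hY : ∀ v, ‖Sum.elim (duOf h hh x x') ![a ^ P, w] v‖ < 1 := fun v => by
        cases v with
        | inl j => exact norm_duOf_lt hh hx.norm_lt hx' j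
        | inr i => exact hy i
      have v1 : ev Pe (Sum.elim (duOf h hh x x') ![a ^ P, w]) =
          ev₁ (PowerSeries.map x' e) (t (k + 1)) := by
        rw [hPe, ev_pertSer hx hh hx' _ ht1 (fun _ => IntegralSeries.zero) (fun _ => map_zero _) hy]
        simp only [ev_zero, add_zero]
        rfl
      have v2 : ev Pg (Sum.elim (duOf h hh x x') ![a ^ P, w]) =
          ev₁ (PowerSeries.map x' e) a := by
        rw [hPg, ev_pertSer hx hh hx' _ (fun _ => by simp) (fun _ => IntegralSeries.X _)
          (fun _ => constantCoeff_X _) hy, ev₁_map_eq_gSer hE hhn.le hx'.low, ← map_gLift]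
        simp only [ev_X, zero_add, vz, Sum.elim_inr, Matrix.cons_val_zero]
        rfl
      rw [hS₀, ev_sub (conv_of_integral (integral_pertSer hx _ ht0 hb₁i hb₁0) hY)
        (conv_of_integral (integral_pertSer hx _ ht0 hb₂i hb₂0) hY),
        ev_pertSer hx hh hx' _ ht0 hb₁i hb₁0 hy, ev_pertSer hx hh hx' _ ht0 hb₂i hb₂0 hy]
      congr 1
      · have he' : IntegralSeries (PowerSeries.map x' e : MvPowerSeries Unit K) :=
          fun d => hx'.norm_le _
        have hadd := ev₁_fadd (f := PowerSeries.map x' e)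
          (A := F.map x') (B := F.map x') (IntegralSeries.map x' hx'.norm_le F.toPowerSeries)
          (IntegralSeries.map x' hx'.norm_le F.toPowerSeries) he'
          (hom.map x') (ht.small (k + 1)) ha
        refine Eq.trans ?_ hadd.symm
        refine congrArg _ (funext fun i => ?_)
        fin_cases i
        · simp [hb₁, ev_sub (conv_of_integral hPei hY) (conv_C _ _), ev_C, v1]
        · simp [hb₁, v2]
      · refine congrArg _ (funext fun i => ?_)
        fin_cases i <;> simp [hb₂, ev_X, ev_zero, vw]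
    -- its linear coefficient
    set D := ev (MvPowerSeries.map x (pderiv (LT p n) (1 : Fin 2) F.toPowerSeries)) ![t k, 0]
      with hDdef
    have hS₀1 : coeff (Finsupp.single vz 1) S₀ = D * x (par p n h) := by
      have e1 : coeff (Finsupp.single vz 1) Pe = 0 := by
        rw [hPe, coeff_pertSer hx _ ht1 (fun _ => map_zero _)]
        simp
      have e2 : coeff (Finsupp.single vz 1) Pg = x (par p n h) := by
        rw [hPg, coeff_pertSer hx _ (fun _ => by simp) (fun _ => constantCoeff_X _)]
        simp only [vz, coeff_X, if_pos, mul_one, Finset.univ_unique, Finset.sum_singleton,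
          ev_apply_zero, MvPowerSeries.constantCoeff_map]
        rw [← coeff_zero_eq_constantCoeff_apply, coeff_pderiv]
        simp only [zero_add, Finsupp.coe_zero, Pi.zero_apply, Nat.cast_zero, mul_one]
        have hg := coeff_one_gSer hF he hh hhn.le hx.low
        rw [← map_gLift, PowerSeries.coeff_map] at hg
        exact hg
      rw [hS₀, map_sub, coeff_pertSer hx _ ht0 hb₁0, coeff_pertSer hx _ ht0 hb₂0,
        Fin.sum_univ_two, Fin.sum_univ_two]
      simp [hb₁, hb₂, e1, e2, vz, vw, coeff_X, coeff_C, Finsupp.single_left_inj, hDdef]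
    have hD : ‖D‖ = 1 := by
      set A := MvPowerSeries.map x (pderiv (LT p n) (1 : Fin 2) F.toPowerSeries) with hA
      have hAi : IntegralSeries A := IntegralSeries.map x hx.norm_le _
      have hA0 : constantCoeff A = 1 := by
        rw [hA, MvPowerSeries.constantCoeff_map, ← coeff_zero_eq_constantCoeff_apply, coeff_pderiv]
        simp [F.lin_coeff_Y]
      have hlt : ‖D - 1‖ < 1 := by
        have := norm_ev_lt_one (hAi.sub (IntegralSeries.of_C (c := 1) norm_one.le))
          (by simp [hA0]) ht0
        rwa [ev_sub (conv_of_integral hAi ht0) (conv_C _ _), ev_C] at this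
      rw [show D = (D - 1) + 1 by ring,
        IsUltrametricDist.norm_add_eq_max_of_norm_ne_norm (by rw [norm_one]; exact hlt.ne),
        norm_one, max_eq_right hlt.le]
    -- the twisted equation
    set cS := (D * x (par p n h)) ^ q with hcS
    have hcS0 : cS ≠ 0 := by
      rw [hcS]
      exact pow_ne_zero _ (mul_ne_zero (fun h0 => by simp [h0] at hD) hx.par_ne)
    have hcSn : ‖cS‖ = ‖x (par p n h)‖ ^ q := by rw [hcS, norm_pow, norm_mul, hD, one_mul]
    let W := Fin (n - h) ⊕ Unit
    let Lw : MvPowerSeries W K :=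
      subst (fun j => (X (Sum.inl j) : MvPowerSeries W K)) L
    have hLs : HasSubst fun j : Fin (n - h) => (X (Sum.inl j) : MvPowerSeries W K) :=
      hasSubst_of_constantCoeff_zero fun _ => constantCoeff_X _
    have hLwi : IntegralSeries Lw := hLi.subst (fun _ => IntegralSeries.X _) hLs
    have hLw0 : constantCoeff Lw = 0 :=
      constantCoeff_subst_eq_zero hLs (fun _ => constantCoeff_X _) hL0
    set b : V → MvPowerSeries W K := Sum.elim (fun j => C (c ^ q) * X (Sum.inl j) ^ q)
      ![X (Sum.inr ()), Lw] with hb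
    have hbi : ∀ v, IntegralSeries (b v) := fun v => by
      cases v with
      | inl j =>
        exact (IntegralSeries.of_C (by rw [norm_pow]; exact pow_le_one₀ (norm_nonneg _) hc1)).mul
          ((IntegralSeries.X _).pow q)
      | inr i => fin_cases i; exacts [IntegralSeries.X _, hLwi]
    have hb0 : ∀ v, constantCoeff (b v) = 0 := fun v => by
      cases v with
      | inl j => simp [hb, zero_pow hq0]
      | inr i => fin_cases i <;> simp [hb, hLw0]
    set S₁ := MvPowerSeries.map (iterateFrobenius K p (h * k)) S₀ with hS₁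
    have hS₁i : IntegralSeries S₁ := fun d => by
      rw [hS₁, MvPowerSeries.coeff_map, iterateFrobenius_def, norm_pow]
      exact pow_le_one₀ (norm_nonneg _) (hS₀i d)
    set S : MvPowerSeries W K := subst b S₁ with hS
    have hSi : IntegralSeries S := hS₁i.subst hbi (hasSubst_of_constantCoeff_zero hb0)
    have hS0 : constantCoeff S = 0 :=
      constantCoeff_subst_eq_zero (hasSubst_of_constantCoeff_zero hb0) hb0
        (by rw [hS₁, MvPowerSeries.constantCoeff_map, hS₀0, map_zero])
    have hSlin : coeff (Finsupp.single (Sum.inr ()) 1) S = cS := by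
      rw [hS, coeff_single_subst b hb0, Finset.sum_eq_single vz]
      · rw [hS₁, MvPowerSeries.coeff_map, hS₀1, iterateFrobenius_def, ← hqp]
        simp [hb, vz, hcS]
      · intro v _ hv
        cases v with
        | inl j =>
          rw [hb, Sum.elim_inl, coeff_C_mul, X_pow_eq, coeff_monomial, if_neg, mul_zero, mul_zero]
          intro heq
          have := DFunLike.congr_fun heq (Sum.inr ())
          simp at this
        | inr i =>
          fin_cases i
          · exact absurd rfl hv
          · simp only [hb, Lw, Sum.elim_inr]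
            simp [coeff_single_subst (fun j => (X (Sum.inl j) : MvPowerSeries W K))
              (fun _ => constantCoeff_X _), coeff_X, Finsupp.single_left_inj]
      · exact fun hn' => absurd (Finset.mem_univ _) hn'
    obtain ⟨L', hL'i, hL'0, hsol, huniq⟩ := implicit_series S hSi hS0 cS hcS0 hSlin
    have hcS1 : ‖cS‖ ≤ 1 := hSlin ▸ hSi _
    refine ⟨c * cS ^ 2, C cS * L', mul_ne_zero hc0 (pow_ne_zero _ hcS0),
      by
        rw [norm_mul, norm_pow]
        exact mul_le_one₀ hc1 (pow_nonneg (norm_nonneg _) _) (pow_le_one₀ (norm_nonneg _) hcS1),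
      (IntegralSeries.of_C hcS1).mul hL'i, by rw [map_mul, hL'0, mul_zero],
      fun x' hx' hdu => ?_⟩
    set du := duOf h hh x x' with hdudef
    set t' : Fin (n - h) → K := fun j => du j / (c * cS ^ 2) with ht'
    have ht'1 : ∀ j, ‖t' j‖ < 1 := fun j => by
      rw [ht', norm_div, div_lt_one (norm_pos_iff.2 (mul_ne_zero hc0 (pow_ne_zero _ hcS0)))]
      exact hdu j
    have hdu' : ∀ j, ‖du j‖ < ‖c‖ := fun j => (hdu j).trans_le (by
      rw [norm_mul]
      exact mul_le_of_le_one_right (norm_nonneg _)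
        (by rw [norm_pow]; exact pow_le_one₀ (norm_nonneg _) hcS1))
    have hsc : ∀ j, cS ^ 2 * t' j = du j / c := fun j => by
      rw [ht']
      field_simp
    obtain ⟨⟨z₀, hz₀⟩, hIHuniq⟩ := hIH x' hx' hdu'
    have hzsmall : ∀ z : ℕ → K, IsBranch F e h x x' t k z → ‖z k‖ < 1 := fun z hz => by
      cases k with
      | zero => rw [hz.1]; simp
      | succ j =>
        have h1 := (hz.2 j (Nat.lt_succ_self j)).1
        by_contra hge
        exact absurd (h1.trans_le (hx.norm_le _)) (not_lt.2 (one_le_pow₀ (not_lt.1 hge)))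
    -- the equation in twisted coordinates
    have hkey : ∀ z : ℕ → K, IsBranch F e h x x' t k z → ∀ a : K, ‖a‖ < 1 →
        ev S (Sum.elim (fun j => cS ^ 2 * t' j) fun _ => (a ^ P) ^ q) =
          (ev₁ (PowerSeries.map x' e) (ev (lawAt p n F x') ![t (k + 1), a]) -
            ev (lawAt p n F x') ![t k, z k]) ^ q := by
      intro z hz a ha
      have hzk := hzsmall z hz
      have haP : ‖a ^ P‖ < 1 := by rw [norm_pow]; exact pow_lt_one₀ (norm_nonneg _) ha hP
      have hY : ∀ v, ‖Sum.elim du ![a ^ P, z k] v‖ < 1 := fun v => by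
        cases v with
        | inl j => exact norm_duOf_lt hh hx.norm_lt hx' j
        | inr i => exact norm_pair_lt haP hzk i
      have htt : ∀ v : W, ‖Sum.elim (fun j => cS ^ 2 * t' j) (fun _ : Unit => (a ^ P) ^ q) v‖ < 1 :=
        fun v => by
        cases v with
        | inl j =>
          rw [Sum.elim_inl, hsc, norm_div, div_lt_one (norm_pos_iff.2 hc0)]
          exact hdu' j
        | inr i => rw [Sum.elim_inr, norm_pow]; exact pow_lt_one₀ (norm_nonneg _) haP hq0
      rw [hS, ev_subst hS₁i hbi hb0 htt, ← hS₀ev x' hx' a (z k) ha hzk, hqp,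
        ← ev_map_frobenius p (h * k) (conv_of_integral hS₀i hY)]
      congr 1
      funext v
      rw [← hqp]
      cases v with
      | inl j =>
        simp only [hb, Sum.elim_inl]
        rw [ev_mul (conv_C _ _) ((conv_X _ _).pow q), ev_C, ev_pow (conv_X _ _), ev_X, Sum.elim_inl,
          hsc, ← mul_pow, mul_div_cancel₀ _ hc0]
      | inr i =>
        fin_cases i
        · simp [hb, ev_X]
        · simp only [hb, Sum.elim_inr]
          simp only [Fin.mk_one, Matrix.cons_val_one, Matrix.cons_val_fin_one, Lw]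
          rw [ev_subst hLi (fun _ => IntegralSeries.X _) (fun _ => constantCoeff_X _) htt,
            hIHuniq z hz]
          simp [ev_X, hsc, hdudef]
    have hball : ∀ a : K, ‖a‖ ^ P < ‖x (par p n h)‖ ↔ ‖(a ^ P) ^ q‖ < ‖cS‖ := fun a => by
      rw [hcSn, norm_pow, norm_pow]
      exact (pow_lt_pow_iff_left₀ (by positivity) (norm_nonneg _) hq0).symm
    have hlt1 : ∀ a : K, ‖a‖ ^ P < ‖x (par p n h)‖ → ‖a‖ < 1 := fun a h1 => by
      by_contra hge
      exact absurd (h1.trans_le (hx.norm_le _)) (not_lt.2 (one_le_pow₀ (not_lt.1 hge)))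
    have hev : ev (C cS * L') t' = cS * ev L' t' := ev_C_mul _ _ _
    refine ⟨?_, fun z hz => ?_⟩
    · obtain ⟨hn1, hn2⟩ := hsol t' ht'1
      obtain ⟨a, ha⟩ := IsAlgClosed.exists_pow_nat_eq (cS * ev L' t')
        (Nat.pos_of_ne_zero (mul_ne_zero hP hq0))
      rw [pow_mul] at ha
      have haB : ‖a‖ ^ P < ‖x (par p n h)‖ := (hball a).2 (by rw [ha]; exact hn1)
      refine ⟨fun j => if j = k + 1 then a else z₀ j, by simpa using hz₀.1, fun j hj => ?_⟩
      rcases Nat.lt_succ_iff_lt_or_eq.1 hj with hlt | rfl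
      · simp only [show ¬ j + 1 = k + 1 by omega, show ¬ j = k + 1 by omega, if_false]
        exact hz₀.2 j hlt
      · simp only [if_true, show ¬ j = j + 1 by omega, if_false]
        refine ⟨haB, sub_eq_zero.1 ?_⟩
        have hk := hkey z₀ hz₀ a (hlt1 a haB)
        rw [ha, hn2] at hk
        exact pow_eq_zero_iff hq0 |>.1 hk.symm
    · have hzk : IsBranch F e h x x' t k z := ⟨hz.1, fun j hj => hz.2 j (hj.trans (Nat.lt_succ_self k))⟩
      obtain ⟨hb1, hb2⟩ := hz.2 k (Nat.lt_succ_self k)
      have hk := hkey z hzk (z (k + 1)) (hlt1 _ hb1)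
      rw [hb2, sub_self, zero_pow hq0] at hk
      have := huniq t' ht'1 _ ((hball _).1 hb1) hk
      rw [pow_succ', pow_mul, ← hq, this, ← hev]

end Vale.Agent.P217
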