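/-
P217 (ORBIT): finite approximations of coordinates, inverses and weighted truncations.
-/
import Vale.Agent.P217.Orbit.ChartDefs
import Vale.Agent.P217.Orbit.Implicit
import Vale.Agent.P217.EvalLemmasBounds

namespace Vale.Agent.P217

open Finset

section algebra

variable {K : Type} [CommRing K] {r : ℕ}

lemma coeff_truncDeg (D : ℕ) (f : MvPowerSeries (Fin r) K) (d : Fin r →₀ ℕ) :
    MvPowerSeries.coeff d (truncDeg D f) =
      if d.degree < D then MvPowerSeries.coeff d f else 0 := rfl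

/-- The truncation as a polynomial. -/
noncomputable def truncPoly (D : ℕ) (f : MvPowerSeries (Fin r) K) : MvPolynomial (Fin r) K :=
  ∑ d ∈ (finite_degree_lt (σ := Fin r) D).toFinset,
    MvPolynomial.monomial d (MvPowerSeries.coeff d f)

lemma coeff_truncPoly (D : ℕ) (f : MvPowerSeries (Fin r) K) (d : Fin r →₀ ℕ) :
    MvPolynomial.coeff d (truncPoly D f) =
      if d.degree < D then MvPowerSeries.coeff d f else 0 := by
  classical
  simp [truncPoly, MvPolynomial.coeff_sum, MvPolynomial.coeff_monomial]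

lemma coe_truncPoly (D : ℕ) (f : MvPowerSeries (Fin r) K) :
    (truncPoly D f : MvPowerSeries (Fin r) K) = truncDeg D f := by
  ext d
  rw [MvPolynomial.coeff_coe, coeff_truncPoly, coeff_truncDeg]

/-- Agreement below degree `D`. -/
def EqBelow {σ : Type*} (D : ℕ) (a b : MvPowerSeries σ K) : Prop :=
  ∀ d : σ →₀ ℕ, d.degree < D → MvPowerSeries.coeff d a = MvPowerSeries.coeff d b

lemma EqBelow.mul {σ : Type*} {D : ℕ} {a b a' b' : MvPowerSeries σ K} (h : EqBelow D a a')
    (h' : EqBelow D b b') : EqBelow D (a * b) (a' * b') := by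
  classical
  intro d hd
  rw [MvPowerSeries.coeff_mul, MvPowerSeries.coeff_mul]
  refine sum_congr rfl fun x hx => ?_
  have hx' := Finset.HasAntidiagonal.mem_antidiagonal.1 hx
  have : x.1.degree + x.2.degree = d.degree := by rw [← map_add, hx']
  rw [h x.1 (by omega), h' x.2 (by omega)]

lemma EqBelow.pow {σ : Type*} {D : ℕ} {a a' : MvPowerSeries σ K} (h : EqBelow D a a') :
    ∀ k, EqBelow D (a ^ k) (a' ^ k)
  | 0 => by simp [EqBelow]
  | k + 1 => by rw [pow_succ, pow_succ]; exact (EqBelow.pow h k).mul h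

lemma EqBelow.prod {σ ι : Type*} {D : ℕ} (s : Finset ι) {a a' : ι → MvPowerSeries σ K}
    (h : ∀ i ∈ s, EqBelow D (a i) (a' i)) : EqBelow D (∏ i ∈ s, a i) (∏ i ∈ s, a' i) := by
  classical
  induction s using Finset.induction_on with
  | empty => simp [EqBelow]
  | insert i s hi ih =>
    rw [prod_insert hi, prod_insert hi]
    exact (h i (mem_insert_self i s)).mul (ih fun j hj => h j (mem_insert_of_mem hj))

lemma eqBelow_truncDeg (D : ℕ) (f : MvPowerSeries (Fin r) K) : EqBelow D (truncDeg D f) f :=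
  fun d hd => by rw [coeff_truncDeg, if_pos hd]

lemma constantCoeff_truncDeg {D : ℕ} {f : MvPowerSeries (Fin r) K}
    (h : MvPowerSeries.constantCoeff f = 0) : MvPowerSeries.constantCoeff (truncDeg D f) = 0 := by
  rw [← MvPowerSeries.coeff_zero_eq_constantCoeff_apply, coeff_truncDeg,
    MvPowerSeries.coeff_zero_eq_constantCoeff_apply, h, ite_self]

end algebra

variable {K : Type} [NormedField K] {r : ℕ}

lemma exists_coeff_bound (P : MvPolynomial (Fin r) K) :
    ∃ C : ℝ, 0 ≤ C ∧ ∀ d, ‖MvPowerSeries.coeff d (P : MvPowerSeries (Fin r) K)‖ ≤ C := by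
  refine ⟨∑ d ∈ P.support, ‖MvPolynomial.coeff d P‖, sum_nonneg fun d _ => norm_nonneg _,
    fun d => ?_⟩
  rw [MvPolynomial.coeff_coe]
  by_cases hd : d ∈ P.support
  · exact single_le_sum (fun e _ => norm_nonneg _) hd
  · rw [MvPolynomial.notMem_support_iff.1 hd, norm_zero]
    exact sum_nonneg fun e _ => norm_nonneg _

lemma exists_coeff_bound_truncDeg (D : ℕ) (f : MvPowerSeries (Fin r) K) :
    ∃ C : ℝ, 0 ≤ C ∧ ∀ d, ‖MvPowerSeries.coeff d (truncDeg D f)‖ ≤ C := by
  rw [← coe_truncPoly]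
  exact exists_coeff_bound _

variable [IsUltrametricDist K]

/-- Bounded coefficients and no part below degree `E`. -/
lemma norm_ev_le_mul_pow {f : MvPowerSeries (Fin r) K} {a : Fin r → K} {C ρ : ℝ} {E : ℕ}
    (hC : 0 ≤ C) (hf : ∀ d, ‖MvPowerSeries.coeff d f‖ ≤ C)
    (h0 : ∀ d, d.degree < E → MvPowerSeries.coeff d f = 0) (hρ0 : 0 ≤ ρ) (hρ1 : ρ ≤ 1)
    (ha : ∀ i, ‖a i‖ ≤ ρ) : ‖ev f a‖ ≤ C * ρ ^ E := by
  refine norm_ev_le (by positivity) fun d => ?_
  rcases lt_or_ge d.degree E with h | h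
  · simp only [evTerm, h0 d h, zero_mul, norm_zero]
    positivity
  · exact (norm_evTerm_le hf ha d).trans
      (mul_le_mul_of_nonneg_left (pow_le_pow_of_le_one hρ0 hρ1 h) hC)

omit [IsUltrametricDist K] in
lemma conv_truncDeg (D : ℕ) (f : MvPowerSeries (Fin r) K) (a : Fin r → K) :
    Conv (truncDeg D f) a := by
  rw [← coe_truncPoly]
  exact conv_coe _ a

lemma norm_ev_truncDeg_sub_le {D : ℕ} {f : MvPowerSeries (Fin r) K} {a b : Fin r → K} {C δ : ℝ}
    (hC : 0 ≤ C) (hf : ∀ d, ‖MvPowerSeries.coeff d (truncDeg D f)‖ ≤ C) (hδ : 0 ≤ δ)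
    (ha : ∀ i, ‖a i‖ ≤ 1) (hb : ∀ i, ‖b i‖ ≤ 1) (h : ∀ i, ‖a i - b i‖ ≤ δ) :
    ‖ev (truncDeg D f) a - ev (truncDeg D f) b‖ ≤ C * δ := by
  rw [ev_eq_tsum, ev_eq_tsum, ← (conv_truncDeg D f a).tsum_sub (conv_truncDeg D f b)]
  refine norm_tsum_le_of_forall (by positivity) fun d => ?_
  rw [evTerm, evTerm, ← mul_sub, norm_mul]
  exact mul_le_mul (hf d) (norm_monomial_sub_le hδ ha hb h d) (norm_nonneg _) hC

omit [IsUltrametricDist K] in
lemma ev_truncDeg_two {f : MvPowerSeries (Fin r) K} (h0 : MvPowerSeries.constantCoeff f = 0)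
    (a : Fin r → K) : ev (truncDeg 2 f) a =
      ∑ j, MvPowerSeries.coeff (Finsupp.single j 1) f * a j := by
  classical
  rw [ev_eq_tsum, tsum_eq_sum (s := univ.image fun j : Fin r => Finsupp.single j 1),
    sum_image fun i _ j _ hij => Finsupp.single_left_injective (one_ne_zero (α := ℕ)) hij]
  · refine sum_congr rfl fun j _ => ?_
    rw [evTerm, coeff_truncDeg, Finsupp.degree_single, if_pos one_lt_two,
      Finsupp.prod_single_index (h := fun i e => a i ^ e) (pow_zero _), pow_one]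
  · intro d hd
    rw [evTerm, coeff_truncDeg]
    split_ifs with h2
    · rcases Nat.lt_or_ge d.degree 1 with h1 | h1
      · obtain rfl := (Finsupp.degree_eq_zero_iff d).1 (by omega)
        rw [MvPowerSeries.coeff_zero_eq_constantCoeff_apply, h0, zero_mul]
      · obtain ⟨j, rfl⟩ := (Finsupp.sum_eq_one_iff d).1
          (show d.sum (fun _ e => e) = 1 from (show d.degree = 1 by omega))
        exact absurd (mem_image.2 ⟨j, mem_univ j, rfl⟩) hd
    · rw [zero_mul]

/-- (1) Small solutions are bounded by their linear images. -/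
theorem exists_bound_inverse (η : Fin r → MvPowerSeries (Fin r) K)
    (h0 : ∀ l, MvPowerSeries.constantCoeff (η l) = 0) (hdet : IsUnit (linMatrix η).det) (B : ℝ) :
    ∃ C s₀ : ℝ, 0 < C ∧ 0 < s₀ ∧ ∀ du y : Fin r → K, ‖du‖ ≤ s₀ →
      (∀ l, ‖ev (truncDeg 2 (η l)) du - y l‖ ≤ B * ‖du‖ ^ 2) → ‖du‖ ≤ C * ‖y‖ := by
  set M := linMatrix η with hM
  set N : ℝ := ∑ i, ∑ j, ‖M⁻¹ i j‖ + 1 with hN
  have hN0 : 0 < N := by positivity
  have hNij : ∀ i j, ‖M⁻¹ i j‖ ≤ N := fun i j =>
    ((single_le_sum (fun j _ => norm_nonneg (M⁻¹ i j)) (mem_univ j)).trans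
      (single_le_sum (f := fun i => ∑ j, ‖M⁻¹ i j‖) (fun i _ => sum_nonneg fun j _ => norm_nonneg _)
        (mem_univ i))).trans (le_add_of_nonneg_right zero_le_one)
  refine ⟨N, 1 / (2 * (N * (|B| + 1))), hN0, by positivity, fun du y hs h => ?_⟩
  set ρ := ‖du‖ with hρ
  set u : Fin r → K := fun l => ev (truncDeg 2 (η l)) du with hu
  have hMu : u = M.mulVec du := funext fun l => by
    rw [hu]
    simp only [ev_truncDeg_two (h0 l), Matrix.mulVec, dotProduct, hM, linMatrix, Matrix.of_apply]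
  have hdu : du = M⁻¹.mulVec u := by
    rw [hMu, Matrix.mulVec_mulVec, Matrix.nonsing_inv_mul _ hdet, Matrix.one_mulVec]
  have hul : ∀ l, ‖u l‖ ≤ max ((|B| + 1) * ρ ^ 2) ‖y‖ := fun l => by
    have := IsUltrametricDist.norm_add_le_max (u l - y l) (y l)
    rw [sub_add_cancel] at this
    exact this.trans (max_le_max ((h l).trans (mul_le_mul_of_nonneg_right
      ((le_abs_self B).trans (le_add_of_nonneg_right zero_le_one)) (sq_nonneg _)))
      (norm_le_pi_norm y l))
  have hle : ρ ≤ N * max ((|B| + 1) * ρ ^ 2) ‖y‖ := by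
    refine (pi_norm_le_iff_of_nonneg (by positivity)).2 fun i => ?_
    conv_lhs => rw [hdu]
    simp only [Matrix.mulVec, dotProduct]
    refine IsUltrametricDist.norm_sum_le_of_forall_le_of_nonneg (by positivity) fun j _ => ?_
    rw [norm_mul]
    exact mul_le_mul (hNij i j) (hul j) (norm_nonneg _) hN0.le
  rcases le_total ((|B| + 1) * ρ ^ 2) ‖y‖ with hy | hy
  · rwa [max_eq_right hy] at hle
  · rw [max_eq_left hy] at hle
    rw [le_div_iff₀ (by positivity)] at hs
    have : ρ ≤ ρ / 2 := hle.trans (by nlinarith [norm_nonneg du])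
    have h1 : ρ = 0 := le_antisymm (by linarith) (norm_nonneg du)
    rw [h1]
    positivity

/-- (2) Truncations of a series in the inverse coordinates. -/
theorem ev_truncDeg_comp (η U : Fin r → MvPowerSeries (Fin r) K)
    (hη0 : ∀ l, MvPowerSeries.constantCoeff (η l) = 0)
    (hU0 : ∀ l, MvPowerSeries.constantCoeff (U l) = 0)
    (hinv : ∀ l, MvPowerSeries.subst η (U l) = MvPowerSeries.X l)
    (F : MvPowerSeries (Fin r) K) (D : ℕ) (B : ℝ) :
    ∃ C s₀ : ℝ, 0 < s₀ ∧ ∀ (du y : Fin r → K) (ρ : ℝ), 0 ≤ ρ → ρ ≤ s₀ → (∀ j, ‖du j‖ ≤ ρ) →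
      (∀ l, ‖ev (truncDeg D (η l)) du - y l‖ ≤ B * ρ ^ D) →
      ‖ev (truncDeg D (MvPowerSeries.subst U F)) y - ev (truncDeg D F) du‖ ≤ C * ρ ^ D := by
  classical
  rcases Nat.eq_zero_or_pos D with rfl | hD
  · refine ⟨0, 1, one_pos, fun du y ρ _ _ _ _ => ?_⟩
    have h0 : ∀ f : MvPowerSeries (Fin r) K, ∀ a, ev (truncDeg 0 f) a = 0 := fun f a => by
      rw [ev_eq_tsum]
      simp [evTerm, coeff_truncDeg]
    simp [h0]
  set g := MvPowerSeries.subst U F with hg
  obtain ⟨CG, hCG0, hCG⟩ := exists_coeff_bound_truncDeg D g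
  choose CE hCE0 hCE using fun l => exists_coeff_bound_truncDeg D (η l)
  set P : MvPolynomial (Fin r) K :=
    MvPolynomial.bind₁ (fun l => truncPoly D (η l)) (truncPoly D g) - truncPoly D F with hP
  obtain ⟨CP, hCP0, hCP⟩ := exists_coeff_bound P
  set M : ℝ := ∑ l, CE l + |B| + 1 with hM
  have hM1 : 1 ≤ M := le_add_of_nonneg_left (add_nonneg (sum_nonneg fun l _ => hCE0 l) (abs_nonneg B))
  refine ⟨CG * |B| + CP, 1 / M, by positivity, fun du y ρ hρ0 hs hdu hy => ?_⟩
  have hρM : ρ * M ≤ 1 := (le_div_iff₀ (zero_lt_one.trans_le hM1)).1 hs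
  have hρ1 : ρ ≤ 1 := le_trans (le_mul_of_one_le_right hρ0 hM1) hρM
  have hpow : ρ ^ D ≤ ρ := pow_le_of_le_one hρ0 hρ1 hD.ne'
  set e : Fin r → K := fun l => ev (truncDeg D (η l)) du with he
  have heM : ∀ l, ‖e l‖ ≤ CE l * ρ := fun l => by
    have := norm_ev_le_mul_pow (E := 1) (hCE0 l) (hCE l) (fun d hd => by
      obtain rfl := (Finsupp.degree_eq_zero_iff d).1 (by omega)
      rw [MvPowerSeries.coeff_zero_eq_constantCoeff_apply]
      exact constantCoeff_truncDeg (hη0 l)) hρ0 hρ1 hdu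
    rwa [pow_one] at this
  have he1 : ∀ l, ‖e l‖ ≤ 1 := fun l => (heM l).trans (by
    nlinarith [single_le_sum (fun i _ => hCE0 i) (mem_univ l), abs_nonneg B])
  have hyd : ∀ l, ‖y l - e l‖ ≤ |B| * ρ ^ D := fun l => by
    rw [norm_sub_rev]
    exact (hy l).trans (mul_le_mul_of_nonneg_right (le_abs_self B) (by positivity))
  have hy1 : ∀ l, ‖y l‖ ≤ 1 := fun l => by
    have := IsUltrametricDist.norm_add_le_max (y l - e l) (e l)
    rw [sub_add_cancel] at this
    refine this.trans (max_le ((hyd l).trans ?_) (he1 l))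
    nlinarith [mul_le_mul_of_nonneg_left hpow (abs_nonneg B), sum_nonneg fun i (_ : i ∈ univ) => hCE0 i]
  have h1 := norm_ev_truncDeg_sub_le hCG0 hCG (by positivity : 0 ≤ |B| * ρ ^ D) hy1 he1 hyd
  have hev : ev (P : MvPowerSeries (Fin r) K) du = ev (truncDeg D g) e - ev (truncDeg D F) du := by
    simp only [he, ← coe_truncPoly, ev_coe, hP, map_sub]
    congr 1
    exact MvPolynomial.eval₂Hom_bind₁ _ _ _ _
  have hhs : MvPowerSeries.HasSubst η := MvPowerSeries.hasSubst_of_constantCoeff_zero hη0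
  have hcomp : MvPowerSeries.subst η g = F := by
    rw [hg, MvPowerSeries.subst_comp_subst_apply (MvPowerSeries.hasSubst_of_constantCoeff_zero hU0)
      hhs, funext hinv, MvPowerSeries.subst_self, id_eq]
  have hzero : ∀ d, d.degree < D → MvPowerSeries.coeff d (P : MvPowerSeries (Fin r) K) = 0 := by
    intro d hd
    have hsub : (MvPolynomial.bind₁ (fun l => truncPoly D (η l)) (truncPoly D g) :
        MvPowerSeries (Fin r) K) =
        MvPowerSeries.subst (fun l => truncDeg D (η l)) (truncDeg D g) := by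
      rw [← coe_truncPoly D g, MvPowerSeries.subst_coe]
      generalize truncPoly D g = G
      induction G using MvPolynomial.induction_on with
      | C a => simp [MvPowerSeries.algebraMap_apply]
      | add p q hp hq => simp [hp, hq]
      | mul_X p l hp => simp [hp, coe_truncPoly]
    rw [hP, ← MvPolynomial.coeToMvPowerSeries.ringHom_apply, map_sub,
      MvPolynomial.coeToMvPowerSeries.ringHom_apply, MvPolynomial.coeToMvPowerSeries.ringHom_apply,
      map_sub, hsub, coe_truncPoly, coeff_truncDeg, if_pos hd, sub_eq_zero]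
    have hs' : MvPowerSeries.HasSubst fun l => truncDeg D (η l) :=
      MvPowerSeries.hasSubst_of_constantCoeff_zero fun l => constantCoeff_truncDeg (hη0 l)
    rw [MvPowerSeries.coeff_subst hs']
    conv_rhs => rw [← hcomp, MvPowerSeries.coeff_subst hhs]
    refine finsum_congr fun c => ?_
    have hprod : MvPowerSeries.coeff d (c.prod fun l k => truncDeg D (η l) ^ k) =
        MvPowerSeries.coeff d (c.prod fun l k => η l ^ k) :=
      EqBelow.prod c.support (fun l _ => (eqBelow_truncDeg D (η l)).pow (c l)) d hd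
    rw [hprod, coeff_truncDeg]
    split_ifs with hc
    · rfl
    · rw [zero_smul]
      have : MvPowerSeries.coeff d (c.prod fun l k => η l ^ k) = 0 := by
        refine coeff_prod_eq_zero hη0 c.support (fun l => c l) ?_
        rw [← Finsupp.degree_apply]
        omega
      rw [this, smul_zero]
  have h2 : ‖ev (truncDeg D g) e - ev (truncDeg D F) du‖ ≤ CP * ρ ^ D := by
    rw [← hev]
    exact norm_ev_le_mul_pow hCP0 hCP hzero hρ0 hρ1 hdu
  rw [← sub_add_sub_cancel _ (ev (truncDeg D g) e)]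
  refine (IsUltrametricDist.norm_add_le_max _ _).trans ?_
  rw [add_mul, mul_assoc]
  exact (max_le_max h1 h2).trans (max_le_add_of_nonneg (by positivity) (by positivity))

/-- (3) Truncation by weight and by degree differ by high order terms. -/
theorem ev_truncWt_sub_truncDeg (f : MvPowerSeries (Fin r) K) (v : Fin r → ℝ) (hv : ∀ l, 1 ≤ v l)
    (D : ℕ) : ∃ C : ℝ, 0 ≤ C ∧ ∀ (y : Fin r → K) (θ : ℝ), 0 ≤ θ → θ ≤ 1 →
      (∀ l, ‖y l‖ ≤ θ ^ v l) →
      ‖ev (truncWt v D f) y - ev (truncDeg D f) y‖ ≤ C * θ ^ D := by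
  obtain ⟨C, hC0, hC⟩ := exists_coeff_bound_truncDeg D f
  refine ⟨C, hC0, fun y θ hθ0 hθ1 hy => ?_⟩
  have hw : ∀ d : Fin r →₀ ℕ, (d.degree : ℝ) ≤ wt v d := fun d => by
    rw [Finsupp.degree_eq_sum, Nat.cast_sum]
    exact sum_le_sum fun l _ => le_mul_of_one_le_right (Nat.cast_nonneg _) (hv l)
  have hcoeff : ∀ d, MvPowerSeries.coeff d (truncWt v D f) =
      if wt v d < D then MvPowerSeries.coeff d (truncDeg D f) else 0 := fun d => by
    classical
    show (if wt v d < D then _ else _) = _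
    split_ifs with h
    · rw [coeff_truncDeg, if_pos (by exact_mod_cast (hw d).trans_lt h)]
    · rfl
  have hconv : Conv (truncWt v D f) y :=
    summable_of_ne_finset_zero (s := (finite_degree_lt (σ := Fin r) D).toFinset) fun d hd => by
      have hd' : ¬ d.degree < D := fun h => hd (by simpa using h)
      rw [evTerm, hcoeff, coeff_truncDeg, if_neg hd', ite_self, zero_mul]
  rw [← ev_sub hconv (conv_truncDeg D f y)]
  refine norm_ev_le (by positivity) fun d => ?_
  rw [evTerm, map_sub, hcoeff]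
  split_ifs with h
  · rw [sub_self, zero_mul, norm_zero]
    positivity
  · rw [zero_sub, neg_mul, norm_neg, norm_mul]
    refine mul_le_mul (hC d) ?_ (norm_nonneg _) hC0
    rw [not_lt] at h
    calc ‖d.prod fun l e => y l ^ e‖ = ∏ l, ‖y l‖ ^ d l := by
          rw [Finsupp.prod_fintype _ _ (fun l => pow_zero _), norm_prod]
          simp only [norm_pow]
      _ ≤ ∏ l, θ ^ ((d l : ℝ) * v l) := prod_le_prod (fun l _ => by positivity) fun l _ => by
          rw [mul_comm, Real.rpow_mul_natCast hθ0]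
          exact pow_le_pow_left₀ (norm_nonneg _) (hy l) _
      _ = θ ^ wt v d := (Real.rpow_sum_of_nonneg hθ0
          fun l _ => mul_nonneg (Nat.cast_nonneg _) (zero_le_one.trans (hv l))).symm
      _ ≤ θ ^ D := by
          rcases hθ0.eq_or_lt with rfl | hθ
          · rcases Nat.eq_zero_or_pos D with rfl | hD
            · simpa using Real.rpow_le_one le_rfl zero_le_one (le_trans (by simp) h)
            · have : (0 : ℝ) < wt v d := lt_of_lt_of_le (by exact_mod_cast hD) h
              simp [Real.zero_rpow this.ne', zero_pow hD.ne']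
          · exact_mod_cast Real.rpow_le_rpow_of_exponent_ge hθ hθ1 h

end Vale.Agent.P217
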