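/-
P217 (ORBIT): expansion of an element of the Lubin-Tate ring at the point, in the slot coordinates.
-/
import Vale.Agent.P217.Orbit.Pert
import Vale.Agent.P217.Orbit.ChartDefs
import Vale.Agent.P217.EvalLemmasDeriv
import Vale.Agent.P217.Orbit.Implicit

namespace Vale.Agent.P217

open MvPowerSeries

variable {p n : ℕ} [Fact p.Prime] {K : Type} [NormedField K] {h : ℕ}

/-- The expansion of `a` at the point `x`, in the slot coordinates. -/
noncomputable def slotExpand (h : ℕ) (x : LT p n →+* K) (a : LT p n) :
    MvPowerSeries (Fin (n - h)) K :=
  MvPowerSeries.subst (slotVar h) (translate (MvPowerSeries.map (constHom x) a) (uvec x))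

omit [Fact p.Prime] in
lemma constantCoeff_slotVar (l : Fin (n - 1)) :
    MvPowerSeries.constantCoeff (slotVar h l : MvPowerSeries (Fin (n - h)) K) = 0 := by
  rw [slotVar]; split <;> simp

omit [Fact p.Prime] in
lemma hasSubst_slotVar :
    MvPowerSeries.HasSubst (slotVar h : Fin (n - 1) → MvPowerSeries (Fin (n - h)) K) :=
  MvPowerSeries.hasSubst_of_constantCoeff_zero constantCoeff_slotVar

variable [IsUltrametricDist K] {x x' : LT p n →+* K}

omit [Fact p.Prime] [IsUltrametricDist K] in
lemma integral_slotVar (l : Fin (n - 1)) :
    IntegralSeries (slotVar h l : MvPowerSeries (Fin (n - h)) K) := by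
  rw [slotVar]; split
  · exact IntegralSeries.X _
  · exact IntegralSeries.zero

variable (hx : IsBasePoint p n h x)
include hx

lemma integral_slotExpand (a : LT p n) : IntegralSeries (slotExpand h x a) :=
  (translate_integral (IntegralSeries.map (constHom x) (fun c => hx.norm_le _) a)
    (fun l => hx.norm_le _)).subst integral_slotVar hasSubst_slotVar

variable [CompleteSpace K]

/-- The expansion evaluates to the value at the perturbed point. -/
lemma ev_slotExpand (hh : 1 ≤ h) (hx' : IsPert h x x') (a : LT p n) :
    ev (slotExpand h x a) (duOf h hh x x') = x' a := by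
  have hu : ∀ l, ‖uvec x l‖ < 1 := fun l => hx.norm_lt _ (X_mem_maximal l)
  have hdu := norm_duOf_lt hh hx.norm_lt hx'
  have hint := IntegralSeries.map (constHom x) (fun c => hx.norm_le _) a
  rw [slotExpand, ev_subst (translate_integral hint fun l => (hu l).le) integral_slotVar
    constantCoeff_slotVar hdu]
  have e : (fun l => ev (slotVar h l) (duOf h hh x x')) = extDu h (duOf h hh x x') := by
    funext l
    rw [slotVar, extDu]
    split
    · rw [ev_X]
    · rw [ev_zero]
  rw [e, ev_translate hint hu (norm_extDu_lt hdu), ← apply_eq_ev_of_isPert hh hx.low hx']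

/-- The constant term is the value at the point. -/
lemma constantCoeff_slotExpand (hh : 1 ≤ h) (a : LT p n) :
    MvPowerSeries.constantCoeff (slotExpand h x a) = x a := by
  have hp : IsPert h x x := ⟨hx.norm_le, hx.norm_lt, fun _ => rfl, hx.low⟩
  rw [← ev_apply_zero, ← ev_slotExpand hx hh hp]
  congr 1
  funext j
  simp [duOf]

/-- The linear coefficients are the values of the partial derivatives. -/
lemma coeff_single_slotExpand (hh : 1 ≤ h) (a : LT p n) (j : Fin (n - h)) :
    MvPowerSeries.coeff (Finsupp.single j 1) (slotExpand h x a) =
      x (MvPowerSeries.pderiv (WittVector p (Res p n)) (slot n h hh j) a) := by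
  classical
  have hu : ∀ l, ‖uvec x l‖ < 1 := fun l => hx.norm_lt _ (X_mem_maximal l)
  rw [slotExpand, coeff_single_subst (slotVar (K := K) h) (fun l => constantCoeff_slotVar l),
    Finset.sum_eq_single (slot n h hh j)]
  · have hX : (slotVar h (slot n h hh j) : MvPowerSeries (Fin (n - h)) K) = MvPowerSeries.X j := by
      have hl : h ≤ (slot n h hh j).val + 1 := by simp only [slot]; omega
      rw [slotVar, dif_pos hl]
      congr 1
      ext
      simp only [slot]
      omega
    rw [hX, MvPowerSeries.coeff_X, if_pos rfl, mul_one,
      coeff_single_translate (IntegralSeries.map (constHom x) (fun c => hx.norm_le _) a) hu,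
      ringHom_eq_ev_LT hx.norm_le hx.norm_lt]
    congr 1
    ext d
    simp only [MvPowerSeries.coeff_pderiv, MvPowerSeries.coeff_map, map_mul, map_add, map_natCast,
      map_one]
  · intro l _ hl
    rw [slotVar]
    split
    · rename_i hl'
      rw [MvPowerSeries.coeff_X, if_neg, mul_zero]
      intro he
      apply hl
      have h1 := Finsupp.single_left_injective one_ne_zero he
      ext
      simp only [slot, h1]
      omega
    · simp
  · exact fun hj => absurd (Finset.mem_univ _) hj

end Vale.Agent.P217
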