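/-
P217 (ORBIT): points of the deep orbit in unipotent coordinates.
-/
import Vale.Agent.P217.Orbit.Pert
import Vale.Agent.P217.Orbit.ChartDefs
import Vale.Agent.P217.Orbit.Points
import Vale.Agent.P217.Orbit.PointFacts
import Vale.Agent.P217.EvalLemmasFrob
import Vale.Agent.P217.Easy.Main
import Vale.Agent.P217.Continuity

namespace Vale.Agent.P217

open Filter Topology

variable {p n : ℕ} [Fact p.Prime] {K : Type} [NormedField K] [IsUltrametricDist K]

/-- Powers of the maximal ideal have geometrically small values. -/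
lemma exists_eps {F : FormalGroup (LT p n)} (hF : IsUniversalLaw p n F) (hn : 1 ≤ n) {h : ℕ}
    {x : LT p n →+* K} (hx : IsBasePoint p n h x) :
    ∃ ε : ℝ, 0 ≤ ε ∧ ε < 1 ∧
      ∀ k, ∀ a ∈ IsLocalRing.maximalIdeal (LT p n) ^ k, ‖x a‖ ≤ ε ^ k := by
  classical
  have hgen : heightIdeal p n n = IsLocalRing.maximalIdeal (LT p n) :=
    (easyStatement p n hn F hF).2
  have hmem : ∀ i < n, par p n i ∈ IsLocalRing.maximalIdeal (LT p n) := fun i hi => by
    rw [← hgen]; exact Ideal.subset_span ⟨i, hi, rfl⟩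
  obtain ⟨ε, hε0, hε1, hε⟩ := exists_radius (K := K) (a := fun i : Fin n => x (par p n i.val))
    fun i => hx.norm_lt _ (hmem _ i.isLt)
  have h1 : ∀ a ∈ IsLocalRing.maximalIdeal (LT p n), ‖x a‖ ≤ ε := by
    intro a ha
    rw [← hgen] at ha
    induction ha using Submodule.span_induction with
    | mem b hb => obtain ⟨i, hi, rfl⟩ := hb; exact hε ⟨i, hi⟩
    | zero => simp [hε0.le]
    | add b c _ _ hb hc =>
      rw [map_add]
      exact (IsUltrametricDist.norm_add_le_max _ _).trans (max_le hb hc)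
    | smul r b _ hb =>
      rw [smul_eq_mul, map_mul, norm_mul]
      exact (mul_le_mul (hx.norm_le r) hb (norm_nonneg _) zero_le_one).trans (one_mul _).le
  refine ⟨ε, hε0.le, hε1, fun k => ?_⟩
  induction k with
  | zero => intro a _; simpa using hx.norm_le a
  | succ k ih =>
    intro a ha
    rw [pow_succ] at ha
    refine Submodule.mul_induction_on ha (fun b hb c hc => ?_) (fun b c hb hc => ?_)
    · rw [map_mul, norm_mul, pow_succ]
      exact mul_le_mul (ih b hb) (h1 c hc) (norm_nonneg _) (pow_nonneg hε0.le _)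
    · rw [map_add]
      exact (IsUltrametricDist.norm_add_le_max _ _).trans (max_le hb hc)

omit [IsUltrametricDist K] in
/-- The point moved by an action. -/
lemma isPert_comp {h : ℕ} {x : LT p n →+* K} (hx : IsBasePoint p n h x)
    (φ : LT p n →ₐ[WittVector p (Res p n)] LT p n)
    (h0 : ∀ a ∈ heightIdeal p n h, x (φ a) = 0) : IsPert h x (x.comp φ.toRingHom) where
  norm_le a := hx.norm_le _
  norm_lt a ha := hx.norm_lt _ (by
    have h1 := Cont.map_mem (φ := φ) (k := 1) (by rwa [pow_one] : a ∈ _)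
    rwa [pow_one] at h1)
  const c := by
    have e : φ (MvPowerSeries.C c : LT p n) = MvPowerSeries.C c := by
      have := φ.commutes c
      rwa [MvPowerSeries.algebraMap_apply, Algebra.algebraMap_self_apply] at this
    exact congrArg x e
  low := h0

variable [CompleteSpace K]

/-- The equation `τ ∘ e = τ^P` at small points. -/
lemma tau_map_e [CharP K p] {e : PowerSeries (LT p n)} (he : IsPSeries p n e)
    (hE : PSeriesFacts p n e) {h : ℕ} (hn : h ≤ n) {x : LT p n →+* K} (hx : IsBasePoint p n h x)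
    {τ : PowerSeries K} (hτi : ∀ b, ‖PowerSeries.coeff b τ‖ ≤ 1)
    (hτg : PowerSeries.subst (gSer h e x) τ = PowerSeries.map (iterateFrobenius K p h) τ)
    {z : K} (hz : ‖z‖ < 1) :
    ev₁ τ (ev₁ (PowerSeries.map x e) z) = ev₁ τ z ^ p ^ h := by
  have hτ' : IntegralSeries (τ : MvPowerSeries Unit K) := fun d => by
    have hd : d = Finsupp.single () (d ()) := by ext; simp
    rw [hd]; exact hτi _
  have hg : IntegralSeries (gSer h e x : MvPowerSeries Unit K) := fun d => by
    have hd : d = Finsupp.single () (d ()) := by ext; simp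
    rw [hd]; exact integral_gSer hx.norm_le h e _
  have hzP : ‖z ^ p ^ h‖ < 1 := by
    rw [norm_pow]
    exact pow_lt_one₀ (norm_nonneg _) hz (pow_ne_zero _ (Fact.out : p.Prime).ne_zero)
  rw [ev₁_map_eq_gSer hE hn hx.low, ← ev₁_subst hτ' hg (constantCoeff_gSer he h x) hzP, hτg,
    ev₁_map_frobenius p h (conv_of_integral hτ' fun _ => hz)]

omit [IsUltrametricDist K] [CompleteSpace K] in
/-- Along a compatible sequence `τ(a_0) = τ(a_k)^(P^k)`. -/
lemma tau_iterate {P : ℕ} {τ : PowerSeries K} {E : K → K} {a : ℕ → K}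
    (ha : ∀ k, ‖a k‖ < 1) (hstep : ∀ k, E (a (k + 1)) = a k)
    (hτ : ∀ z, ‖z‖ < 1 → ev₁ τ (E z) = ev₁ τ z ^ P) :
    ∀ k, ev₁ τ (a 0) = ev₁ τ (a k) ^ P ^ k := by
  intro k
  induction k with
  | zero => simp
  | succ k ih => rw [ih, ← hstep k, hτ _ (ha (k + 1)), ← pow_mul, ← pow_succ']

/-- A law with coefficients fixed by the `P`-th power commutes with it. -/
lemma ev_fixed_pow [CharP K p] {H : FormalGroup K} (hH : IntegralSeries H.toPowerSeries) {h : ℕ}
    (hfix : ∀ d, MvPowerSeries.coeff d H.toPowerSeries ^ p ^ h =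
      MvPowerSeries.coeff d H.toPowerSeries) (k : ℕ) {a b : K} (ha : ‖a‖ < 1) (hb : ‖b‖ < 1) :
    ev H.toPowerSeries ![a ^ (p ^ h) ^ k, b ^ (p ^ h) ^ k] =
      ev H.toPowerSeries ![a, b] ^ (p ^ h) ^ k := by
  have hm : MvPowerSeries.map (iterateFrobenius K p (h * k)) H.toPowerSeries = H.toPowerSeries := by
    ext d
    rw [MvPowerSeries.coeff_map, iterateFrobenius_def, pow_mul]
    induction k with
    | zero => simp
    | succ k ih => rw [pow_succ (p ^ h) k, pow_mul, ih, hfix]
  rw [← pow_mul, ← ev_map_frobenius p (h * k) (conv_of_integral hH (norm_pair_lt ha hb)), hm]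
  congr 1
  funext i
  fin_cases i <;> rfl

/-- Iterated sums commute with the powers. -/
lemma evSum_fixed_pow [CharP K p] {H : FormalGroup K} (hH : IntegralSeries H.toPowerSeries)
    {h : ℕ} (hfix : ∀ d, MvPowerSeries.coeff d H.toPowerSeries ^ p ^ h =
      MvPowerSeries.coeff d H.toPowerSeries) (k : ℕ) {r : ℕ} :
    ∀ {m : ℕ} (y : Fin m → Fin r → K), (∀ s l, ‖y s l‖ < 1) → ∀ l,
      evSum H.toPowerSeries (fun s l => y s l ^ (p ^ h) ^ k) l =
        evSum H.toPowerSeries y l ^ (p ^ h) ^ k ∧ ‖evSum H.toPowerSeries y l‖ < 1 := by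
  intro m
  induction m with
  | zero =>
    intro y _ l
    simp [evSum, zero_pow (pow_ne_zero _ (pow_ne_zero _ (Fact.out : p.Prime).ne_zero))]
  | succ m ih =>
    intro y hy l
    obtain ⟨e1, e2⟩ := ih (fun s => y s.castSucc) (fun s => hy s.castSucc) l
    refine ⟨?_, norm_fadd_lt hH e2 (hy _ l)⟩
    rw [evSum]
    simp only [e1]
    exact ev_fixed_pow hH hfix k e2 (hy _ l)

/-- A homomorphism commutes with iterated sums. -/
lemma ev₁_evSum {A B : FormalGroup K} (hA : IntegralSeries A.toPowerSeries)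
    (hB : IntegralSeries B.toPowerSeries) {f : PowerSeries K}
    (hf : IntegralSeries (f : MvPowerSeries Unit K)) (hom : IsHom A B f) {r : ℕ} :
    ∀ {m : ℕ} (y : Fin m → Fin r → K), (∀ s l, ‖y s l‖ < 1) → ∀ l,
      ev₁ f (evSum A.toPowerSeries y l) = evSum B.toPowerSeries (fun s l => ev₁ f (y s l)) l ∧
        ‖evSum A.toPowerSeries y l‖ < 1 := by
  intro m
  induction m with
  | zero =>
    intro y _ l
    refine ⟨?_, by simp [evSum]⟩
    simp only [evSum, Pi.zero_apply]
    exact (ev_apply_zero f).trans hom.1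
  | succ m ih =>
    intro y hy l
    obtain ⟨e1, e2⟩ := ih (fun s => y s.castSucc) (fun s => hy s.castSucc) l
    refine ⟨?_, norm_fadd_lt hA e2 (hy _ l)⟩
    rw [evSum, evSum, ev₁_fadd hA hB hf hom e2 (hy _ l), e1]

/-- Iterated sums are bounded by their summands. -/
lemma norm_evSum_le {A : FormalGroup K} (hA : IntegralSeries A.toPowerSeries) {r : ℕ} {ρ : ℝ}
    (hρ0 : 0 ≤ ρ) (hρ : ρ ≤ 1) :
    ∀ {m : ℕ} (y : Fin m → Fin r → K) (l : Fin r), (∀ s, ‖y s l‖ ≤ ρ) →
      ‖evSum A.toPowerSeries y l‖ ≤ ρ := by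
  intro m
  induction m with
  | zero => intro y l _; simpa [evSum] using hρ0
  | succ m ih =>
    intro y l hy
    rw [evSum]
    exact norm_fadd_le hA hρ (ih _ l fun s => hy s.castSucc) (hy _)

end Vale.Agent.P217
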