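/-
P217 (ORBIT): small lemmas for the assembly of the chart half.
-/
import Vale.Agent.P217.Orbit.OrbitPts
import Vale.Agent.P217.Orbit.Expand
import Vale.Agent.P217.Orbit.Implicit

namespace Vale.Agent.P217

open MvPowerSeries

variable {p n : ℕ} [Fact p.Prime] {K : Type} [NormedField K]

/-- Branches of length `k` only see the tower up to level `k`. -/
lemma IsBranch.congr {F : FormalGroup (LT p n)} {e : PowerSeries (LT p n)} {h : ℕ}
    {x x' : LT p n →+* K} {t t' : ℕ → K} {k : ℕ} {z : ℕ → K}
    (hz : IsBranch F e h x x' t k z) (ht : ∀ j ≤ k, t j = t' j) : IsBranch F e h x x' t' k z := by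
  refine ⟨hz.1, fun j hj => ?_⟩
  obtain ⟨h1, h2⟩ := hz.2 j hj
  rw [← ht j hj.le, ← ht (j + 1) hj]
  exact ⟨h1, h2⟩

/-- Iterated sums are computed coordinatewise. -/
lemma evSum_coord (G : MvPowerSeries (Fin 2) K) {r : ℕ} :
    ∀ {m : ℕ} (y : Fin m → Fin r → K) (l : Fin r),
      evSum G y l = evSum (r := 1) G (fun s _ => y s l) 0 := by
  intro m
  induction m with
  | zero => intro y l; simp [evSum]
  | succ m ih =>
    intro y l
    simp only [evSum]
    rw [ih]

/-- Agreement in low degree is preserved by products. -/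
lemma AgreeBelow.mul_left {σ R : Type} [CommRing R] {D : ℕ} {f g : MvPowerSeries σ R}
    (a : MvPowerSeries σ R) (h : AgreeBelow D f g) : AgreeBelow D (a * f) (a * g) := by
  rw [agreeBelow_iff_le_order] at h ⊢
  rw [← mul_sub]
  exact h.trans (le_trans (le_add_of_nonneg_left bot_le) le_order_mul)

/-- Agreement in low degree is preserved by finite sums. -/
lemma AgreeBelow.sum {σ R ι : Type} [CommRing R] {D : ℕ} (s : Finset ι)
    {f g : ι → MvPowerSeries σ R} (h : ∀ i ∈ s, AgreeBelow D (f i) (g i)) :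
    AgreeBelow D (∑ i ∈ s, f i) (∑ i ∈ s, g i) := fun d hd => by
  rw [map_sum, map_sum]
  exact Finset.sum_congr rfl fun i hi => h i hi d hd

/-- Agreement in low degree is preserved by substitution. -/
lemma AgreeBelow.subst {r : ℕ} {D : ℕ} {f g : MvPowerSeries (Fin r) K}
    {U : Fin r → MvPowerSeries (Fin r) K} (hU : ∀ i, constantCoeff (U i) = 0)
    (h : AgreeBelow D f g) : AgreeBelow D (MvPowerSeries.subst U f) (MvPowerSeries.subst U g) := by
  classical
  intro d hd
  have hs := MvPowerSeries.hasSubst_of_constantCoeff_zero hU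
  rw [coeff_subst hs, coeff_subst hs]
  refine finsum_congr fun e => ?_
  rcases lt_or_ge e.degree D with he | he
  · rw [h e he]
  · rw [Finsupp.prod_fintype _ _ (fun i => pow_zero _),
      coeff_prod_eq_zero hU Finset.univ (fun i => e i)
        (by rw [← Finsupp.degree_eq_sum]; omega), smul_zero, smul_zero]

variable [IsUltrametricDist K] [CompleteSpace K]

/-- Near zero `τ` is multiplication by its linear coefficient. -/
lemma norm_tau_eq {τ : PowerSeries K} (h0 : PowerSeries.constantCoeff τ = 0)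
    (hi : ∀ b, ‖PowerSeries.coeff b τ‖ ≤ 1) {z : K} (hz : ‖z‖ < ‖PowerSeries.coeff 1 τ‖) :
    ‖ev₁ τ z‖ = ‖PowerSeries.coeff 1 τ‖ * ‖z‖ := by
  set c := PowerSeries.coeff 1 τ with hc
  have hint : IntegralSeries (τ : MvPowerSeries Unit K) := fun d => by
    have hd : d = Finsupp.single () (d ()) := by ext; simp
    rw [hd]; exact hi _
  have hz1 : ‖z‖ < 1 := lt_of_lt_of_le hz (hi 1)
  set L : MvPowerSeries Unit K := MvPowerSeries.C c * MvPowerSeries.X () with hL
  have hLi : IntegralSeries L := (IntegralSeries.of_C (hi 1)).mul (IntegralSeries.X ())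
  have hdiff : ∀ d : Unit →₀ ℕ, d.degree < 2 →
      MvPowerSeries.coeff d ((τ : MvPowerSeries Unit K) - L) = 0 := by
    intro d hd
    have hd' : d = Finsupp.single () (d ()) := by ext; simp
    have h2 : d () < 2 := by simpa [Finsupp.degree_eq_sum] using hd
    rw [hd', map_sub, hL, MvPowerSeries.coeff_C_mul, MvPowerSeries.coeff_X, sub_eq_zero]
    rcases Nat.lt_succ_iff.1 h2 |>.lt_or_eq with h3 | h3
    · rw [Nat.lt_one_iff.1 h3, Finsupp.single_zero,
        if_neg (fun he => by simpa using DFunLike.congr_fun he ()), mul_zero,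
        coeff_zero_eq_constantCoeff_apply]
      exact h0
    · rw [h3, if_pos rfl, mul_one]
      rfl
  have h2 : ‖ev ((τ : MvPowerSeries Unit K) - L) fun _ => z‖ ≤ ‖z‖ ^ 2 :=
    norm_ev_le_pow (hint.sub hLi) hdiff (norm_nonneg _) hz1.le fun _ => le_rfl
  rw [ev_sub (conv_of_integral hint fun _ => hz1) (conv_of_integral hLi fun _ => hz1), hL,
    ev_C_mul, ev_X] at h2
  by_cases hz0 : z = 0
  · subst hz0
    rw [norm_zero, mul_zero]
    show ‖ev (τ : MvPowerSeries Unit K) fun _ => (0 : K)‖ = 0
    rw [ev_apply_zero, norm_eq_zero]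
    exact h0
  · have h3 : ‖ev₁ τ z - c * z‖ < ‖c * z‖ := by
      refine lt_of_le_of_lt h2 ?_
      rw [norm_mul, sq]
      exact mul_lt_mul_of_pos_right hz (norm_pos_iff.2 hz0)
    rw [← norm_mul]
    have := IsUltrametricDist.norm_add_eq_max_of_norm_ne_norm (x := ev₁ τ z - c * z) (y := c * z)
      h3.ne
    rw [sub_add_cancel, max_eq_right h3.le] at this
    exact this

end Vale.Agent.P217
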