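/-
P217 (ORBIT): the slot points along a tower and the image of a tower under a deep endomorphism.
-/
import Vale.Agent.P217.Orbit.PertDefs
import Vale.Agent.P217.Orbit.HomAdd
import Vale.Agent.P217.Orbit.Points
import Vale.Agent.P217.EvalLemmasFrob
import Vale.Agent.P217.Action.Endo
import Vale.Agent.P217.Newton.Const
import Vale.Agent.P217.Law.Basic
import Vale.Agent.P217.Cont.Core
import Vale.Agent.P217.Easy.Ideals

noncomputable section

namespace Vale.Agent.P217.Slots

open Filter Topology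

set_option linter.unusedSectionVars false

variable {p n : ℕ} [hp : Fact p.Prime] {K : Type} [NormedField K]

/-- The hypotheses on a point above `I_h`. -/
structure PointHyp (h : ℕ) (e : PowerSeries (LT p n)) (x : LT p n →+* K) : Prop where
  hh : 1 ≤ h
  hhn : h ≤ n
  facts : PSeriesFacts p n e
  e_zero : PowerSeries.constantCoeff e = 0
  norm_le : ∀ a, ‖x a‖ ≤ 1
  norm_lt : ∀ a ∈ IsLocalRing.maximalIdeal (LT p n), ‖x a‖ < 1
  low : ∀ a ∈ heightIdeal p n h, x a = 0

/-- The approximations `e^m (α t_(k+m)^(p^M))` of the slot point. -/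
def slotApprox (e : PowerSeries (LT p n)) (x : LT p n →+* K) (t : ℕ → K) (α : Res p n) (M k m : ℕ) :
    K :=
  (ev₁ (PowerSeries.map x e))^[m] (constAt x α * t (k + m) ^ p ^ M)

lemma slotLevel_eq (e : PowerSeries (LT p n)) (x : LT p n →+* K) (t : ℕ → K) (α : Res p n)
    (M k : ℕ) : slotLevel e x t α M k = limUnder atTop (slotApprox e x t α M k) := rfl

variable [IsUltrametricDist K] {h : ℕ} {e : PowerSeries (LT p n)} {x : LT p n →+* K}

lemma norm_pow_sub_pow_le {a b : K} {ρ : ℝ} (hρ : 0 ≤ ρ) (ha : ‖a‖ ≤ 1) (hb : ‖b‖ ≤ 1)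
    (hab : ‖a - b‖ ≤ ρ) (k : ℕ) : ‖a ^ k - b ^ k‖ ≤ ρ := by
  induction k with
  | zero => simp [hρ]
  | succ k ih =>
    rw [pow_succ, pow_succ]
    exact norm_mul_sub_mul_le hρ (by rw [norm_pow]; exact pow_le_one₀ (norm_nonneg _) hb) ha ih hab

lemma norm_sub_le_trans {a b c : K} {ρ : ℝ} (h₁ : ‖a - b‖ ≤ ρ) (h₂ : ‖b - c‖ ≤ ρ) :
    ‖a - c‖ ≤ ρ := by
  have : a - c = (a - b) + (b - c) := by ring
  rw [this]
  exact (IsUltrametricDist.norm_add_le_max _ _).trans (max_le h₁ h₂)

omit [IsUltrametricDist K] in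
/-- A good point satisfies the hypotheses. -/
lemma pointHyp_of_good {F : FormalGroup (LT p n)} {hh : 1 ≤ h} {P : Ideal (LT p n)}
    (G : GoodPoint p n F h hh P e K) (hhn : h ≤ n) (hS : PSeriesFacts p n e)
    (hel : IsPSeries p n e) (hle : heightIdeal p n h ≤ P) : PointHyp h e G.x where
  hh := hh
  hhn := hhn
  facts := hS
  e_zero := hel.1
  norm_le := G.norm_le
  norm_lt := G.norm_lt
  low a ha := (G.ker_eq a).2 (hle ha)

namespace PointHyp

variable (H : PointHyp h e x)

include H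

lemma n_pos : 0 < n := Nat.lt_of_lt_of_le H.hh H.hhn

/-- A uniform bound `< 1` on the maximal ideal. -/
lemma exists_eps [CharP K p] :
    ∃ ε : ℝ, 0 ≤ ε ∧ ε < 1 ∧ ∀ a ∈ IsLocalRing.maximalIdeal (LT p n), ‖x a‖ ≤ ε := by
  obtain ⟨ρ, hρ0, hρ1, hρ⟩ := exists_radius (a := fun l : Fin (n - 1) => x (MvPowerSeries.X l))
    fun l => H.norm_lt _ (X_mem_maximalIdeal l)
  refine ⟨ρ, hρ0.le, hρ1, fun a ha => ?_⟩
  let I : Ideal (LT p n) :=
    { carrier := {b | ‖x b‖ ≤ ρ}
      add_mem' := fun {b c} hb hc => by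
        simp only [Set.mem_ofPred_eq, map_add] at *
        exact (IsUltrametricDist.norm_add_le_max _ _).trans (max_le hb hc)
      zero_mem' := by simp [hρ0.le]
      smul_mem' := fun b c hc => by
        simp only [Set.mem_ofPred_eq, smul_eq_mul, map_mul, norm_mul] at *
        exact (mul_le_of_le_one_left (norm_nonneg _) (H.norm_le b)).trans hc }
  rw [maximalIdeal_LT] at ha
  refine (Ideal.span_le (I := I)).2 ?_ ha
  rintro b (rfl | ⟨l, rfl⟩)
  · show ‖x _‖ ≤ ρ
    rw [map_natCast, CharP.cast_eq_zero, norm_zero]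
    exact hρ0.le
  · exact hρ l

lemma integral_e : IntegralSeries (PowerSeries.map x e : PowerSeries K) :=
  IntegralSeries.map x H.norm_le e

omit [IsUltrametricDist K] in
lemma constantCoeff_ex : MvPowerSeries.constantCoeff
    (PowerSeries.map x e : MvPowerSeries Unit K) = 0 :=
  (MvPowerSeries.constantCoeff_map x e).trans (by
    rw [show MvPowerSeries.constantCoeff (e : MvPowerSeries Unit (LT p n)) = 0 from H.e_zero,
      map_zero])

lemma norm_E_lt {a : K} (ha : ‖a‖ < 1) : ‖ev₁ (PowerSeries.map x e) a‖ < 1 :=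
  norm_ev_lt_one H.integral_e H.constantCoeff_ex fun _ => ha

lemma norm_E_le {a : K} (ha : ‖a‖ < 1) : ‖ev₁ (PowerSeries.map x e) a‖ ≤ ‖a‖ :=
  norm_ev_le_of_constantCoeff H.integral_e H.constantCoeff_ex (norm_nonneg _) ha.le fun _ => le_rfl

omit [IsUltrametricDist K] in
lemma E_zero : ev₁ (PowerSeries.map x e) 0 = 0 :=
  (ev_apply_zero _).trans H.constantCoeff_ex

lemma norm_iterate_le {a : K} (ha : ‖a‖ < 1) :
    ∀ m, ‖(ev₁ (PowerSeries.map x e))^[m] a‖ ≤ ‖a‖
  | 0 => le_rfl
  | m + 1 => by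
    rw [Function.iterate_succ_apply']
    exact (H.norm_E_le ((norm_iterate_le ha m).trans_lt ha)).trans (norm_iterate_le ha m)

lemma norm_iterate_lt {a : K} (ha : ‖a‖ < 1) (m : ℕ) :
    ‖(ev₁ (PowerSeries.map x e))^[m] a‖ < 1 :=
  (H.norm_iterate_le ha m).trans_lt ha

variable [CompleteSpace K]

lemma norm_E_sub_le {a b : K} {ρ : ℝ} (ha : ‖a‖ < 1) (hb : ‖b‖ < 1) (hρ : 0 ≤ ρ)
    (hab : ‖a - b‖ ≤ ρ) :
    ‖ev₁ (PowerSeries.map x e) a - ev₁ (PowerSeries.map x e) b‖ ≤ ρ :=
  norm_ev_sub_ev_le H.integral_e (fun _ => ha) (fun _ => hb) hρ fun _ => hab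

variable [CharP K p]

/-- Modulo the maximal ideal `e(a) = a^(p^n)`. -/
lemma norm_E_sub_pow_le {ε : ℝ} (hε0 : 0 ≤ ε)
    (hε : ∀ a ∈ IsLocalRing.maximalIdeal (LT p n), ‖x a‖ ≤ ε) {a : K} (ha : ‖a‖ < 1) :
    ‖ev₁ (PowerSeries.map x e) a - a ^ p ^ n‖ ≤ ε := by
  classical
  have hX : IntegralSeries ((MvPowerSeries.X () : MvPowerSeries Unit K) ^ p ^ n) :=
    (IntegralSeries.X ()).pow _
  have h1 : ev ((MvPowerSeries.X () : MvPowerSeries Unit K) ^ p ^ n) (fun _ => a) = a ^ p ^ n := by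
    rw [ev_pow (conv_X _ _), ev_X]
  rw [ev₁, ← h1]
  refine norm_ev_sub_ev_le_of_coeff H.integral_e hX hε0 (fun _ => ha) fun d => ?_
  set b := d () with hb
  have hd : d = Finsupp.single () b := by ext; simp [hb]
  have hc : PowerSeries.coeff b e - PowerSeries.coeff b ((PowerSeries.X : PowerSeries (LT p n)) ^ p ^ n)
      ∈ IsLocalRing.maximalIdeal (LT p n) := by
    rw [← red_eq_zero_iff, map_sub, ← PowerSeries.coeff_map, ← PowerSeries.coeff_map, map_pow,
      PowerSeries.map_X, H.facts.special, sub_self]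
  have h2 := hε _ hc
  rw [map_sub, ← PowerSeries.coeff_map, ← PowerSeries.coeff_map, map_pow, PowerSeries.map_X] at h2
  rw [hd]
  exact h2

/-- `e` contracts with exponent `p^h`. -/
lemma norm_E_sub_le_pow {a b : K} (ha : ‖a‖ < 1) (hb : ‖b‖ < 1) :
    ‖ev₁ (PowerSeries.map x e) a - ev₁ (PowerSeries.map x e) b‖ ≤ ‖a - b‖ ^ p ^ h := by
  classical
  rw [ev₁, ev₁, ev_eq_tsum, ev_eq_tsum,
    ← (conv_of_integral H.integral_e fun _ => ha).tsum_sub
      (conv_of_integral H.integral_e fun _ => hb)]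
  refine norm_tsum_le_of_forall (pow_nonneg (norm_nonneg _) _) fun d => ?_
  have hd : ∀ z : K, (d.prod fun (_ : Unit) k => z ^ k) = z ^ d () := fun z => by
    simp [Finsupp.prod_fintype]
  rw [evTerm, evTerm, ← mul_sub, norm_mul, hd, hd]
  by_cases hdvd : p ^ h ∣ d ()
  · obtain ⟨c, hc⟩ := hdvd
    refine (mul_le_of_le_one_left (norm_nonneg _) (H.integral_e d)).trans ?_
    rw [hc, pow_mul, pow_mul]
    refine norm_pow_sub_pow_le (pow_nonneg (norm_nonneg _) _) ?_ ?_ ?_ c
    · rw [norm_pow]; exact pow_le_one₀ (norm_nonneg _) ha.le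
    · rw [norm_pow]; exact pow_le_one₀ (norm_nonneg _) hb.le
    · rw [← sub_pow_char_pow, norm_pow]
  · have hzero : MvPowerSeries.coeff d (PowerSeries.map x e : MvPowerSeries Unit K) = 0 := by
      have hd' : d = Finsupp.single () (d ()) := by ext; simp
      rw [hd']
      show PowerSeries.coeff (d ()) (PowerSeries.map x e) = 0
      rw [PowerSeries.coeff_map]
      exact H.low _ (H.facts.frobenius h H.hhn _ hdvd)
    rw [hzero, norm_zero, zero_mul]
    exact pow_nonneg (norm_nonneg _) _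

lemma norm_iterate_sub_le {a b : K} {ρ : ℝ} (ha : ‖a‖ < 1) (hb : ‖b‖ < 1) (hab : ‖a - b‖ ≤ ρ)
    (m : ℕ) :
    ‖(ev₁ (PowerSeries.map x e))^[m] a - (ev₁ (PowerSeries.map x e))^[m] b‖ ≤
      ρ ^ (p ^ h) ^ m := by
  induction m with
  | zero => simpa using hab
  | succ m ih =>
    rw [Function.iterate_succ_apply', Function.iterate_succ_apply', pow_succ, pow_mul]
    exact (H.norm_E_sub_le_pow (H.norm_iterate_lt ha m) (H.norm_iterate_lt hb m)).trans
      (pow_le_pow_left₀ (norm_nonneg _) ih _)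

omit [IsUltrametricDist K] [CompleteSpace K] [CharP K p] in
lemma one_lt_P : 1 < p ^ h := Nat.one_lt_pow (by have := H.hh; omega) hp.out.one_lt

omit [IsUltrametricDist K] [CompleteSpace K] [CharP K p] in
lemma tendsto_eps {ε : ℝ} (hε0 : 0 ≤ ε) (hε1 : ε < 1) :
    Tendsto (fun m => ε ^ (p ^ h) ^ m) atTop (𝓝 0) :=
  (tendsto_pow_atTop_nhds_zero_of_lt_one hε0 hε1).comp
    (tendsto_pow_atTop_atTop_of_one_lt H.one_lt_P)

omit [IsUltrametricDist K] [CompleteSpace K] [CharP K p] in
lemma eps_antitone {ε : ℝ} (hε0 : 0 ≤ ε) (hε1 : ε ≤ 1) {m m' : ℕ} (hm : m ≤ m') :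
    ε ^ (p ^ h) ^ m' ≤ ε ^ (p ^ h) ^ m :=
  pow_le_pow_of_le_one hε0 hε1 (Nat.pow_le_pow_right (pow_pos hp.out.pos h) hm)

omit [IsUltrametricDist K] [CompleteSpace K] [CharP K p] in
lemma constAt_pow (α : Res p n) : constAt x α ^ p ^ n = constAt x α := by
  have : α ^ p ^ n = α := by
    have h1 := Newton.res_pow_mod α n
    rwa [Nat.mod_self, pow_zero, pow_one] at h1
  rw [constAt, ← map_pow, ← map_pow, ← map_pow, this]

omit [CompleteSpace K] [CharP K p] in
lemma norm_start_lt {t : ℕ → K} (ht : ∀ j, ‖t j‖ < 1) (α : Res p n) (M j : ℕ) :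
    ‖constAt x α * t j ^ p ^ M‖ < 1 := by
  rw [norm_mul, norm_pow]
  exact (mul_le_of_le_one_left (pow_nonneg (norm_nonneg _) _) (H.norm_le _)).trans_lt
    (pow_lt_one₀ (norm_nonneg _) (ht j) (pow_ne_zero _ hp.out.ne_zero))

omit [CompleteSpace K] [CharP K p] in
lemma norm_slotApprox_lt {t : ℕ → K} (ht : ∀ j, ‖t j‖ < 1) (α : Res p n) (M k m : ℕ) :
    ‖slotApprox e x t α M k m‖ < 1 :=
  H.norm_iterate_lt (H.norm_start_lt ht α M _) m

omit [IsUltrametricDist K] [CompleteSpace K] [CharP K p] in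
lemma E_slotApprox {t : ℕ → K} (α : Res p n) (M k m : ℕ) :
    ev₁ (PowerSeries.map x e) (slotApprox e x t α M (k + 1) m) =
      slotApprox e x t α M k (m + 1) := by
  rw [slotApprox, slotApprox, ← Function.iterate_succ_apply' (f := ev₁ (PowerSeries.map x e)),
    show k + 1 + m = k + (m + 1) by omega]

variable {t : ℕ → K} {ε : ℝ}

lemma norm_slotApprox_succ_sub (hε0 : 0 ≤ ε)
    (hε : ∀ a ∈ IsLocalRing.maximalIdeal (LT p n), ‖x a‖ ≤ ε) (ht : ∀ j, ‖t j‖ < 1)
    (hrec : ∀ j, ev₁ (PowerSeries.map x e) (t (j + 1)) = t j) (α : Res p n) (M k m : ℕ) :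
    ‖slotApprox e x t α M k (m + 1) - slotApprox e x t α M k m‖ ≤ ε ^ (p ^ h) ^ m := by
  rw [slotApprox, slotApprox, Function.iterate_succ_apply, show k + (m + 1) = k + m + 1 by omega,
    ← hrec (k + m)]
  set s := t (k + m + 1) with hs_def
  have hs : ‖s‖ < 1 := ht _
  set c := constAt x α
  have hEs : ‖ev₁ (PowerSeries.map x e) s‖ < 1 := H.norm_E_lt hs
  have hy : ‖c * s ^ p ^ M‖ < 1 := H.norm_start_lt ht α M _
  have hy' : ‖c * ev₁ (PowerSeries.map x e) s ^ p ^ M‖ < 1 := by
    rw [hs_def, hrec (k + m)]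
    exact H.norm_start_lt ht α M _
  refine H.norm_iterate_sub_le (H.norm_E_lt hy) hy' ?_ m
  refine norm_sub_le_trans (H.norm_E_sub_pow_le hε0 hε hy) ?_
  rw [mul_pow, H.constAt_pow, ← pow_mul, mul_comm (p ^ M), pow_mul, ← mul_sub, norm_mul]
  refine (mul_le_of_le_one_left (norm_nonneg _) (H.norm_le _)).trans ?_
  rw [norm_sub_rev]
  refine norm_pow_sub_pow_le hε0 hEs.le ?_ (H.norm_E_sub_pow_le hε0 hε hs) _
  rw [norm_pow]
  exact pow_le_one₀ (norm_nonneg _) hs.le

lemma norm_slotApprox_sub (hε0 : 0 ≤ ε) (hε1 : ε ≤ 1)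
    (hε : ∀ a ∈ IsLocalRing.maximalIdeal (LT p n), ‖x a‖ ≤ ε) (ht : ∀ j, ‖t j‖ < 1)
    (hrec : ∀ j, ev₁ (PowerSeries.map x e) (t (j + 1)) = t j) (α : Res p n) (M k : ℕ)
    {m m' : ℕ} (hm : m ≤ m') :
    ‖slotApprox e x t α M k m' - slotApprox e x t α M k m‖ ≤ ε ^ (p ^ h) ^ m := by
  induction m', hm using Nat.le_induction with
  | base => simp [pow_nonneg hε0]
  | succ j hj ih =>
    exact norm_sub_le_trans ((H.norm_slotApprox_succ_sub hε0 hε ht hrec α M k j).trans
      (H.eps_antitone hε0 hε1 hj)) ih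

/-- The approximations converge to the slot point. -/
theorem tendsto_slotApprox (ht : ∀ j, ‖t j‖ < 1)
    (hrec : ∀ j, ev₁ (PowerSeries.map x e) (t (j + 1)) = t j) (α : Res p n) (M k : ℕ) :
    Tendsto (slotApprox e x t α M k) atTop (𝓝 (slotLevel e x t α M k)) := by
  obtain ⟨ε, hε0, hε1, hε⟩ := H.exists_eps
  rw [slotLevel_eq]
  refine CauchySeq.tendsto_limUnder
    (NonarchimedeanAddGroup.cauchySeq_of_tendsto_sub_nhds_zero ?_)
  exact squeeze_zero_norm (fun m => H.norm_slotApprox_succ_sub hε0 hε ht hrec α M k m)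
    (H.tendsto_eps hε0 hε1)

lemma norm_slotLevel_sub (hε0 : 0 ≤ ε) (hε1 : ε ≤ 1)
    (hε : ∀ a ∈ IsLocalRing.maximalIdeal (LT p n), ‖x a‖ ≤ ε) (ht : ∀ j, ‖t j‖ < 1)
    (hrec : ∀ j, ev₁ (PowerSeries.map x e) (t (j + 1)) = t j) (α : Res p n) (M k m : ℕ) :
    ‖slotLevel e x t α M k - slotApprox e x t α M k m‖ ≤ ε ^ (p ^ h) ^ m :=
  le_of_tendsto ((H.tendsto_slotApprox ht hrec α M k).sub_const _).norm
    (eventually_atTop.2 ⟨m, fun _ hm => H.norm_slotApprox_sub hε0 hε1 hε ht hrec α M k hm⟩)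

/-- Slot points are small. -/
theorem norm_slotLevel_lt (ht : ∀ j, ‖t j‖ < 1)
    (hrec : ∀ j, ev₁ (PowerSeries.map x e) (t (j + 1)) = t j) (α : Res p n) (M k : ℕ) :
    ‖slotLevel e x t α M k‖ < 1 := by
  obtain ⟨ε, hε0, hε1, hε⟩ := H.exists_eps
  have h1 := H.norm_slotLevel_sub hε0 hε1.le hε ht hrec α M k 0
  rw [pow_zero, pow_one] at h1
  rw [← sub_add_cancel (slotLevel e x t α M k) (slotApprox e x t α M k 0)]
  exact (IsUltrametricDist.norm_add_le_max _ _).trans_lt
    (max_lt (h1.trans_lt hε1) (H.norm_slotApprox_lt ht α M k 0))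

/-- The slot points form a tower. -/
theorem E_slotLevel (ht : ∀ j, ‖t j‖ < 1)
    (hrec : ∀ j, ev₁ (PowerSeries.map x e) (t (j + 1)) = t j) (α : Res p n) (M k : ℕ) :
    ev₁ (PowerSeries.map x e) (slotLevel e x t α M (k + 1)) = slotLevel e x t α M k := by
  refine tendsto_nhds_unique (f := fun m => slotApprox e x t α M k (m + 1)) (l := atTop) ?_
    ((H.tendsto_slotApprox ht hrec α M k).comp (tendsto_add_atTop_nat 1))
  rw [tendsto_iff_norm_sub_tendsto_zero]
  refine squeeze_zero (fun _ => norm_nonneg _) (fun m => ?_)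
    (tendsto_iff_norm_sub_tendsto_zero.1 (H.tendsto_slotApprox ht hrec α M (k + 1)))
  rw [← H.E_slotApprox α M k m]
  exact H.norm_E_sub_le (H.norm_slotApprox_lt ht α M _ m) (H.norm_slotLevel_lt ht hrec α M _)
    (norm_nonneg _) le_rfl

/-- Raising the exponent by `n` applies the `p`-series. -/
theorem slotLevel_add_n (ht : ∀ j, ‖t j‖ < 1)
    (hrec : ∀ j, ev₁ (PowerSeries.map x e) (t (j + 1)) = t j) (α : Res p n) (M k : ℕ) :
    slotLevel e x t α (M + n) k = ev₁ (PowerSeries.map x e) (slotLevel e x t α M k) := by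
  obtain ⟨ε, hε0, hε1, hε⟩ := H.exists_eps
  refine tendsto_nhds_unique (f := slotApprox e x t α (M + n) k) (l := atTop)
    (H.tendsto_slotApprox ht hrec α _ k) ?_
  rw [tendsto_iff_norm_sub_tendsto_zero]
  refine squeeze_zero (fun _ => norm_nonneg _)
    (g := fun m => max (ε ^ (p ^ h) ^ m) (‖slotApprox e x t α M k m - slotLevel e x t α M k‖))
    (fun m => ?_) ?_
  · refine norm_sub_le_trans ?_ ((H.norm_E_sub_le (H.norm_slotApprox_lt ht α M k m)
      (H.norm_slotLevel_lt ht hrec α M k) (norm_nonneg _) le_rfl).trans (le_max_right _ _))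
    refine le_trans ?_ (le_max_left _ _)
    rw [slotApprox, slotApprox, ← Function.iterate_succ_apply' (f := ev₁ (PowerSeries.map x e)),
      Function.iterate_succ_apply, pow_add, pow_mul]
    refine H.norm_iterate_sub_le ?_ (H.norm_E_lt (H.norm_start_lt ht α M _)) ?_ m
    · rw [← pow_mul, ← pow_add]; exact H.norm_start_lt ht α _ _
    · rw [norm_sub_rev]
      refine le_of_eq_of_le ?_ (H.norm_E_sub_pow_le hε0 hε (H.norm_start_lt ht α M (k + m)))
      rw [mul_pow, H.constAt_pow]
  · simpa using (H.tendsto_eps hε0 hε1).max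
      (tendsto_iff_norm_sub_tendsto_zero.1 (H.tendsto_slotApprox ht hrec α M k))

/-- Slot points of large exponent are small. -/
theorem tendsto_slotLevel_zero (ht : ∀ j, ‖t j‖ < 1)
    (hrec : ∀ j, ev₁ (PowerSeries.map x e) (t (j + 1)) = t j) (α : Res p n) (k : ℕ) :
    Tendsto (fun M => slotLevel e x t α M k) atTop (𝓝 0) := by
  obtain ⟨ε, hε0, hε1, hε⟩ := H.exists_eps
  rw [NormedAddGroup.tendsto_nhds_zero]
  intro δ hδ
  obtain ⟨m, hm⟩ := ((tendsto_order.1 (H.tendsto_eps hε0 hε1)).2 δ hδ).exists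
  have hM : ∀ᶠ M in atTop, ‖t (k + m)‖ ^ p ^ M < δ :=
    (tendsto_order.1 ((tendsto_pow_atTop_nhds_zero_of_lt_one (norm_nonneg _) (ht (k + m))).comp
      (tendsto_pow_atTop_atTop_of_one_lt hp.out.one_lt))).2 δ hδ
  filter_upwards [hM] with M hM
  rw [← sub_add_cancel (slotLevel e x t α M k) (slotApprox e x t α M k m)]
  refine (IsUltrametricDist.norm_add_le_max _ _).trans_lt
    (max_lt ((H.norm_slotLevel_sub hε0 hε1.le hε ht hrec α M k m).trans_lt hm) ?_)
  refine ((H.norm_iterate_le (H.norm_start_lt ht α M _) m).trans ?_).trans_lt hM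
  rw [norm_mul, norm_pow]
  exact mul_le_of_le_one_left (pow_nonneg (norm_nonneg _) _) (H.norm_le _)

end PointHyp

section perturbation

variable {x' : LT p n →+* K}

omit [IsUltrametricDist K] in
lemma pointHyp_pert (H : PointHyp h e x) (hp' : IsPert h x x') : PointHyp h e x' where
  hh := H.hh
  hhn := H.hhn
  facts := H.facts
  e_zero := H.e_zero
  norm_le := hp'.norm_le
  norm_lt := hp'.norm_lt
  low := hp'.low

/-- A perturbation moves every value by at most its slot coordinates. -/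
theorem norm_pert_sub_le [CharP K p] (H : PointHyp h e x) (hp' : IsPert h x x') {η : ℝ} (hη0 : 0 ≤ η)
    (hη : ∀ j, ‖duOf h H.hh x x' j‖ ≤ η) (a : LT p n) : ‖x' a - x a‖ ≤ η := by
  classical
  have hX : ∀ l : Fin (n - 1), ‖x' (MvPowerSeries.X l) - x (MvPowerSeries.X l)‖ ≤ η := by
    intro l
    by_cases hl : l.val + 1 < h
    · have hmem : (MvPowerSeries.X l : LT p n) ∈ heightIdeal p n h :=
        Ideal.subset_span ⟨l.val + 1, hl, by rw [par_succ l.isLt]⟩
      rw [hp'.low _ hmem, H.low _ hmem, sub_self, norm_zero]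
      exact hη0
    · have := hη ⟨l.val + 1 - h, by omega⟩
      have hs : slot n h H.hh ⟨l.val + 1 - h, by omega⟩ = l := by
        ext; simp only [slot]; have := H.hh; omega
      rwa [duOf, hs] at this
  have hpoly : ∀ q : MvPolynomial (Fin (n - 1)) (WittVector p (Res p n)),
      ‖x' (q : LT p n) - x (q : LT p n)‖ ≤ η := by
    intro q
    induction q using MvPolynomial.induction_on with
    | C c => rw [MvPolynomial.coe_C, hp'.const, sub_self, norm_zero]; exact hη0
    | add q r hq hr =>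
      rw [MvPolynomial.coe_add, map_add, map_add, add_sub_add_comm]
      exact (IsUltrametricDist.norm_add_le_max _ _).trans (max_le hq hr)
    | mul_X q l hq =>
      rw [MvPolynomial.coe_mul, MvPolynomial.coe_X, map_mul, map_mul]
      exact norm_mul_sub_mul_le hη0 (H.norm_le _) (hp'.norm_le _) hq (hX l)
  obtain ⟨ε, hε0, hε1, hε⟩ := H.exists_eps
  obtain ⟨ε', hε0', hε1', hε'⟩ := (pointHyp_pert H hp').exists_eps
  have hlim : Tendsto (fun N : ℕ => max η (max ε ε' ^ N)) atTop (𝓝 η) := by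
    have h1 := (tendsto_const_nhds (x := η)).max
      (tendsto_pow_atTop_nhds_zero_of_lt_one (le_max_of_le_left hε0) (max_lt hε1 hε1'))
    rwa [max_eq_left hη0] at h1
  refine ge_of_tendsto' hlim fun N => ?_
  have hN : 0 ≤ max ε ε' ^ N := pow_nonneg (le_max_of_le_left hε0) N
  have hbound : ∀ (y : LT p n →+* K), (∀ b, ‖y b‖ ≤ 1) →
      (∀ l, ‖y (MvPowerSeries.X l)‖ ≤ max ε ε') →
      ∀ b ∈ Ideal.span (Set.range (MvPowerSeries.X : Fin (n - 1) → LT p n)) ^ N,
        ‖y b‖ ≤ max ε ε' ^ N := by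
    intro y hy1 hy
    let ball : ∀ r : ℝ, 0 ≤ r → Ideal (LT p n) := fun r hr =>
      { carrier := {b | ‖y b‖ ≤ r}
        add_mem' := fun {b c} hb hc => by
          simp only [Set.mem_ofPred_eq, map_add] at *
          exact (IsUltrametricDist.norm_add_le_max _ _).trans (max_le hb hc)
        zero_mem' := by simp [hr]
        smul_mem' := fun b c hc => by
          simp only [Set.mem_ofPred_eq, smul_eq_mul, map_mul, norm_mul] at *
          exact (mul_le_of_le_one_left (norm_nonneg _) (hy1 b)).trans hc }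
    have h1 : Ideal.span (Set.range (MvPowerSeries.X : Fin (n - 1) → LT p n)) ≤
        ball (max ε ε') (le_max_of_le_left hε0) := by
      rw [Ideal.span_le]
      rintro _ ⟨l, rfl⟩
      exact hy l
    suffices h2 : ∀ (N : ℕ) (hr : 0 ≤ max ε ε' ^ N),
        Ideal.span (Set.range (MvPowerSeries.X : Fin (n - 1) → LT p n)) ^ N ≤
          ball (max ε ε' ^ N) hr from fun b hb => h2 N hN hb
    intro N
    induction N with
    | zero =>
      intro hr b _
      show ‖y b‖ ≤ max ε ε' ^ 0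
      rw [pow_zero]; exact hy1 b
    | succ N ih =>
      intro hr
      rw [pow_succ]
      refine Ideal.mul_le.2 fun b hb c hc => ?_
      show ‖y (b * c)‖ ≤ max ε ε' ^ (N + 1)
      rw [map_mul, norm_mul, pow_succ]
      exact mul_le_mul (ih (pow_nonneg (le_max_of_le_left hε0) N) hb) (h1 hc) (norm_nonneg _)
        (pow_nonneg (le_max_of_le_left hε0) N)
  set T : LT p n := ((MvPowerSeries.truncTotal N a : MvPolynomial _ _) : LT p n)
  have hrest : a - T ∈ Ideal.span (Set.range (MvPowerSeries.X : Fin (n - 1) → LT p n)) ^ N := by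
    refine Vale.Agent.P202.mem_span_X_pow fun d hd => ?_
    simp only [T, map_sub, MvPolynomial.coeff_coe, MvPowerSeries.coeff_truncTotal_eq_ite, if_pos hd,
      sub_self]
  have e1 : x' a - x a = (x' T - x T) + (x' (a - T) - x (a - T)) := by
    simp only [map_sub]; ring
  rw [e1]
  refine (IsUltrametricDist.norm_add_le_max _ _).trans (max_le_max (hpoly _) ?_)
  rw [sub_eq_add_neg]
  refine (IsUltrametricDist.norm_add_le_max _ _).trans (max_le ?_ ?_)
  · exact hbound x' hp'.norm_le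
      (fun l => (hε' _ (X_mem_maximalIdeal l)).trans (le_max_right _ _)) _ hrest
  · rw [norm_neg]
    exact hbound x H.norm_le
      (fun l => (hε _ (X_mem_maximalIdeal l)).trans (le_max_left _ _)) _ hrest

end perturbation

section lift

lemma iterate_chain {S : Type} {g : S → S} {T : ℕ → S} (hrec : ∀ j, g (T (j + 1)) = T j) :
    ∀ k j, g^[k] (T (j + k)) = T j
  | 0, j => by simp
  | k + 1, j => by
    rw [Function.iterate_succ_apply, show j + (k + 1) = j + k + 1 by omega, hrec,
      iterate_chain hrec k j]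

variable {F : FormalGroup (LT p n)}

/-- The lift of the slot series with Teichmüller coefficients. -/
def slotLift (F : FormalGroup (LT p n)) {m : ℕ} (α : Fin m → Res p n) (M : Fin m → ℕ) :
    PowerSeries (LT p n) :=
  (List.ofFn fun s => PowerSeries.C (MvPowerSeries.C (WittVector.teichmuller p (α s))) *
    PowerSeries.X ^ p ^ M s).foldl (serAdd F) PowerSeries.X

lemma slotLift_succ (F : FormalGroup (LT p n)) {m : ℕ} (α : Fin (m + 1) → Res p n)
    (M : Fin (m + 1) → ℕ) :
    slotLift F α M = serAdd F (slotLift F (fun s => α s.castSucc) fun s => M s.castSucc)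
      (PowerSeries.C (MvPowerSeries.C (WittVector.teichmuller p (α (Fin.last m)))) *
        PowerSeries.X ^ p ^ M (Fin.last m)) := by
  rw [slotLift, List.ofFn_succ', List.concat_eq_append, List.foldl_append]
  rfl

lemma slotSeries_succ (F : FormalGroup (LT p n)) {m : ℕ} (α : Fin (m + 1) → Res p n)
    (M : Fin (m + 1) → ℕ) :
    slotSeries F α M = serAdd (special p n F)
      (slotSeries F (fun s => α s.castSucc) fun s => M s.castSucc)
      (PowerSeries.C (α (Fin.last m)) * PowerSeries.X ^ p ^ M (Fin.last m)) := by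
  rw [slotSeries, List.ofFn_succ', List.concat_eq_append, List.foldl_append]
  rfl

lemma constantCoeff_slotTerm {R : Type} [CommRing R] (c : R) (M : ℕ) :
    PowerSeries.constantCoeff (PowerSeries.C c * PowerSeries.X ^ p ^ M) = 0 := by
  rw [map_mul, map_pow, PowerSeries.constantCoeff_X, zero_pow (pow_ne_zero _ hp.out.ne_zero),
    mul_zero]

lemma constantCoeff_slotLift (F : FormalGroup (LT p n)) :
    ∀ {m : ℕ} (α : Fin m → Res p n) (M : Fin m → ℕ),
      PowerSeries.constantCoeff (slotLift F α M) = 0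
  | 0, α, M => by simp [slotLift]
  | m + 1, α, M => by
    rw [slotLift_succ]
    exact constantCoeff_serAdd _ (constantCoeff_slotLift F _ _) (constantCoeff_slotTerm _ _)

lemma map_serAdd {R S : Type} [CommRing R] [CommRing S] (π : R →+* S) (B : FormalGroup R)
    {f g : PowerSeries R} (hf : PowerSeries.constantCoeff f = 0)
    (hg : PowerSeries.constantCoeff g = 0) :
    PowerSeries.map π (serAdd B f g) =
      serAdd (B.map π) (PowerSeries.map π f) (PowerSeries.map π g) := by
  show MvPowerSeries.map π (MvPowerSeries.subst _ _) = MvPowerSeries.subst _ _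
  rw [MvPowerSeries.map_subst (Easy.hasSubst_pair hf hg)]
  congr 1
  funext i
  fin_cases i <;> rfl

lemma map_red_slotLift (F : FormalGroup (LT p n)) :
    ∀ {m : ℕ} (α : Fin m → Res p n) (M : Fin m → ℕ),
      PowerSeries.map (red p n) (slotLift F α M) = slotSeries F α M
  | 0, α, M => by simp [slotLift, slotSeries]
  | m + 1, α, M => by
    rw [slotLift_succ, slotSeries_succ,
      map_serAdd _ _ (constantCoeff_slotLift F _ _) (constantCoeff_slotTerm _ _),
      map_red_slotLift F, map_mul, map_pow, PowerSeries.map_X, PowerSeries.map_C]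
    congr 3

lemma norm_evSum_lt {G : FormalGroup K}
    (hG : IntegralSeries G.toPowerSeries) :
    ∀ {m : ℕ} {y : Fin m → K}, (∀ s, ‖y s‖ < 1) →
      ‖evSum (r := 1) G.toPowerSeries (fun s _ => y s) 0‖ < 1
  | 0, y, _ => by simp [evSum]
  | m + 1, y, hy => by
    rw [evSum]
    exact norm_fadd_lt hG (norm_evSum_lt hG fun s => hy s.castSucc) (hy _)

variable [CompleteSpace K]

lemma ev_slotTerm (c : LT p n) (M : ℕ) (a : K) :
    ev₁ (PowerSeries.map x (PowerSeries.C c * PowerSeries.X ^ p ^ M)) a = x c * a ^ p ^ M := by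
  rw [map_mul, map_pow, PowerSeries.map_X, PowerSeries.map_C]
  show ev (MvPowerSeries.C (x c) * (MvPowerSeries.X () : MvPowerSeries Unit K) ^ p ^ M) _ = _
  rw [ev_C_mul, ev_pow (conv_X _ _), ev_X]

/-- The lifted slot series at a point. -/
lemma ev_slotLift (hx : ∀ a, ‖x a‖ ≤ 1) {a : K} (ha : ‖a‖ < 1) :
    ∀ {m : ℕ} (α : Fin m → Res p n) (M : Fin m → ℕ),
      ev₁ (PowerSeries.map x (slotLift F α M)) a = ev (lawAt p n F x) ![a,
        evSum (r := 1) (lawAt p n F x) (fun s _ => constAt x (α s) * a ^ p ^ M s) 0] := by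
  have hG : IntegralSeries (F.map x).toPowerSeries := integral_lawAt hx
  intro m
  induction m with
  | zero =>
    intro α M
    rw [lawAt_eq_map, evSum, Pi.zero_apply, fadd_zero hG ha]
    simp only [slotLift, List.ofFn_zero, List.foldl_nil, PowerSeries.map_X, ev₁, powerSeries_X_eq,
      ev_X]
  | succ m ih =>
    intro α M
    have hsmall : ∀ s : Fin (m + 1), ‖constAt x (α s) * a ^ p ^ M s‖ < 1 := fun s => by
      rw [norm_mul, norm_pow]
      exact (mul_le_of_le_one_left (pow_nonneg (norm_nonneg _) _) (hx _)).trans_lt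
        (pow_lt_one₀ (norm_nonneg _) ha (pow_ne_zero _ hp.out.ne_zero))
    have hS : ‖evSum (r := 1) (F.map x).toPowerSeries
        (fun s _ => constAt x (α (Fin.castSucc s)) * a ^ p ^ M (Fin.castSucc s)) 0‖ < 1 :=
      norm_evSum_lt hG fun s => hsmall _
    have h0 := constantCoeff_slotLift F (fun s => α s.castSucc) fun s => M s.castSucc
    rw [slotLift_succ, map_serAdd _ _ h0 (constantCoeff_slotTerm _ _)]
    show ev (MvPowerSeries.subst ![_, _] (F.map x).toPowerSeries) (fun _ : Unit => a) = _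
    have i1 : IntegralSeries (PowerSeries.map x
        (slotLift F (fun s => α s.castSucc) fun s => M s.castSucc) : PowerSeries K) :=
      IntegralSeries.map x hx _
    have i2 : IntegralSeries (PowerSeries.map x
        (PowerSeries.C (MvPowerSeries.C (WittVector.teichmuller p (α (Fin.last m)))) *
          PowerSeries.X ^ p ^ M (Fin.last m)) : PowerSeries K) :=
      IntegralSeries.map x hx _
    have c1 : MvPowerSeries.constantCoeff (PowerSeries.map x
        (slotLift F (fun s => α s.castSucc) fun s => M s.castSucc) : MvPowerSeries Unit K) = 0 :=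
      (MvPowerSeries.constantCoeff_map x _).trans ((congrArg x h0).trans (map_zero x))
    have c2 : MvPowerSeries.constantCoeff (PowerSeries.map x
        (PowerSeries.C (MvPowerSeries.C (WittVector.teichmuller p (α (Fin.last m)))) *
          PowerSeries.X ^ p ^ M (Fin.last m)) : MvPowerSeries Unit K) = 0 :=
      (MvPowerSeries.constantCoeff_map x _).trans
        ((congrArg x (constantCoeff_slotTerm _ _)).trans (map_zero x))
    rw [ev_subst_pair hG i1 i2 c1 c2 (fun _ => ha)]
    rw [lawAt_eq_map, evSum, ← fadd_assoc hG ha hS (hsmall (Fin.last m))]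
    congr 2
    · exact ih _ _
    · exact congrArg (fun z => ![z]) (ev_slotTerm _ _ a)

lemma norm_evSum_sub_le {G : FormalGroup K} (hG : IntegralSeries G.toPowerSeries) {ρ : ℝ}
    (hρ : 0 ≤ ρ) : ∀ {m : ℕ} {y y' : Fin m → K}, (∀ s, ‖y s‖ < 1) → (∀ s, ‖y' s‖ < 1) →
      (∀ s, ‖y s - y' s‖ ≤ ρ) →
      ‖evSum (r := 1) G.toPowerSeries (fun s _ => y s) 0 -
        evSum (r := 1) G.toPowerSeries (fun s _ => y' s) 0‖ ≤ ρ
  | 0, y, y', _, _, _ => by simp [evSum, hρ]
  | m + 1, y, y', hy, hy', hd => by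
    rw [evSum, evSum]
    exact norm_ev_sub_ev_le hG
      (norm_pair_lt (norm_evSum_lt hG fun s => hy _) (hy _))
      (norm_pair_lt (norm_evSum_lt hG fun s => hy' _) (hy' _)) hρ
      (Fin.forall_fin_two.2 ⟨norm_evSum_sub_le hG hρ (fun s => hy _) (fun s => hy' _)
        (fun s => hd _), hd _⟩)

variable (hF : IsUniversalLaw p n F) (hel : IsPSeries p n e)

include hF hel

/-- Iterates of `e` are additive. -/
lemma iterate_fadd (H : PointHyp h e x) (m : ℕ) {a b : K} (ha : ‖a‖ < 1) (hb : ‖b‖ < 1) :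
    (ev₁ (PowerSeries.map x e))^[m] (ev (lawAt p n F x) ![a, b]) =
      ev (lawAt p n F x) ![(ev₁ (PowerSeries.map x e))^[m] a,
        (ev₁ (PowerSeries.map x e))^[m] b] := by
  induction m with
  | zero => simp
  | succ m ih =>
    rw [Function.iterate_succ_apply', ih, lawAt_eq_map,
      ev₁_fadd (integral_lawAt H.norm_le) (integral_lawAt H.norm_le) H.integral_e
        (Cont.isHom_map x (hel.isHom p n hF)) (H.norm_iterate_lt ha m) (H.norm_iterate_lt hb m),
      Function.iterate_succ_apply', Function.iterate_succ_apply']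

lemma iterate_evSum (H : PointHyp h e x) (k : ℕ) : ∀ {m : ℕ} {y : Fin m → K}, (∀ s, ‖y s‖ < 1) →
    (ev₁ (PowerSeries.map x e))^[k] (evSum (r := 1) (lawAt p n F x) (fun s _ => y s) 0) =
      evSum (r := 1) (lawAt p n F x) (fun s _ => (ev₁ (PowerSeries.map x e))^[k] (y s)) 0 := by
  intro m
  induction m with
  | zero =>
    intro y _
    simp only [evSum, Pi.zero_apply]
    exact Function.iterate_fixed H.E_zero k
  | succ m ih =>
    intro y hy
    rw [evSum, evSum]
    simp only
    have hs : ‖evSum (r := 1) (lawAt p n F x) (fun s _ => y (Fin.castSucc s)) 0‖ < 1 :=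
      norm_evSum_lt (G := F.map x) (integral_lawAt H.norm_le) fun s => hy _
    rw [iterate_fadd hF hel H k hs (hy _), ih fun s => hy _]

/-- A homomorphism to `φ_* F` intertwines the `p`-series. -/
lemma ev_hom_comm (H : PointHyp h e x) (φ : LT p n →ₐ[WittVector p (Res p n)] LT p n)
    {f : PowerSeries (LT p n)} (hf : IsHom F (F.map φ.toRingHom) f) {a : K} (ha : ‖a‖ < 1) :
    ev₁ (PowerSeries.map x f) (ev₁ (PowerSeries.map x e) a) =
      ev₁ (PowerSeries.map (x.comp φ.toRingHom) e) (ev₁ (PowerSeries.map x f) a) := by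
  have h1 := Easy.subst_mser_of_hom hf.1 hf.2 p
  rw [← Easy.map_mser, mser_eq_of_isPSeries hF hel] at h1
  have he0 : PowerSeries.constantCoeff (PowerSeries.map x e) = 0 := H.constantCoeff_ex
  have hf0 : PowerSeries.constantCoeff (PowerSeries.map x f) = 0 := by
    rw [← PowerSeries.coeff_zero_eq_constantCoeff_apply, PowerSeries.coeff_map,
      PowerSeries.coeff_zero_eq_constantCoeff_apply, hf.1, map_zero]
  have h2 := congrArg (PowerSeries.map x) h1
  have e1 : PowerSeries.map x (PowerSeries.subst e f) =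
      PowerSeries.subst (PowerSeries.map x e) (PowerSeries.map x f) :=
    PowerSeries.map_subst (PowerSeries.HasSubst.of_constantCoeff_zero' H.e_zero) _
  have e2 : PowerSeries.map x (PowerSeries.subst f (PowerSeries.map φ.toRingHom e)) =
      PowerSeries.subst (PowerSeries.map x f) (PowerSeries.map (x.comp φ.toRingHom) e) :=
    (PowerSeries.map_subst (PowerSeries.HasSubst.of_constantCoeff_zero' hf.1) _).trans (by
      congr 1)
  have h3 : PowerSeries.subst (PowerSeries.map x e) (PowerSeries.map x f) =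
      PowerSeries.subst (PowerSeries.map x f) (PowerSeries.map (x.comp φ.toRingHom) e) :=
    e1.symm.trans (h2.trans e2)
  have if' : IntegralSeries (PowerSeries.map x f : PowerSeries K) :=
    IntegralSeries.map x H.norm_le f
  have ie' : IntegralSeries (PowerSeries.map (x.comp φ.toRingHom) e : PowerSeries K) :=
    IntegralSeries.map (x.comp φ.toRingHom) (fun b => H.norm_le _) e
  rw [← ev₁_subst if' H.integral_e he0 ha, h3, ev₁_subst ie' if' hf0 ha]

variable [CharP K p]

/-- The image of a tower under a lift of a slot series is a branch near the slot points. -/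
theorem exists_branch (H : PointHyp h e x) {t : ℕ → K} (ht0 : t 0 = 0) (ht : ∀ j, ‖t j‖ < 1)
    (hrec : ∀ j, ev₁ (PowerSeries.map x e) (t (j + 1)) = t j)
    {m : ℕ} (α : Fin m → Res p n) (M : Fin m → ℕ)
    (φ : LT p n →ₐ[WittVector p (Res p n)] LT p n) {f : PowerSeries (LT p n)}
    (hfred : PowerSeries.map (red p n) f = slotSeries F α M)
    (hf : IsHom F (F.map φ.toRingHom) f) (hpert : IsPert h x (x.comp φ.toRingHom))
    {η : ℝ} (hη0 : 0 ≤ η) (hη : ∀ j, ‖duOf h H.hh x (x.comp φ.toRingHom) j‖ ≤ η) :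
    ∃ z : ℕ → K, z 0 = 0 ∧ (∀ j, ‖z j‖ < 1) ∧
      (∀ j, ev₁ (PowerSeries.map (x.comp φ.toRingHom) e)
          (ev (lawAt p n F (x.comp φ.toRingHom)) ![t (j + 1), z (j + 1)]) =
        ev (lawAt p n F (x.comp φ.toRingHom)) ![t j, z j]) ∧
      ∀ j, ‖z j - evSum (r := 1) (lawAt p n F x)
        (fun s _ => slotLevel e x t (α s) (M s) j) 0‖ ≤ η := by
  set x₂ := x.comp φ.toRingHom
  have H₂ : PointHyp h e x₂ := pointHyp_pert H hpert
  have hnear := norm_pert_sub_le H hpert hη0 hη
  have hG : IntegralSeries (F.map x).toPowerSeries := integral_lawAt H.norm_le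
  have hG₂ : IntegralSeries (F.map x₂).toPowerSeries := integral_lawAt H₂.norm_le
  have : Fact (IntegralSeries (F.map x₂).toPowerSeries) := ⟨hG₂⟩
  have hfi : IntegralSeries (PowerSeries.map x f : PowerSeries K) := IntegralSeries.map x H.norm_le f
  have hf0 : MvPowerSeries.constantCoeff (PowerSeries.map x f : MvPowerSeries Unit K) = 0 :=
    (MvPowerSeries.constantCoeff_map x f).trans ((congrArg x hf.1).trans (map_zero x))
  set T : ℕ → K := fun j => ev₁ (PowerSeries.map x f) (t j)
  have hT : ∀ j, ‖T j‖ < 1 := fun j => norm_ev_lt_one hfi hf0 fun _ => ht j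
  have hTrec : ∀ j, ev₁ (PowerSeries.map x₂ e) (T (j + 1)) = T j := fun j => by
    simp only [T]
    rw [← ev_hom_comm hF hel H φ hf (ht _), hrec]
  let nt : ℕ → Pt (F.map x₂) := fun j => ⟨t j, ht j⟩
  let Z : ℕ → Pt (F.map x₂) := fun j => -nt j + ⟨T j, hT j⟩
  have hGZ : ∀ j, ev (lawAt p n F x₂) ![t j, (Z j).val] = T j := fun j => by
    have h1 := congrArg Pt.val (add_neg_cancel_left (nt j) (⟨T j, hT j⟩ : Pt (F.map x₂)))
    exact h1
  refine ⟨fun j => (Z j).val, ?_, fun j => (Z j).small, fun j => ?_, fun j => ?_⟩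
  · have hT0 : (⟨T 0, hT 0⟩ : Pt (F.map x₂)) = 0 := Pt.ext (by
      simp only [T, ht0, Pt.val_zero]
      exact (ev_apply_zero _).trans hf0)
    have hnt : nt 0 = 0 := Pt.ext ht0
    simp [Z, hT0, hnt]
  · rw [hGZ, hGZ]
    exact hTrec j
  set S := evSum (r := 1) (lawAt p n F x) (fun s _ => slotLevel e x t (α s) (M s) j) 0 with hSdef
  have hSlt : ‖S‖ < 1 :=
    norm_evSum_lt (G := F.map x) hG fun s => H.norm_slotLevel_lt ht hrec _ _ _
  -- the image of `t j` is within `η` of `t j + S`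
  obtain ⟨ε, hε0, hε1, hε⟩ := H.exists_eps
  have hmain : ‖T j - ev (lawAt p n F x) ![t j, S]‖ ≤ η := by
    have hlim : Tendsto (fun k => max η (ε ^ (p ^ h) ^ k)) atTop (𝓝 η) := by
      have h1 := (tendsto_const_nhds (x := η)).max (H.tendsto_eps hε0 hε1)
      rwa [max_eq_left hη0] at h1
    refine ge_of_tendsto' hlim fun k => ?_
    set E := ev₁ (PowerSeries.map x e)
    set E₂ := ev₁ (PowerSeries.map x₂ e)
    set w := ev₁ (PowerSeries.map x (slotLift F α M)) (t (j + k)) with hw_def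
    have hw : ‖w‖ < 1 := norm_ev_lt_one (IntegralSeries.map x H.norm_le _)
      ((MvPowerSeries.constantCoeff_map x _).trans
        ((congrArg x (constantCoeff_slotLift F α M)).trans (map_zero x))) fun _ => ht _
    have hchain : E₂^[k] (T (j + k)) = T j := iterate_chain hTrec k j
    have hclose : ‖T (j + k) - w‖ ≤ ε := by
      refine norm_ev_sub_ev_le_of_coeff hfi (IntegralSeries.map x H.norm_le _) hε0
        (fun _ => ht _) fun d => ?_
      rw [show d = Finsupp.single () (d ()) by ext; simp]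
      show ‖PowerSeries.coeff (d ()) (PowerSeries.map x f) -
        PowerSeries.coeff (d ()) (PowerSeries.map x (slotLift F α M))‖ ≤ ε
      rw [PowerSeries.coeff_map, PowerSeries.coeff_map, ← map_sub]
      refine hε _ ((red_eq_zero_iff p n _).1 ?_)
      rw [map_sub, ← PowerSeries.coeff_map, ← PowerSeries.coeff_map, hfred, map_red_slotLift,
        sub_self]
    have hiter : ∀ i, ‖E₂^[i] w - E^[i] w‖ ≤ η := by
      intro i
      induction i with
      | zero => simp [hη0]
      | succ i ih =>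
        rw [Function.iterate_succ_apply', Function.iterate_succ_apply']
        refine norm_sub_le_trans ?_
          (H.norm_E_sub_le (H₂.norm_iterate_lt hw i) (H.norm_iterate_lt hw i) hη0 ih)
        refine norm_ev_sub_ev_le_of_coeff H₂.integral_e H.integral_e hη0
          (fun _ => H₂.norm_iterate_lt hw i) fun d => ?_
        show ‖MvPowerSeries.coeff d (MvPowerSeries.map x₂ e) -
          MvPowerSeries.coeff d (MvPowerSeries.map x e)‖ ≤ η
        rw [MvPowerSeries.coeff_map, MvPowerSeries.coeff_map]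
        exact hnear _
    have hy : ∀ s, ‖constAt x (α s) * t (j + k) ^ p ^ M s‖ < 1 := fun s => H.norm_start_lt ht _ _ _
    have hval : E^[k] w = ev (lawAt p n F x) ![t j,
        evSum (r := 1) (lawAt p n F x) (fun s _ => slotApprox e x t (α s) (M s) j k) 0] := by
      have htj : E^[k] (t (j + k)) = t j := iterate_chain hrec k j
      have hs : ‖evSum (r := 1) (lawAt p n F x)
          (fun s _ => constAt x (α s) * t (j + k) ^ p ^ M s) 0‖ < 1 :=
        norm_evSum_lt (G := F.map x) hG hy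
      rw [hw_def, ev_slotLift H.norm_le (ht _), iterate_fadd hF hel H k (ht _) hs, htj,
        iterate_evSum hF hel H k hy]
      rfl
    have h1 : ‖T j - E₂^[k] w‖ ≤ ε ^ (p ^ h) ^ k := by
      rw [← hchain]; exact H₂.norm_iterate_sub_le (hT _) hw hclose k
    refine norm_sub_le_trans (h1.trans (le_max_right _ _))
      (norm_sub_le_trans ((hiter k).trans (le_max_left _ _)) (le_trans ?_ (le_max_right η _)))
    rw [hval]
    refine norm_ev_sub_ev_le hG (norm_pair_lt (ht j)
      (norm_evSum_lt (G := F.map x) hG fun s => H.norm_slotApprox_lt ht _ _ _ _))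
      (norm_pair_lt (ht j) hSlt) (pow_nonneg hε0 _)
      (Fin.forall_fin_two.2 ⟨by simp [pow_nonneg hε0], ?_⟩)
    refine norm_evSum_sub_le (G := F.map x) hG (pow_nonneg hε0 _)
      (fun s => H.norm_slotApprox_lt ht _ _ _ _) (fun s => H.norm_slotLevel_lt ht hrec _ _ _)
      fun s => ?_
    rw [norm_sub_rev]
    exact H.norm_slotLevel_sub hε0 hε1.le hε ht hrec _ _ _ _
  have hGG : ‖ev (lawAt p n F x) ![t j, S] - ev (lawAt p n F x₂) ![t j, S]‖ ≤ η :=
    norm_ev_sub_ev_le_of_coeff hG hG₂ hη0 (norm_pair_lt (ht j) hSlt) fun d => by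
      rw [lawAt, lawAt, MvPowerSeries.coeff_map, MvPowerSeries.coeff_map, norm_sub_rev]
      exact hnear _
  have hTS := norm_sub_le_trans hmain hGG
  let Sp : Pt (F.map x₂) := ⟨S, hSlt⟩
  have hS : S = (-nt j + (nt j + Sp)).val := by rw [neg_add_cancel_left]
  show ‖(Z j).val - S‖ ≤ η
  rw [hS]
  refine norm_ev_sub_ev_le hG₂ (norm_pair_lt (-nt j).small (hT j))
    (norm_pair_lt (-nt j).small (nt j + Sp).small) hη0
    (Fin.forall_fin_two.2 ⟨by simp [hη0], ?_⟩)
  exact hTS

end lift

end Vale.Agent.P217.Slots
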