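import Vale.Agent.P217.Eval
import Vale.Agent.P217.Defs

/-!
P217, ORBIT: the change of coordinate `τ` with `τ ∘ g = τ^{(P)}` for a homomorphism
`g : G^{(P)} → G`, after which the law has coefficients fixed by the `P`-power map.
-/

noncomputable section

namespace Vale.Agent.P217

open MvPowerSeries

section conj

variable {R : Type} [CommRing R] {σ : Type}

lemma constantCoeff_psubst {f : PowerSeries R} {a : MvPowerSeries σ R}
    (hf : PowerSeries.constantCoeff f = 0) (ha : a.constantCoeff = 0) :
    (PowerSeries.subst a f : MvPowerSeries σ R).constantCoeff = 0 :=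
  PowerSeries.constantCoeff_subst_eq_zero ha f hf

lemma constantCoeff_subst_pair {a b : MvPowerSeries σ R} (ha : a.constantCoeff = 0)
    (hb : b.constantCoeff = 0) {f : MvPowerSeries (Fin 2) R} (hf : f.constantCoeff = 0) :
    (MvPowerSeries.subst ![a, b] f).constantCoeff = 0 :=
  MvPowerSeries.constantCoeff_subst_eq_zero
    (hasSubst_of_constantCoeff_zero (Fin.forall_fin_two.2 ⟨ha, hb⟩))
    (Fin.forall_fin_two.2 ⟨ha, hb⟩) hf

lemma psubst_comp {f g : PowerSeries R} (hg : PowerSeries.constantCoeff g = 0)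
    {a : MvPowerSeries σ R} (ha : a.constantCoeff = 0) :
    PowerSeries.subst a (PowerSeries.subst g f) = PowerSeries.subst (PowerSeries.subst a g) f :=
  PowerSeries.subst_comp_subst_apply (PowerSeries.HasSubst.of_constantCoeff_zero' hg)
    (PowerSeries.HasSubst.of_constantCoeff_zero ha) f

/-- The series `τ(G(τ'x, τ'y))`. -/
def conjSeries (G : FormalGroup R) (τ τ' : PowerSeries R) : MvPowerSeries (Fin 2) R :=
  PowerSeries.subst (MvPowerSeries.subst ![PowerSeries.subst (MvPowerSeries.X (0 : Fin 2)) τ',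
    PowerSeries.subst (MvPowerSeries.X (1 : Fin 2)) τ'] G.toPowerSeries) τ

/-- Evaluating the conjugate series at two series. -/
lemma subst_conjSeries (G : FormalGroup R) {τ τ' : PowerSeries R}
    (h' : PowerSeries.constantCoeff τ' = 0) {a b : MvPowerSeries σ R}
    (ha : a.constantCoeff = 0) (hb : b.constantCoeff = 0) :
    MvPowerSeries.subst ![a, b] (conjSeries G τ τ') =
      PowerSeries.subst (MvPowerSeries.subst ![PowerSeries.subst a τ', PowerSeries.subst b τ']
        G.toPowerSeries) τ := by
  have hab : HasSubst ![a, b] :=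
    hasSubst_of_constantCoeff_zero (Fin.forall_fin_two.2 ⟨ha, hb⟩)
  have hc : ∀ i : Fin 2, (PowerSeries.subst (MvPowerSeries.X i) τ' :
      MvPowerSeries (Fin 2) R).constantCoeff = 0 := fun i =>
    constantCoeff_psubst h' (constantCoeff_X i)
  have hin := PowerSeries.HasSubst.of_constantCoeff_zero
    (constantCoeff_subst_pair (hc 0) (hc 1) G.zero_constantCoeff)
  rw [conjSeries]
  refine (subst_comp_subst_apply hin.const hab τ).trans ?_
  refine congrArg (fun z => MvPowerSeries.subst z τ) (funext fun _ => ?_)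
  rw [subst_comp_subst_apply (hasSubst_of_constantCoeff_zero (Fin.forall_fin_two.2 ⟨hc 0, hc 1⟩))
    hab]
  congr 1
  funext i
  fin_cases i
  · simp only [Fin.zero_eta, Matrix.cons_val_zero, PowerSeries.subst_def]
    rw [subst_comp_subst_apply (PowerSeries.HasSubst.X 0).const hab]
    simp [subst_X hab]
  · simp only [Fin.mk_one, Matrix.cons_val_one, Matrix.cons_val_fin_one, PowerSeries.subst_def]
    rw [subst_comp_subst_apply (PowerSeries.HasSubst.X 1).const hab]
    simp [subst_X hab]

/-- The law conjugated by mutually inverse coordinates. -/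
def conjLaw (G : FormalGroup R) (τ τ' : PowerSeries R) (h : PowerSeries.constantCoeff τ = 0)
    (h' : PowerSeries.constantCoeff τ' = 0)
    (hl : PowerSeries.subst τ τ' = PowerSeries.X) (hr : PowerSeries.subst τ' τ = PowerSeries.X) :
    FormalGroup R where
  toPowerSeries := conjSeries G τ τ'
  zero_constantCoeff := constantCoeff_psubst h (constantCoeff_subst_pair
    (constantCoeff_psubst h' (constantCoeff_X 0)) (constantCoeff_psubst h' (constantCoeff_X 1))
    G.zero_constantCoeff)
  lin_coeff_X := by
    have e : MvPowerSeries.subst ![PowerSeries.X (R := R), 0] (conjSeries G τ τ') =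
        PowerSeries.X := by
      rw [subst_conjSeries G h' (a := PowerSeries.X) (b := (0 : PowerSeries R))
        PowerSeries.constantCoeff_X (map_zero _), PowerSeries.X_subst,
        PowerSeries.subst_zero_of_constantCoeff_zero h',
        FormalGroup.add_zero G (PowerSeries.HasSubst.of_constantCoeff_zero' h'), hr]
    have h1 := congrArg (PowerSeries.coeff 1) e
    rw [PowerSeries.coeff_one_X, PowerSeries.coeff, coeff_subst (hasSubst_of_constantCoeff_zero (a := ![PowerSeries.X (R := R), 0])
        (Fin.forall_fin_two.2 ⟨PowerSeries.constantCoeff_X, map_zero _⟩)),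
      finsum_eq_single _ (Finsupp.single (0 : Fin 2) 1)] at h1
    · simpa using h1
    · intro d hd
      by_cases hd₁ : d 1 = 0
      · simp [hd₁, PowerSeries.coeff_X_pow]
        intro hd₀
        exact absurd (Finsupp.ext (Fin.forall_fin_two.2 ⟨by simp [← hd₀], by simp [hd₁]⟩)) hd
      simp [hd₁]
  lin_coeff_Y := by
    have e : MvPowerSeries.subst ![0, PowerSeries.X (R := R)] (conjSeries G τ τ') =
        PowerSeries.X := by
      rw [subst_conjSeries G h' (a := (0 : PowerSeries R)) (b := PowerSeries.X) (map_zero _)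
        PowerSeries.constantCoeff_X, PowerSeries.X_subst,
        PowerSeries.subst_zero_of_constantCoeff_zero h',
        FormalGroup.zero_add G (PowerSeries.HasSubst.of_constantCoeff_zero' h'), hr]
    have h1 := congrArg (PowerSeries.coeff 1) e
    rw [PowerSeries.coeff_one_X, PowerSeries.coeff, coeff_subst (hasSubst_of_constantCoeff_zero (a := ![0, PowerSeries.X (R := R)])
        (Fin.forall_fin_two.2 ⟨map_zero _, PowerSeries.constantCoeff_X⟩)),
      finsum_eq_single _ (Finsupp.single (1 : Fin 2) 1)] at h1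
    · simpa using h1
    · intro d hd
      by_cases hd₀ : d 0 = 0
      · simp [hd₀, PowerSeries.coeff_X_pow]
        intro hd₁
        exact absurd (Finsupp.ext (Fin.forall_fin_two.2 ⟨by simp [hd₀], by simp [← hd₁]⟩)) hd
      simp [hd₀]
  assoc := by
    set Y : Fin 3 → MvPowerSeries (Fin 3) R := MvPowerSeries.X
    have hY : ∀ i, (Y i).constantCoeff = 0 := constantCoeff_X
    have hS : ∀ i, (PowerSeries.subst (Y i) τ' : MvPowerSeries (Fin 3) R).constantCoeff = 0 :=
      fun i => constantCoeff_psubst h' (hY i)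
    have hG : ∀ i j, (MvPowerSeries.subst ![PowerSeries.subst (Y i) τ', PowerSeries.subst (Y j) τ']
        G.toPowerSeries).constantCoeff = 0 := fun i j =>
      constantCoeff_subst_pair (hS i) (hS j) G.zero_constantCoeff
    have inner : ∀ i j, (MvPowerSeries.subst ![Y i, Y j] (conjSeries G τ τ')).constantCoeff = 0 :=
      fun i j => by
        rw [subst_conjSeries G h' (hY i) (hY j)]; exact constantCoeff_psubst h (hG i j)
    have cancel : ∀ i j, PowerSeries.subst
        (MvPowerSeries.subst ![Y i, Y j] (conjSeries G τ τ')) τ' =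
        MvPowerSeries.subst ![PowerSeries.subst (Y i) τ', PowerSeries.subst (Y j) τ']
          G.toPowerSeries := fun i j => by
      rw [subst_conjSeries G h' (hY i) (hY j), ← psubst_comp h (hG i j), hl,
        PowerSeries.subst_X (PowerSeries.HasSubst.of_constantCoeff_zero (hG i j))]
    rw [subst_conjSeries G h' (inner 0 1) (hY 2), subst_conjSeries G h' (hY 0) (inner 1 2),
      cancel, cancel]
    exact congrArg (fun z => PowerSeries.subst z τ) (FormalGroup.assoc' G
      (PowerSeries.HasSubst.of_constantCoeff_zero (hS 0))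
      (PowerSeries.HasSubst.of_constantCoeff_zero (hS 1))
      (PowerSeries.HasSubst.of_constantCoeff_zero (hS 2)))

/-- `τ` is a homomorphism to the conjugated law. -/
lemma isHom_conjLaw (G : FormalGroup R) {τ τ' : PowerSeries R}
    (h : PowerSeries.constantCoeff τ = 0) (h' : PowerSeries.constantCoeff τ' = 0)
    (hl : PowerSeries.subst τ τ' = PowerSeries.X) (hr : PowerSeries.subst τ' τ = PowerSeries.X) :
    IsHom G (conjLaw G τ τ' h h' hl hr) τ := by
  refine ⟨h, ?_⟩
  have hX : ∀ i : Fin 2, (MvPowerSeries.X i : MvPowerSeries (Fin 2) R).constantCoeff = 0 :=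
    constantCoeff_X
  have cancel : ∀ i : Fin 2, PowerSeries.subst (PowerSeries.subst (MvPowerSeries.X i) τ :
      MvPowerSeries (Fin 2) R) τ' = MvPowerSeries.X i := fun i => by
    rw [← psubst_comp h (hX i), hl,
      PowerSeries.subst_X (PowerSeries.HasSubst.of_constantCoeff_zero (hX i))]
  change _ = MvPowerSeries.subst _ (conjSeries G τ τ')
  rw [subst_conjSeries G h' (constantCoeff_psubst h (hX 0)) (constantCoeff_psubst h (hX 1)),
    cancel, cancel]
  have e : (![MvPowerSeries.X 0, MvPowerSeries.X 1] : Fin 2 → MvPowerSeries (Fin 2) R) =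
      MvPowerSeries.X := by funext i; fin_cases i <;> rfl
  rw [e]
  exact congrArg (fun z => PowerSeries.subst z τ) (congrFun subst_self G.toPowerSeries).symm

end conj

section twist

variable {K : Type} [NormedField K]

lemma coeff_pow_low {g : PowerSeries K} (hg : PowerSeries.constantCoeff g = 0) {b d : ℕ}
    (h : b < d) : PowerSeries.coeff b (g ^ d) = 0 :=
  PowerSeries.X_pow_dvd_iff.1 (pow_dvd_pow_of_dvd (PowerSeries.X_dvd_iff.2 hg) d) b h

lemma coeff_pow_diag {g : PowerSeries K} (hg : PowerSeries.constantCoeff g = 0) (d : ℕ) :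
    PowerSeries.coeff d (g ^ d) = PowerSeries.coeff 1 g ^ d := by
  obtain ⟨Z, rfl⟩ := PowerSeries.X_dvd_iff.2 hg
  rw [mul_pow, PowerSeries.coeff_succ_X_mul, PowerSeries.coeff_zero_eq_constantCoeff]
  simpa using PowerSeries.coeff_X_pow_mul (Z ^ d) d 0

/-- A root of `x^P = a x + b`. -/
lemma exists_root [IsAlgClosed K] {P : ℕ} (hP : 2 ≤ P) (a b : K) : ∃ x : K, x ^ P = a * x + b := by
  have hd : (Polynomial.X ^ P - (Polynomial.C a * Polynomial.X + Polynomial.C b)).degree ≠ 0 := by
    have hl : (Polynomial.C a * Polynomial.X + Polynomial.C b).degree < (P : WithBot ℕ) :=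
      lt_of_le_of_lt Polynomial.degree_linear_le (by exact_mod_cast hP)
    rw [Polynomial.degree_sub_eq_left_of_degree_lt (by simpa using hl), Polynomial.degree_X_pow]
    exact_mod_cast (by omega : P ≠ 0)
  obtain ⟨x, hx⟩ := IsAlgClosed.exists_root _ hd
  refine ⟨x, sub_eq_zero.1 ?_⟩
  simpa [Polynomial.IsRoot] using hx

variable [IsUltrametricDist K]

lemma norm_root_le_one {P : ℕ} (hP : 2 ≤ P) {a b x : K} (ha : ‖a‖ ≤ 1) (hb : ‖b‖ ≤ 1)
    (hx : x ^ P = a * x + b) : ‖x‖ ≤ 1 := by
  by_contra hc
  rw [not_le] at hc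
  have h1 : ‖x ^ P‖ ≤ ‖x‖ := by
    rw [hx]
    refine (IsUltrametricDist.norm_add_le_max _ _).trans (max_le ?_ (hb.trans hc.le))
    rw [norm_mul]
    exact mul_le_of_le_one_left (norm_nonneg _) ha
  rw [norm_pow] at h1
  have h2 : ‖x‖ ^ 1 < ‖x‖ ^ P := pow_lt_pow_right₀ hc (by omega)
  rw [pow_one] at h2
  linarith

lemma norm_coeff_pow_le {g : PowerSeries K} (hg : ∀ b, ‖PowerSeries.coeff b g‖ ≤ 1) :
    ∀ (k b : ℕ), ‖PowerSeries.coeff b (g ^ k)‖ ≤ 1
  | 0, b => by
    rw [pow_zero, PowerSeries.coeff_one]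
    split_ifs <;> simp
  | k + 1, b => by
    rw [pow_succ, PowerSeries.coeff_mul]
    refine IsUltrametricDist.norm_sum_le_of_forall_le_of_nonneg zero_le_one fun x _ => ?_
    rw [norm_mul]
    exact mul_le_one₀ (norm_coeff_pow_le hg k x.1) (norm_nonneg _) (hg x.2)

variable [IsAlgClosed K]

/-- Coefficients of the twisting coordinate. -/
def twistCoeff (g : PowerSeries K) (P : ℕ) (hP : 2 ≤ P) : ℕ → K
  | 0 => 0
  | 1 => (IsAlgClosed.exists_pow_nat_eq (PowerSeries.coeff 1 g) (by omega : 0 < P - 1)).choose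
  | j + 2 => (exists_root hP (PowerSeries.coeff 1 g ^ (j + 2))
      (∑ i : Fin (j + 2), twistCoeff g P hP i * PowerSeries.coeff (j + 2) (g ^ (i : ℕ)))).choose
  decreasing_by all_goals omega

omit [IsUltrametricDist K] in
lemma twistCoeff_one (g : PowerSeries K) (P : ℕ) (hP : 2 ≤ P) :
    twistCoeff g P hP 1 ^ (P - 1) = PowerSeries.coeff 1 g := by
  rw [twistCoeff]
  exact (IsAlgClosed.exists_pow_nat_eq (PowerSeries.coeff 1 g) (by omega : 0 < P - 1)).choose_spec

omit [IsUltrametricDist K] in
lemma twistCoeff_eq {g : PowerSeries K} (hg : PowerSeries.constantCoeff g = 0) (P : ℕ) (hP : 2 ≤ P)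
    (j : ℕ) : twistCoeff g P hP j ^ P =
      ∑ i ∈ Finset.range (j + 1), twistCoeff g P hP i * PowerSeries.coeff j (g ^ i) := by
  match j with
  | 0 => simp [twistCoeff, zero_pow (by omega : P ≠ 0)]
  | 1 =>
    have h0 : twistCoeff g P hP 0 = 0 := by rw [twistCoeff]
    rw [Finset.sum_range_succ, Finset.sum_range_one, h0, zero_mul, zero_add, pow_one]
    conv_rhs => rw [← twistCoeff_one g P hP, ← pow_succ']
    rw [show P - 1 + 1 = P by omega]
  | j + 2 =>
    rw [Finset.sum_range_succ, coeff_pow_diag hg, ← Fin.sum_univ_eq_sum_range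
      (fun i => twistCoeff g P hP i * PowerSeries.coeff (j + 2) (g ^ i)) (j + 2)]
    conv_lhs => rw [twistCoeff]
    rw [(exists_root hP _ _).choose_spec]
    conv_rhs => arg 2; rw [twistCoeff]
    ring

lemma norm_twistCoeff_le {g : PowerSeries K} (hgi : ∀ b, ‖PowerSeries.coeff b g‖ ≤ 1) (P : ℕ)
    (hP : 2 ≤ P) (j : ℕ) : ‖twistCoeff g P hP j‖ ≤ 1 := by
  induction j using Nat.strong_induction_on with
  | _ j ih =>
    match j with
    | 0 => simp [twistCoeff]
    | 1 =>
      refine (pow_le_one_iff_of_nonneg (norm_nonneg _) (by omega : P - 1 ≠ 0)).1 ?_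
      rw [← norm_pow, twistCoeff_one]
      exact hgi 1
    | j + 2 =>
      rw [twistCoeff]
      refine norm_root_le_one hP ?_ ?_ (exists_root hP _ _).choose_spec
      · rw [norm_pow]; exact pow_le_one₀ (norm_nonneg _) (hgi 1)
      · refine IsUltrametricDist.norm_sum_le_of_forall_le_of_nonneg zero_le_one fun i _ => ?_
        rw [norm_mul]
        exact mul_le_one₀ (ih i (by omega)) (norm_nonneg _) (norm_coeff_pow_le hgi _ _)

/-- The twist: a coordinate in which the law is fixed by the `p^h`-power map. -/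
theorem exists_twist {p h : ℕ} [Fact p.Prime] [CharP K p] (hh : 1 ≤ h) (G : FormalGroup K)
    {g : PowerSeries K} (hg0 : PowerSeries.constantCoeff g = 0)
    (hgi : ∀ b, ‖PowerSeries.coeff b g‖ ≤ 1) (hg1 : PowerSeries.coeff 1 g ≠ 0)
    (hhom : PowerSeries.subst (MvPowerSeries.map (iterateFrobenius K p h) G.toPowerSeries) g =
      MvPowerSeries.subst ![PowerSeries.subst (MvPowerSeries.X (0 : Fin 2)) g,
        PowerSeries.subst (MvPowerSeries.X (1 : Fin 2)) g] G.toPowerSeries) :
    ∃ τ : PowerSeries K, ∃ H : FormalGroup K, PowerSeries.constantCoeff τ = 0 ∧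
      (∀ b, ‖PowerSeries.coeff b τ‖ ≤ 1) ∧
      PowerSeries.coeff 1 τ ^ (p ^ h - 1) = PowerSeries.coeff 1 g ∧
      PowerSeries.subst g τ = PowerSeries.map (iterateFrobenius K p h) τ ∧
      IsHom G H τ ∧
      (∀ d, MvPowerSeries.coeff d H.toPowerSeries ^ p ^ h = MvPowerSeries.coeff d H.toPowerSeries) ∧
      IntegralSeries H.toPowerSeries := by
  classical
  set P := p ^ h
  have hP : 2 ≤ P := (Fact.out : p.Prime).two_le.trans (Nat.le_self_pow (by omega) p)
  set Fr := iterateFrobenius K p h
  set τ : PowerSeries K := PowerSeries.mk (twistCoeff g P hP)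
  have hτ0 : PowerSeries.constantCoeff τ = 0 := by
    simp [τ, ← PowerSeries.coeff_zero_eq_constantCoeff_apply, twistCoeff]
  have hτ1 : PowerSeries.coeff 1 τ ^ (P - 1) = PowerSeries.coeff 1 g := by
    simp [τ, twistCoeff_one]
  have hτg : PowerSeries.subst g τ = PowerSeries.map Fr τ := by
    refine PowerSeries.ext fun j => ?_
    rw [PowerSeries.coeff_map, iterateFrobenius_def,
      PowerSeries.coeff_subst' (PowerSeries.HasSubst.of_constantCoeff_zero' hg0),
      finsum_eq_sum_of_support_subset (s := Finset.range (j + 1))]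
    · simp only [τ, PowerSeries.coeff_mk, smul_eq_mul]
      exact (twistCoeff_eq hg0 P hP j).symm
    · intro d hd
      by_contra hdb
      refine hd ?_
      simp only [Finset.coe_range, Set.mem_Iio, not_lt] at hdb
      simp [coeff_pow_low hg0 (show j < d by omega)]
  have hu : IsUnit (PowerSeries.coeff 1 τ) := by
    refine isUnit_iff_ne_zero.2 fun h0 => hg1 ?_
    rw [← hτ1, h0, zero_pow (by omega : P - 1 ≠ 0)]
  set τ' := τ.substInvOfIsUnit hu
  have hτ'0 : PowerSeries.constantCoeff τ' = 0 := PowerSeries.constantCoeff_substInvOfIsUnit _ _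
  have hl : PowerSeries.subst τ τ' = PowerSeries.X :=
    PowerSeries.subst_substInvOfIsUnit_left _ hτ0 hu
  have hr : PowerSeries.subst τ' τ = PowerSeries.X :=
    PowerSeries.subst_substInvOfIsUnit_right _ hτ0 hu
  set H := conjLaw G τ τ' hτ0 hτ'0 hl hr
  have hHfix : MvPowerSeries.map Fr H.toPowerSeries = H.toPowerSeries := by
    have hX : ∀ i : Fin 2, (MvPowerSeries.X i : MvPowerSeries (Fin 2) K).constantCoeff = 0 :=
      constantCoeff_X
    have hc : ∀ i : Fin 2, (PowerSeries.subst (MvPowerSeries.X i) τ' :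
        MvPowerSeries (Fin 2) K).constantCoeff = 0 := fun i => constantCoeff_psubst hτ'0 (hX i)
    set τF := PowerSeries.map Fr τ'
    have hτF0 : PowerSeries.constantCoeff τF = 0 := by
      rw [← PowerSeries.coeff_zero_eq_constantCoeff_apply, PowerSeries.coeff_map,
        PowerSeries.coeff_zero_eq_constantCoeff_apply, hτ'0, map_zero]
    set a : Fin 2 → MvPowerSeries (Fin 2) K := fun i => PowerSeries.subst (MvPowerSeries.X i) τF
    have ha : ∀ i, (a i).constantCoeff = 0 := fun i => constantCoeff_psubst hτF0 (hX i)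
    have hmap : ∀ i : Fin 2, MvPowerSeries.map Fr (PowerSeries.subst (MvPowerSeries.X i) τ') = a i :=
      fun i => by
        rw [PowerSeries.map_subst (PowerSeries.HasSubst.X i), MvPowerSeries.map_X]
    -- `g ∘ τ'^{(P)} = τ'`
    have hgτ : PowerSeries.subst τF g = τ' := by
      have h1 : PowerSeries.subst (PowerSeries.subst τF g : PowerSeries K) τ = PowerSeries.X := by
        rw [← psubst_comp hg0 hτF0, hτg, ← PowerSeries.map_X Fr, ← hr]
        exact (PowerSeries.map_subst (PowerSeries.HasSubst.of_constantCoeff_zero' hτ'0) τ).symm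
      have h2 := congrArg (fun z : PowerSeries K => PowerSeries.subst z τ') h1
      simp only [← psubst_comp hτ0 (constantCoeff_psubst hg0 hτF0), hl, PowerSeries.X_subst] at h2
      rwa [PowerSeries.subst_X (PowerSeries.HasSubst.of_constantCoeff_zero'
        (constantCoeff_psubst hg0 hτF0))] at h2
    have hga : ∀ i, PowerSeries.subst (a i) g = PowerSeries.subst (MvPowerSeries.X i) τ' := by
      intro i
      rw [← psubst_comp hτF0 (hX i), hgτ]
    set GF := MvPowerSeries.map Fr G.toPowerSeries
    have hGF0 : GF.constantCoeff = 0 := by simp [GF, G.zero_constantCoeff]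
    have hsX : HasSubst ![a 0, a 1] :=
      hasSubst_of_constantCoeff_zero (Fin.forall_fin_two.2 ⟨ha 0, ha 1⟩)
    change MvPowerSeries.map Fr (conjSeries G τ τ') = conjSeries G τ τ'
    rw [conjSeries, PowerSeries.map_subst (PowerSeries.HasSubst.of_constantCoeff_zero
        (constantCoeff_subst_pair (hc 0) (hc 1) G.zero_constantCoeff)),
      MvPowerSeries.map_subst (hasSubst_of_constantCoeff_zero (Fin.forall_fin_two.2 ⟨hc 0, hc 1⟩)),
      ← hτg]
    have e : (fun i => MvPowerSeries.map Fr
        ((![PowerSeries.subst (MvPowerSeries.X (0 : Fin 2)) τ',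
          PowerSeries.subst (MvPowerSeries.X (1 : Fin 2)) τ'] : Fin 2 → _) i)) = ![a 0, a 1] := by
      funext i; fin_cases i <;> simp [hmap]
    rw [e, psubst_comp hg0 (constantCoeff_subst_pair (ha 0) (ha 1) hGF0)]
    refine congrArg (fun z => PowerSeries.subst z τ) ?_
    have h3 := congrArg (MvPowerSeries.subst ![a 0, a 1]) hhom
    rw [PowerSeries.subst_def _ g, subst_comp_subst_apply
      (PowerSeries.HasSubst.of_constantCoeff_zero hGF0).const hsX] at h3
    rw [PowerSeries.subst_def _ g, h3, subst_comp_subst_apply (hasSubst_of_constantCoeff_zero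
      (Fin.forall_fin_two.2 ⟨constantCoeff_psubst hg0 (hX 0), constantCoeff_psubst hg0 (hX 1)⟩))
      hsX]
    congr 1
    funext i
    fin_cases i
    · simp only [Fin.zero_eta, Matrix.cons_val_zero, PowerSeries.subst_def]
      rw [subst_comp_subst_apply (PowerSeries.HasSubst.X 0).const hsX]
      simp only [subst_X hsX, Matrix.cons_val_zero, ← PowerSeries.subst_def]
      exact hga 0
    · simp only [Fin.mk_one, Matrix.cons_val_one, Matrix.cons_val_fin_one, PowerSeries.subst_def]
      rw [subst_comp_subst_apply (PowerSeries.HasSubst.X 1).const hsX]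
      simp only [subst_X hsX, Matrix.cons_val_one, Matrix.cons_val_fin_one,
        ← PowerSeries.subst_def]
      exact hga 1
  have hfix : ∀ d, MvPowerSeries.coeff d H.toPowerSeries ^ P =
      MvPowerSeries.coeff d H.toPowerSeries := fun d => by
    have := congrArg (MvPowerSeries.coeff d) hHfix
    rwa [MvPowerSeries.coeff_map, iterateFrobenius_def] at this
  refine ⟨τ, H, hτ0, fun b => ?_, hτ1, hτg, isHom_conjLaw G hτ0 hτ'0 hl hr, hfix, fun d => ?_⟩
  · rw [PowerSeries.coeff_mk]; exact norm_twistCoeff_le hgi P hP b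
  · by_contra hc
    rw [not_le] at hc
    have h1 := congrArg norm (hfix d)
    rw [norm_pow] at h1
    have h2 := pow_lt_pow_right₀ hc (show 1 < P by omega)
    rw [pow_one] at h2
    linarith

end twist

end Vale.Agent.P217
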