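/-
P217 (ORBIT): the chart half.
-/
import Vale.Agent.P217.Orbit.ChartAux
import Vale.Agent.P217.Orbit.Approx
import Vale.Agent.P217.Orbit.Slots
import Vale.Agent.P217.Orbit.Twist

namespace Vale.Agent.P217

open Filter Topology MvPowerSeries

variable {p n : ℕ} [Fact p.Prime]

/-- A positive lower bound of finitely many positive numbers, at most `1`. -/
lemma exists_pos_le {ι : Type} [Finite ι] (a : ι → ℝ) (ha : ∀ i, 0 < a i) :
    ∃ s, 0 < s ∧ s ≤ 1 ∧ ∀ i, s ≤ a i := by
  classical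
  have := Fintype.ofFinite ι
  refine ⟨(insert (1 : ℝ) (Finset.univ.image a)).min' (Finset.insert_nonempty _ _), ?_,
    Finset.min'_le _ _ (Finset.mem_insert_self _ _), fun i => Finset.min'_le _ _
      (Finset.mem_insert_of_mem (Finset.mem_image_of_mem a (Finset.mem_univ i)))⟩
  refine (Finset.lt_min'_iff _ _).2 fun b hb => ?_
  rcases Finset.mem_insert.1 hb with rfl | hb
  · exact one_pos
  · obtain ⟨i, -, rfl⟩ := Finset.mem_image.1 hb
    exact ha i

/-- A nonnegative upper bound of finitely many numbers. -/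
lemma exists_nonneg_ge {ι : Type} [Finite ι] (a : ι → ℝ) : ∃ M, 0 ≤ M ∧ ∀ i, a i ≤ M := by
  have := Fintype.ofFinite ι
  exact ⟨∑ i, |a i|, Finset.sum_nonneg fun i _ => abs_nonneg _, fun i =>
    (le_abs_self _).trans (Finset.single_le_sum (fun j _ => abs_nonneg (a j)) (Finset.mem_univ i))⟩

theorem chart (hFacts : FactsStatement p n) (hA : ActionStatement p n)
    (hC : ContinuityStatement p n) (hB : BranchStatement p n) (hTg : TangentStatement p n)
    (hCo : CoordStatement p n) : ChartStatement p n := by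
  intro F hF e he h hh hlt P hP hle hu hd K _ _ hult hac hchar G T
  classical
  have := hult
  have := hchar
  obtain ⟨hL, hE'⟩ := hFacts F hF
  obtain ⟨hom, hE⟩ := hE' e he
  have hn : h ≤ n := hlt.le
  have hpp : p.Prime := Fact.out
  set x := G.x with hxdef
  have hxle : ∀ a, ‖x a‖ ≤ 1 := G.norm_le
  have hx : IsBasePoint p n h x :=
    ⟨G.norm_le, G.norm_lt, fun a ha => (G.ker_eq a).2 (hle ha),
      fun h0 => hu ((G.ker_eq _).1 h0)⟩
  have hPH : Slots.PointHyp h e x := Slots.pointHyp_of_good G hn hE he hle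
  set t : Fin (n - h) → ℕ → K := fun l k => T.pts k l with ht_def
  have ht : ∀ l, IsTowerAt p n e x (t l) := fun l =>
    ⟨T.pts_zero l, fun k => T.small k l, fun k => T.step k l⟩
  have hg1 : PowerSeries.coeff 1 (gSer h e x) = x (par p n h) := coeff_one_gSer hF he hh hn hx.low
  obtain ⟨τ, H, hτ0, hτi, hτ1, hτg, hτhom, hHfix, hHi⟩ := exists_twist (K := K) hh (F.map x)
    (g := gSer h e x) (constantCoeff_gSer he h x) (integral_gSer hxle h e)
    (by rw [hg1]; exact hx.par_ne) (subst_gSer hom he hE hn hx.low)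
  rw [hg1] at hτ1
  have hτint : IntegralSeries (τ : MvPowerSeries Unit K) := fun d => by
    have hd : d = Finsupp.single () (d ()) := by ext; simp
    rw [hd]; exact hτi _
  have hGi : IntegralSeries (F.map x).toPowerSeries := integral_lawAt hxle
  set q := p ^ h with hq
  have hq2 : 2 ≤ q := hpp.two_le.trans (Nat.le_self_pow (by omega) p)
  -- the coordinates
  have hτeq : PowerSeries.subst (PowerSeries.mk fun b => x (PowerSeries.coeff (p ^ h * b) e)) τ =
      PowerSeries.mk (fun b => PowerSeries.coeff b τ ^ p ^ h) := by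
    refine hτg.trans (PowerSeries.ext fun b => ?_)
    rw [PowerSeries.coeff_map, PowerSeries.coeff_mk, iterateFrobenius_def]
  choose η hη0 hη using fun l =>
    hCo F hF e he h hh hlt K hult hac hchar x hx (t l) (ht l) τ hτ0 hτi hτeq
  have ht1 : PowerSeries.coeff 1 τ ≠ 0 := by
    intro h0
    rw [h0, zero_pow (by omega)] at hτ1
    exact hx.par_ne hτ1.symm
  have ht1pos : 0 < ‖PowerSeries.coeff 1 τ‖ := norm_pos_iff.2 ht1
  -- the linear part is invertible
  have hdet : IsUnit (linMatrix η).det := by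
    rw [isUnit_iff_ne_zero]
    intro h0
    obtain ⟨ξ, hξ0, hξ⟩ := Matrix.exists_mulVec_eq_zero_iff.2 h0
    refine hξ0 (hTg F hF e he h hh hlt P K hult hac hchar G hx ξ fun l => ?_)
    obtain ⟨c, L, hc0, hc1, hLi, hL0, hbr⟩ :=
      hB F hF e he h hh hlt K hult hac hchar x hx (t l) (ht l) 1
    obtain ⟨C, s₀, hs₀, hbound⟩ := hη l 1 2 le_rfl (by simpa using hq2)
    set X : ℝ := ‖ξ‖ + 1
    have hX : 0 < X := by positivity
    have hcpos : 0 < ‖c‖ := norm_pos_iff.2 hc0
    obtain ⟨a, ha0, ha1, ha⟩ := exists_pos_le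
      (![s₀, ‖c‖, ‖PowerSeries.coeff 1 τ‖ ^ q * ‖c‖] : Fin 3 → ℝ)
      (fun i => by fin_cases i <;> simp [hs₀, hcpos, ht1pos])
    refine ⟨C * X ^ 2 / ‖PowerSeries.coeff 1 τ‖ ^ q, a / (2 * X), by positivity, ?_⟩
    intro s hs x' hx' hdu
    have hle' : ∀ j, ‖duOf h hh x x' j‖ ≤ ‖s‖ * X := fun j => by
      rw [hdu j, norm_mul]
      exact mul_le_mul_of_nonneg_left ((norm_le_pi_norm ξ j).trans (by simp [X])) (norm_nonneg _)
    have hsX : ‖s‖ * X < a := by
      have : ‖s‖ * (2 * X) ≤ a := (le_div_iff₀ (by positivity)).1 hs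
      nlinarith [norm_nonneg s]
    have hlt' : ∀ j, ‖duOf h hh x x' j‖ < ‖c‖ := fun j =>
      (hle' j).trans_lt (hsX.trans_le (by simpa using ha 1))
    obtain ⟨⟨z, hz⟩, huniq⟩ := hbr x' hx' hlt'
    refine ⟨z, hz.congr fun j hj => ?_, ?_⟩
    · rcases Nat.le_one_iff_eq_zero_or_eq_one.1 hj with rfl | rfl
      · simp [t, T.pts_zero l]
      · simp [t, T.pts_one l]
    have hb := hbound x' z (‖s‖ * X) hx' hz hle'
      (hsX.le.trans (by simpa using ha 0))
    rw [ev_truncDeg_two (hη0 l)] at hb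
    have hzero : ∑ j, MvPowerSeries.coeff (Finsupp.single j 1) (η l) * duOf h hh x x' j = 0 := by
      have := congrFun hξ l
      simp only [Matrix.mulVec, dotProduct, Pi.zero_apply, linMatrix, Matrix.of_apply] at this
      rw [Finset.sum_congr rfl fun j _ =>
        congrArg (fun w => MvPowerSeries.coeff (Finsupp.single j 1) (η l) * w) (hdu j)]
      calc _ = s * ∑ j, MvPowerSeries.coeff (Finsupp.single j 1) (η l) * ξ j := by
            rw [Finset.mul_sum]; exact Finset.sum_congr rfl fun j _ => by ring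
        _ = 0 := by rw [this, mul_zero]
    rw [hzero, zero_sub, norm_neg, norm_pow, pow_one] at hb
    have hzq : ‖z 1‖ ^ q ≤ ‖s‖ * X / ‖c‖ := by
      have hz1 := huniq z hz
      rw [pow_one] at hz1
      rw [← norm_pow, hz1]
      have hsmall : ∀ j, ‖duOf h hh x x' j / c‖ ≤ ‖s‖ * X / ‖c‖ := fun j => by
        rw [norm_div]; exact div_le_div_of_nonneg_right (hle' j) hcpos.le
      exact norm_ev_le_of_constantCoeff hLi hL0 (by positivity)
        ((div_le_one hcpos).2 (hsX.le.trans (by simpa using ha 1))) hsmall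
    have hzsmall : ‖z 1‖ < ‖PowerSeries.coeff 1 τ‖ := by
      refine lt_of_pow_lt_pow_left₀ q (norm_nonneg _) (hzq.trans_lt ?_)
      rw [div_lt_iff₀ hcpos]
      exact hsX.trans_le (by simpa using ha 2)
    rw [norm_tau_eq hτ0 hτi hzsmall, mul_pow, mul_pow] at hb
    calc ‖z 1‖ ^ q
        = ‖PowerSeries.coeff 1 τ‖ ^ q * ‖z 1‖ ^ q / ‖PowerSeries.coeff 1 τ‖ ^ q := by
          field_simp
      _ ≤ C * (‖s‖ ^ 2 * X ^ 2) / ‖PowerSeries.coeff 1 τ‖ ^ q := by
          gcongr
      _ = C * X ^ 2 / ‖PowerSeries.coeff 1 τ‖ ^ q * ‖s‖ ^ 2 := by ring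
  obtain ⟨U, hU0, hηU, hUη, hUlin⟩ := exists_formal_inverse η hη0 hdet
  set Fi : Fin (n - h - G.delta) → MvPowerSeries (Fin (n - h)) K :=
    fun i => slotExpand h x (G.eqn i) with hFi
  have hFi0 : ∀ i, MvPowerSeries.constantCoeff (Fi i) = 0 := fun i => by
    rw [hFi]
    simp only
    rw [constantCoeff_slotExpand hx hh]
    exact (G.ker_eq _).2 (G.eqn_mem i)
  refine ⟨H, τ, fun i => MvPowerSeries.subst U (Fi i), hHfix, ⟨hτ0, hτi, hτ1⟩, fun i =>
    MvPowerSeries.constantCoeff_subst_eq_zero (MvPowerSeries.hasSubst_of_constantCoeff_zero hU0)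
      hU0 (hFi0 i), ?_, ?_⟩
  · refine linearIndependent_linMatrix_subst Fi hU0 hUlin hdet ?_
    have e1 : (linMatrix Fi).row = fun (i : Fin (n - h - G.delta)) (j : Fin (n - h)) =>
        G.x (MvPowerSeries.pderiv (WittVector p (Res p n)) (slot n h hh j) (G.eqn i)) := by
      funext i j
      exact coeff_single_slotExpand hx hh (G.eqn i) j
    rw [e1]
    exact G.eqn_indep
  -- vanishing along the orbit
  intro ι _ α M σ v hv hσ hw f hf
  obtain ⟨a, rfl⟩ := Submodule.mem_span_range_iff_exists_fun _ |>.1 hf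
  intro m c R
  obtain ⟨θ, hθ0, hθ1, hθ⟩ := exists_radius (K := ℝ)
    (a := fun s : Fin m => σ (c s) ^ q ^ R s) fun s => by
      rw [Real.norm_of_nonneg (pow_nonneg (hσ _).1.le _)]
      exact pow_lt_one₀ (hσ _).1.le (hσ _).2 (pow_ne_zero _ (by omega))
  replace hθ : ∀ s, σ (c s) ^ q ^ R s ≤ θ := fun s => (le_abs_self _).trans (hθ s)
  refine ⟨θ, hθ0, hθ1, fun D => ?_⟩
  set k := D + 1 with hk
  have hkD : D ≤ q ^ k ∧ 2 ≤ q ^ k := by
    refine ⟨?_, hq2.trans (Nat.le_self_pow (by omega) q)⟩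
    have h1 : D ≤ 2 ^ (D + 1) := ((Nat.lt_succ_self D).trans (Nat.lt_two_pow_self)).le
    exact h1.trans (Nat.pow_le_pow_left hq2 _)
  -- approximation data
  choose CD sD hsD hbD using fun l => hη l k D (by omega) hkD.1
  choose C2 s2 hs2 hb2 using fun l => hη l k 2 (by omega) hkD.2
  obtain ⟨B, hB0, hB⟩ := exists_nonneg_ge fun o : Fin (n - h) ⊕ Fin (n - h) =>
    max 1 (Sum.elim CD C2 o)
  set A : Fin (n - h - G.delta) → MvPowerSeries (Fin (n - h)) K :=
    fun i => truncDeg D (MvPowerSeries.subst η (a i)) with hA_def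
  set F' : MvPowerSeries (Fin (n - h)) K := ∑ i, A i * Fi i with hF'
  obtain ⟨C₁, r₁, hC₁, hr₁, hinv⟩ := exists_bound_inverse η hη0 hdet B
  obtain ⟨C₂, r₂, hr₂, hcomp⟩ := ev_truncDeg_comp η U hη0 hU0 hηU F' D B
  obtain ⟨C₃, hC₃, hwt⟩ := ev_truncWt_sub_truncDeg
    (∑ i, a i • MvPowerSeries.subst U (Fi i)) v hv D
  -- agreement below degree `D`
  have hagree : truncDeg D (∑ i, a i • MvPowerSeries.subst U (Fi i)) =
      truncDeg D (MvPowerSeries.subst U F') := by
    have hs := MvPowerSeries.hasSubst_of_constantCoeff_zero hU0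
    have hsη := MvPowerSeries.hasSubst_of_constantCoeff_zero hη0
    have hid : ∀ i, MvPowerSeries.subst U (MvPowerSeries.subst η (a i)) = a i := fun i => by
      rw [MvPowerSeries.subst_comp_subst_apply hsη hs]
      simp only [hUη]
      exact congrFun MvPowerSeries.subst_self (a i)
    have h1 : AgreeBelow D (∑ i, a i • MvPowerSeries.subst U (Fi i))
        (MvPowerSeries.subst U F') := by
      have h2 : AgreeBelow D (∑ i, Fi i * MvPowerSeries.subst η (a i)) (∑ i, Fi i * A i) :=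
        AgreeBelow.sum _ fun i _ => AgreeBelow.mul_left _ fun d hd => by
          show _ = if d.degree < D then _ else 0
          rw [if_pos hd]
      have h3 := AgreeBelow.subst hU0 h2
      have e1 : MvPowerSeries.subst U (∑ i, Fi i * MvPowerSeries.subst η (a i)) =
          ∑ i, a i • MvPowerSeries.subst U (Fi i) := by
        rw [← MvPowerSeries.coe_substAlgHom hs, map_sum]
        refine Finset.sum_congr rfl fun i _ => ?_
        rw [map_mul, MvPowerSeries.coe_substAlgHom hs, hid, smul_eq_mul, mul_comm]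
      have e2 : (∑ i, Fi i * A i) = F' := Finset.sum_congr rfl fun i _ => mul_comm _ _
      rwa [e1, e2] at h3
    ext d
    show (if d.degree < D then _ else 0) = if d.degree < D then _ else 0
    split_ifs with hd
    · exact h1 d hd
    · rfl
  -- a bound for the coefficients of `F'`
  choose CA hCA0 hCA using fun i => exists_coeff_bound_truncDeg D (MvPowerSeries.subst η (a i))
  obtain ⟨CF, hCF0, hCF⟩ : ∃ CF : ℝ, 0 ≤ CF ∧ ∀ d, ‖MvPowerSeries.coeff d F'‖ ≤ CF := by
    refine ⟨∑ i, CA i, Finset.sum_nonneg fun i _ => hCA0 i, fun d => ?_⟩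
    rw [hF', map_sum]
    refine IsUltrametricDist.norm_sum_le_of_forall_le_of_nonneg
      (Finset.sum_nonneg fun i _ => hCA0 i) fun i _ => ?_
    refine le_trans ?_ (Finset.single_le_sum (fun j _ => hCA0 j) (Finset.mem_univ i))
    rw [MvPowerSeries.coeff_mul]
    refine IsUltrametricDist.norm_sum_le_of_forall_le_of_nonneg (hCA0 i) fun y _ => ?_
    rw [norm_mul]
    exact (mul_le_mul (hCA i y.1) (integral_slotExpand hx _ _) (norm_nonneg _) (hCA0 i)).trans
      (mul_one _).le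
  obtain ⟨r₀, hr₀, hr₀1, hr₀le⟩ := exists_pos_le (Sum.elim (Sum.elim sD s2) ![r₁, r₂])
    (by rintro ((i | i) | i)
        · exact hsD i
        · exact hs2 i
        · fin_cases i <;> simp [hr₁, hr₂])
  -- choice of `N₀`
  obtain ⟨ε, hε0, hε1, hεpow⟩ := exists_eps hF (by omega) hx
  obtain ⟨kc, hkc⟩ := exists_pow_lt_of_lt_one hr₀ hε1
  obtain ⟨δ, hδ0, hδ1, hδ⟩ : ∃ δ : ℝ, 0 < δ ∧ δ < 1 ∧ δ < ‖x (par p n h)‖ := by
    have hu0 : 0 < ‖x (par p n h)‖ := norm_pos_iff.2 hx.par_ne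
    exact ⟨min (1 / 2) (‖x (par p n h)‖ / 2), lt_min (by norm_num) (half_pos hu0),
      (min_le_left _ _).trans_lt (by norm_num), (min_le_right _ _).trans_lt (half_lt_self hu0)⟩
  obtain ⟨kd, hkd⟩ := exists_pow_lt_of_lt_one hδ0 hε1
  obtain ⟨T₀, hT₀⟩ := hd
  obtain ⟨Tc, hTc⟩ := hC F hF (max kc kd)
  set M' : ℕ → Fin m → ℕ := fun N s => M (c s) + n * (N + R s) with hM'
  have hM'ge : ∀ N s, N ≤ M' N s := fun N s => by
    have : N + R s ≤ n * (N + R s) := Nat.le_mul_of_pos_left _ (by omega)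
    simp only [hM']; omega
  have hev : ∀ᶠ N : ℕ in atTop, ∀ (l : Fin (n - h)) (s : Fin m) (j : Fin (k + 1)),
      ‖slotLevel e x (t l) (α (c s)) (M' N s) j.val‖ < δ := by
    refine eventually_all.2 fun l => eventually_all.2 fun s => eventually_all.2 fun j => ?_
    have h1 := hPH.tendsto_slotLevel_zero (ht l).small (ht l).step (α (c s)) j.val
    have h2 := (NormedAddGroup.tendsto_nhds_zero.1 h1) δ hδ0
    exact (tendsto_atTop_mono (fun N => hM'ge N s) tendsto_id).eventually h2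
  obtain ⟨N₁, hN₁⟩ := eventually_atTop.1 hev
  refine ⟨max C₃ (max CF C₂ * C₁ ^ D), max N₁ (max T₀ (max Tc 2)), fun N hN => ?_⟩
  simp only [ge_iff_le, max_le_iff] at hN
  obtain ⟨hN1, hNT₀, hNTc, hN2⟩ := hN
  -- the stabiliser
  have hdeep : ∀ T' ≤ N, 2 ≤ T' →
      DeepStabilizer p n F T' (slotSeries F (fun s => α (c s)) (M' N)) := fun T' hT' h2 =>
    slotSeries_deep hL _ _ h2 fun s => by
      have h3 : M' N s < p ^ M' N s := Nat.lt_pow_self hpp.one_lt
      have := hM'ge N s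
      omega
  obtain ⟨φ, hφ, -⟩ := (hA F hF).1 _ (hdeep N le_rfl hN2).1
  obtain ⟨fser, hfred, hfhom⟩ := hφ
  have hdeepT : ∀ T' ≤ N, DeepStabilizer p n F T' (slotSeries F (fun s => α (c s)) (M' N)) :=
    fun T' hT' => ⟨(hdeep N le_rfl hN2).1, fun b hb => (hdeep N le_rfl hN2).2 b (by omega)⟩
  have hstab : ∀ b ∈ P, φ b ∈ P := fun b hb =>
    hT₀ _ φ (hdeepT T₀ hNT₀) ⟨fser, hfred, hfhom⟩ (Ideal.mem_map_of_mem φ.toRingHom hb)
  have hcont : ∀ b, φ b - b ∈ IsLocalRing.maximalIdeal (LT p n) ^ max kc kd :=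
    hTc _ φ (hdeepT Tc hNTc) ⟨fser, hfred, hfhom⟩
  have hpert : IsPert h x (x.comp φ.toRingHom) :=
    isPert_comp hx φ fun b hb => (G.ker_eq _).2 (hstab b (hle hb))
  set du := duOf h hh x (x.comp φ.toRingHom) with hdu
  have hduε : ∀ j, ‖du j‖ ≤ ε ^ max kc kd := fun j => by
    have e1 : du j = x (φ (MvPowerSeries.X (slot n h hh j)) - MvPowerSeries.X (slot n h hh j)) :=
      (map_sub x _ _).symm
    rw [e1]
    exact hεpow _ _ (hcont _)
  have hρr : ‖du‖ ≤ r₀ := by
    refine ((pi_norm_le_iff_of_nonneg (pow_nonneg hε0 _)).2 hduε).trans ?_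
    exact (pow_le_pow_of_le_one hε0 hε1.le (le_max_left _ _)).trans hkc.le
  have hρδ : ‖du‖ < δ := by
    refine lt_of_le_of_lt ((pi_norm_le_iff_of_nonneg (pow_nonneg hε0 _)).2 hduε) ?_
    exact lt_of_le_of_lt (pow_le_pow_of_le_one hε0 hε1.le (le_max_right _ _)) hkd
  have hρ1 : ‖du‖ ≤ 1 := hρr.trans hr₀1
  have hdu_le : ∀ j, ‖du j‖ ≤ ‖du‖ := norm_le_pi_norm du
  -- branches and the orbit point
  set S : Fin (n - h) → ℕ → K := fun l j => evSum (r := 1) (lawAt p n F x)
    (fun s _ => slotLevel e x (t l) (α (c s)) (M' N s) j) 0 with hS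
  choose z hz0 hzsmall hzrec hzS using fun l => Slots.exists_branch hF he hPH (ht l).zero
    (ht l).small (ht l).step (fun s => α (c s)) (M' N) φ hfred hfhom hpert (norm_nonneg du) hdu_le
  have hbranch : ∀ l, IsBranch F e h x (x.comp φ.toRingHom) (t l) k (z l) := fun l => by
    refine ⟨hz0 l, fun j hj => ⟨?_, hzrec l j⟩⟩
    have hS' : ‖S l (j + 1)‖ ≤ δ := by
      rw [hS]
      exact norm_evSum_le (A := F.map x) hGi hδ0.le hδ1.le _ 0
        fun s => (hN₁ N hN1 l s ⟨j + 1, by omega⟩).le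
    have hzδ : ‖z l (j + 1)‖ ≤ δ := by
      have e1 : z l (j + 1) = (z l (j + 1) - S l (j + 1)) + S l (j + 1) := by ring
      rw [e1]
      exact (IsUltrametricDist.norm_add_le_max _ _).trans
        (max_le ((hzS l (j + 1)).trans hρδ.le) hS')
    calc ‖z l (j + 1)‖ ^ p ^ h ≤ δ ^ p ^ h := pow_le_pow_left₀ (norm_nonneg _) hzδ _
      _ ≤ δ := pow_le_of_le_one hδ0.le hδ1.le (by omega)
      _ < _ := hδ
  set y : Fin (n - h) → K := evSum H.toPowerSeries fun s l =>
    ev₁ τ (slotPt T (α (c s)) (M (c s)) l) ^ q ^ (N + R s) with hy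
  have hqk : ∀ i, q ^ i = p ^ (h * i) := fun i => by rw [hq, pow_mul]
  have hslot : ∀ s l j, ‖slotLevel e x (t l) (α (c s)) (M' N s) j‖ < 1 := fun s l j =>
    hPH.norm_slotLevel_lt (ht l).small (ht l).step _ _ _
  have htau : ∀ s l i,
      ev₁ τ (slotLevel e x (t l) (α (c s)) (M (c s) + n * i) 0) =
        ev₁ τ (slotPt T (α (c s)) (M (c s)) l) ^ q ^ i := by
    intro s l i
    induction i with
    | zero =>
      have e1 : slotPt T (α (c s)) (M (c s)) l = slotLevel e x (t l) (α (c s)) (M (c s)) 0 := by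
        simp only [slotPt, slotLevel]
        congr 1
        funext i
        simp [slotSeq, t, hxdef]
      simp [e1]
    | succ i ih =>
      rw [mul_add, mul_one, ← add_assoc,
        hPH.slotLevel_add_n (ht l).small (ht l).step,
        tau_map_e he hE hn hx hτi hτg (hPH.norm_slotLevel_lt (ht l).small (ht l).step _ _ _), ih,
        ← pow_mul, ← pow_succ]
  have hy_eq : ∀ l, y l = ev₁ τ (S l k) ^ q ^ k := by
    intro l
    have e1 : ∀ s, ev₁ τ (slotPt T (α (c s)) (M (c s)) l) ^ q ^ (N + R s) =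
        ev₁ τ (slotLevel e x (t l) (α (c s)) (M' N s) k) ^ q ^ k := fun s => by
      rw [← htau]
      exact tau_iterate (E := ev₁ (PowerSeries.map x e))
        (a := fun j => slotLevel e x (t l) (α (c s)) (M' N s) j)
        (fun j => hslot s l j) (fun j => hPH.E_slotLevel (ht l).small (ht l).step _ _ j)
        (fun w hw => tau_map_e he hE hn hx hτi hτg hw) k
    rw [hy, evSum_coord]
    simp only [e1]
    have hsm : ∀ (s : Fin m) (l' : Fin 1),
        ‖ev₁ τ (slotLevel e x (t l) (α (c s)) (M' N s) k)‖ < 1 := fun s _ =>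
      norm_ev_lt_one hτint hτ0 fun _ => hslot s l k
    rw [(evSum_fixed_pow hHi hHfix k
      (fun s (_ : Fin 1) => ev₁ τ (slotLevel e x (t l) (α (c s)) (M' N s) k)) hsm 0).1]
    congr 1
    rw [hS]
    exact ((ev₁_evSum (A := F.map x) (B := H) hGi hHi hτint hτhom
      (fun s (_ : Fin 1) => slotLevel e x (t l) (α (c s)) (M' N s) k)
      (fun s _ => hslot s l k) 0).1).symm
  have happ : ∀ (D' : ℕ) (C : Fin (n - h) → ℝ) (l), D' ≤ q ^ k → C l ≤ B → 1 ≤ B →
      ‖ev (truncDeg D' (η l)) du - ev₁ τ (z l k) ^ q ^ k‖ ≤ C l * ‖du‖ ^ D' →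
      ‖ev (truncDeg D' (η l)) du - y l‖ ≤ B * ‖du‖ ^ D' := by
    intro D' C l hD' hCl hB1 hle'
    have h2 : ‖ev₁ τ (z l k) ^ q ^ k - y l‖ ≤ B * ‖du‖ ^ D' := by
      rw [hy_eq l, hqk, ← sub_pow_char_pow, norm_pow]
      have h3 : ‖ev₁ τ (z l k) - ev₁ τ (S l k)‖ ≤ ‖du‖ :=
        norm_ev_sub_ev_le hτint (fun _ => hzsmall l k)
          (fun _ => (norm_evSum_le (A := F.map x) hGi hδ0.le hδ1.le _ 0
            fun s => (hN₁ N hN1 l s ⟨k, by omega⟩).le).trans_lt hδ1)
          (norm_nonneg _) fun _ => hzS l k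
      refine ((pow_le_pow_left₀ (norm_nonneg _) h3 _).trans
        (pow_le_pow_of_le_one (m := D') (norm_nonneg _) hρ1 (by rw [← hqk]; exact hD'))).trans ?_
      exact le_mul_of_one_le_left (pow_nonneg (norm_nonneg _) _) hB1
    have e1 : ev (truncDeg D' (η l)) du - y l =
        (ev (truncDeg D' (η l)) du - ev₁ τ (z l k) ^ q ^ k) +
          (ev₁ τ (z l k) ^ q ^ k - y l) := by ring
    rw [e1]
    exact (IsUltrametricDist.norm_add_le_max _ _).trans (max_le
      (hle'.trans (mul_le_mul_of_nonneg_right hCl (pow_nonneg (norm_nonneg _) _))) h2)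
  have hB1 : ∀ o, 1 ≤ B ∧ Sum.elim CD C2 o ≤ B := fun o =>
    ⟨(le_max_left _ _).trans (hB o), (le_max_right _ _).trans (hB o)⟩
  have happD : ∀ l, ‖ev (truncDeg D (η l)) du - y l‖ ≤ B * ‖du‖ ^ D := fun l =>
    happ D CD l hkD.1 (hB1 (Sum.inl l)).2 (hB1 (Sum.inl l)).1 (hbD l _ (z l) _ hpert (hbranch l)
      hdu_le (hρr.trans (hr₀le (Sum.inl (Sum.inl l)))))
  have happ2 : ∀ l, ‖ev (truncDeg 2 (η l)) du - y l‖ ≤ B * ‖du‖ ^ 2 := fun l =>
    happ 2 C2 l hkD.2 (hB1 (Sum.inr l)).2 (hB1 (Sum.inr l)).1 (hb2 l _ (z l) _ hpert (hbranch l)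
      hdu_le (hρr.trans (hr₀le (Sum.inl (Sum.inr l)))))
  set θN := θ ^ q ^ N with hθN
  have hθN0 : 0 ≤ θN := pow_nonneg hθ0.le _
  have hθN1 : θN ≤ 1 := pow_le_one₀ hθ0.le hθ1.le
  have hy_le : ∀ l, ‖y l‖ ≤ θN ^ v l := by
    intro l
    rw [hy, evSum_coord]
    refine norm_evSum_le hHi (Real.rpow_nonneg hθN0 _)
      (Real.rpow_le_one hθN0 hθN1 (by linarith [hv l])) _ 0 fun s => ?_
    rw [norm_pow]
    calc ‖ev₁ τ (slotPt T (α (c s)) (M (c s)) l)‖ ^ q ^ (N + R s)
        ≤ (σ (c s) ^ v l) ^ q ^ (N + R s) := pow_le_pow_left₀ (norm_nonneg _) (hw _ _) _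
      _ = ((σ (c s) ^ q ^ R s) ^ q ^ N) ^ v l := by
          rw [← pow_mul (σ (c s)), ← pow_add, add_comm (R s) N, Real.rpow_pow_comm (hσ _).1.le]
      _ ≤ θN ^ v l := Real.rpow_le_rpow (by positivity [(hσ (c s)).1])
          (pow_le_pow_left₀ (by positivity [(hσ (c s)).1]) (hθ s) _) (by linarith [hv l])
  have hdu_θ : ‖du‖ ≤ C₁ * θN := by
    refine (hinv du y (hρr.trans (by simpa using hr₀le (Sum.inr 0))) happ2).trans ?_
    refine mul_le_mul_of_nonneg_left ((pi_norm_le_iff_of_nonneg hθN0).2 fun l => ?_) hC₁.le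
    calc ‖y l‖ ≤ θN ^ v l := hy_le l
      _ ≤ θN ^ (1 : ℝ) := Real.rpow_le_rpow_of_exponent_ge' hθN0 hθN1 zero_le_one (hv l)
      _ = θN := Real.rpow_one θN
  have hzero : ‖ev (truncDeg D F') du‖ ≤ CF * ‖du‖ ^ D := by
    have hdu1 : ∀ j, ‖du j‖ < 1 := fun j => lt_of_le_of_lt (hdu_le j) (hρδ.trans hδ1)
    have hconvF : Conv F' du :=
      conv_of_bound (C := CF) (R := 1) zero_le_one (norm_nonneg du)
        (by rw [one_mul]; exact hρδ.trans hδ1) (fun d => by simpa using hCF d) hdu_le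
    have hconvi : ∀ i, Conv (Fi i) du := fun i => conv_of_integral (integral_slotExpand hx _) hdu1
    have h0 : ev F' du = 0 := by
      rw [hF', (conv_sum_and_ev_sum _ fun i _ => (conv_truncDeg D _ du).mul (hconvi i)).2]
      refine Finset.sum_eq_zero fun i _ => ?_
      rw [ev_mul (conv_truncDeg D _ du) (hconvi i)]
      have : ev (Fi i) du = 0 := by
        rw [hFi, hdu]
        simp only
        rw [ev_slotExpand hx hh hpert]
        exact (G.ker_eq _).2 (hstab _ (G.eqn_mem i))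
      rw [this, mul_zero]
    have h1 : ev (truncDeg D F') du = - ev (F' - truncDeg D F') du := by
      rw [ev_sub hconvF (conv_truncDeg D F' du), h0, zero_sub, neg_neg]
    rw [h1, norm_neg]
    refine norm_ev_le_mul_pow hCF0 (fun d => ?_) (fun d hd => ?_) (norm_nonneg _) hρ1 hdu_le
    · rw [map_sub, coeff_truncDeg]
      split_ifs
      · simpa using hCF0
      · simpa using hCF d
    · rw [map_sub, coeff_truncDeg, if_pos hd, sub_self]
  have hgD := hcomp du y ‖du‖ (norm_nonneg _) (hρr.trans (by simpa using hr₀le (Sum.inr 1)))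
    hdu_le happD
  have hmain : ‖ev (truncDeg D (∑ i, a i • MvPowerSeries.subst U (Fi i))) y‖ ≤
      max CF C₂ * (C₁ * θN) ^ D := by
    rw [hagree]
    have e1 : ev (truncDeg D (MvPowerSeries.subst U F')) y =
        (ev (truncDeg D (MvPowerSeries.subst U F')) y - ev (truncDeg D F') du) +
          ev (truncDeg D F') du := by ring
    rw [e1]
    refine ((IsUltrametricDist.norm_add_le_max _ _).trans (max_le
      (hgD.trans (mul_le_mul_of_nonneg_right (le_max_right _ _) (by positivity)))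
      (hzero.trans (mul_le_mul_of_nonneg_right (le_max_left _ _) (by positivity))))).trans ?_
    exact mul_le_mul_of_nonneg_left (pow_le_pow_left₀ (norm_nonneg _) hdu_θ D)
      (hCF0.trans (le_max_left _ _))
  have hw' := hwt y θN hθN0 hθN1 hy_le
  have e2 : θ ^ (D * q ^ N) = θN ^ D := by rw [hθN, mul_comm]; exact pow_mul θ _ _
  rw [e2]
  have e3 : ev (truncWt v D (∑ i, a i • MvPowerSeries.subst U (Fi i))) y =
      (ev (truncWt v D (∑ i, a i • MvPowerSeries.subst U (Fi i))) y -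
        ev (truncDeg D (∑ i, a i • MvPowerSeries.subst U (Fi i))) y) +
        ev (truncDeg D (∑ i, a i • MvPowerSeries.subst U (Fi i))) y := by ring
  rw [e3]
  refine (IsUltrametricDist.norm_add_le_max _ _).trans (max_le
    (hw'.trans (mul_le_mul_of_nonneg_right (le_max_left _ _) (pow_nonneg hθN0 _))) ?_)
  refine hmain.trans ?_
  rw [mul_pow, ← mul_assoc]
  exact mul_le_mul_of_nonneg_right (le_max_right _ _) (pow_nonneg hθN0 _)

end Vale.Agent.P217
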