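import Vale.Agent.P217.Orbit.ChartDefs
import Vale.Agent.P217.Orbit.Pert
import Vale.Agent.P217.Orbit.PointFacts
import Vale.Agent.P217.Orbit.Points
import Vale.Agent.P217.EvalLemmasIdentity
import Vale.Agent.P217.EvalLemmasFrob

/-!
P217, ORBIT: the unipotent coordinate of the deep orbit, assembled from the branches.
-/

noncomputable section

namespace Vale.Agent.P217

open MvPowerSeries Filter

/-- Scaling the variables by `c⁻¹`. -/
def unscale {K : Type} [Field K] {r : ℕ} (c : K) (f : MvPowerSeries (Fin r) K) :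
    MvPowerSeries (Fin r) K :=
  fun d => MvPowerSeries.coeff d f * c⁻¹ ^ d.degree

lemma coeff_unscale {K : Type} [Field K] {r : ℕ} (c : K) (f : MvPowerSeries (Fin r) K)
    (d : Fin r →₀ ℕ) :
    MvPowerSeries.coeff d (unscale c f) = MvPowerSeries.coeff d f * c⁻¹ ^ d.degree := rfl

lemma ev_unscale {K : Type} [NormedField K] {r : ℕ} (c : K) (f : MvPowerSeries (Fin r) K)
    (a : Fin r → K) : ev (unscale c f) a = ev f fun j => a j / c := by
  refine tsum_congr fun d => ?_
  have hp : (d.prod fun i e => (a i / c) ^ e) = (d.prod fun i e => a i ^ e) * c⁻¹ ^ d.degree := by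
    rw [Finsupp.prod, Finsupp.prod, Finsupp.degree_apply, ← Finset.prod_pow_eq_pow_sum,
      ← Finset.prod_mul_distrib]
    exact Finset.prod_congr rfl fun i _ => by rw [div_eq_mul_inv, mul_pow]
  rw [hp, coeff_unscale]
  ring

lemma norm_coeff_unscale_le {K : Type} [NormedField K] {r : ℕ} (c : K)
    {f : MvPowerSeries (Fin r) K} (hf : IntegralSeries f) (d : Fin r →₀ ℕ) :
    ‖MvPowerSeries.coeff d (unscale c f)‖ ≤ 1 * ‖c‖⁻¹ ^ d.degree := by
  rw [coeff_unscale, norm_mul, norm_pow, norm_inv]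
  exact mul_le_mul_of_nonneg_right (hf d) (by positivity)

/-- Cutting a geometrically bounded series below degree `D` costs `(R ρ)^D`. -/
lemma norm_ev_sub_truncDeg_le {K : Type} [NormedField K] [IsUltrametricDist K] [CompleteSpace K]
    {r : ℕ} {f : MvPowerSeries (Fin r) K} {R ρ : ℝ} (hR : 0 ≤ R) (hρ0 : 0 ≤ ρ) (hsmall : R * ρ < 1)
    (hf : ∀ d, ‖MvPowerSeries.coeff d f‖ ≤ 1 * R ^ d.degree) {a : Fin r → K}
    (ha : ∀ i, ‖a i‖ ≤ ρ) (D : ℕ) : ‖ev f a - ev (truncDeg D f) a‖ ≤ R ^ D * ρ ^ D := by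
  have hc : ∀ d, MvPowerSeries.coeff d (truncDeg D f) =
      if d.degree < D then MvPowerSeries.coeff d f else 0 := fun _ => rfl
  have ht : Conv (truncDeg D f) a := by
    refine conv_of_bound hR hρ0 hsmall (C := 1) (fun d => ?_) ha
    rw [hc]
    split_ifs
    · exact hf d
    · rw [norm_zero]; positivity
  rw [← ev_sub (conv_of_bound hR hρ0 hsmall hf ha) ht, ← mul_pow]
  refine norm_ev_le (by positivity) fun d => ?_
  rw [evTerm, map_sub, hc]
  rcases lt_or_ge d.degree D with h | h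
  · rw [if_pos h, sub_self, zero_mul, norm_zero]; positivity
  · rw [if_neg (not_lt.2 h), sub_zero, norm_mul]
    calc _ ≤ (1 * R ^ d.degree) * ρ ^ d.degree :=
          mul_le_mul (hf d) (norm_monomial_le ha d) (norm_nonneg _) (by positivity)
      _ = (R * ρ) ^ d.degree := by ring
      _ ≤ (R * ρ) ^ D := pow_le_pow_of_le_one (by positivity) hsmall.le h

variable {p n : ℕ} [Fact p.Prime]

/-- Two steps of a branch differ, in the coordinate `τ`, by at most the size of the perturbation. -/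
lemma norm_coord_step_le {K : Type} [NormedField K] [IsUltrametricDist K] [CompleteSpace K]
    [CharP K p] {F : FormalGroup (LT p n)} {e : PowerSeries (LT p n)} (hom : IsHom F F e)
    (hE : PSeriesFacts p n e) {h : ℕ} (hh : 1 ≤ h) (hlt : h < n) {x x' : LT p n →+* K}
    (hx : IsBasePoint p n h x) {t : ℕ → K} (ht : IsTowerAt p n e x t) {τ : PowerSeries K}
    (hτi : IntegralSeries τ) (he0 : PowerSeries.constantCoeff e = 0)
    (hτe : PowerSeries.subst (PowerSeries.mk fun b => x (PowerSeries.coeff (p ^ h * b) e)) τ =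
      PowerSeries.mk (fun b => PowerSeries.coeff b τ ^ p ^ h))
    (hx' : IsPert h x x') {η : ℝ} (hη0 : 0 ≤ η) (hη : ∀ j, ‖duOf h hh x x' j‖ ≤ η)
    {k : ℕ} {z : ℕ → K} (hz : IsBranch F e h x x' t (k + 1) z) :
    ‖ev₁ τ (z k) - ev₁ τ (z (k + 1)) ^ p ^ h‖ ≤ η := by
  classical
  set G := F.map x
  have hG : IntegralSeries G.toPowerSeries := integral_lawAt hx.norm_le
  have hG' : IntegralSeries (lawAt p n F x') := IntegralSeries.map x' hx'.norm_le _
  have : Fact (IntegralSeries G.toPowerSeries) := ⟨hG⟩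
  have hu : ‖x (par p n h)‖ < 1 := by
    refine hx.norm_lt _ ?_
    rw [par, dif_pos ⟨hh, hlt⟩]
    exact X_mem_maximal _
  have hP : p ^ h ≠ 0 := pow_ne_zero _ (Fact.out : p.Prime).ne_zero
  have hsmall : ∀ j ≤ k + 1, ‖z j‖ < 1 := by
    intro j hj
    rcases j with _ | j
    · simp [hz.1]
    · exact (pow_lt_one_iff_of_nonneg (norm_nonneg _) hP).1 ((hz.2 j (by omega)).1.trans hu)
  set a := z (k + 1)
  set b := z k
  have ha : ‖a‖ < 1 := hsmall _ le_rfl
  have hb : ‖b‖ < 1 := hsmall _ (Nat.le_succ k)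
  have hclose : ∀ c, ‖x c - x' c‖ ≤ η := fun c => by
    rw [norm_sub_rev]
    exact norm_apply_sub_le hh hx.norm_le hx.norm_lt hx.low hx' hη hη0 c
  have hGG : ∀ u v : K, ‖u‖ < 1 → ‖v‖ < 1 →
      ‖ev G.toPowerSeries ![u, v] - ev (lawAt p n F x') ![u, v]‖ ≤ η := fun u v hu hv => by
    refine norm_ev_sub_ev_le_of_coeff hG hG' hη0 (norm_pair_lt hu hv) fun d => ?_
    simp only [G, FormalGroup.map_toPowerSeries, lawAt, MvPowerSeries.coeff_map]
    exact hclose _
  set ex := PowerSeries.map x e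
  have hexi : IntegralSeries ex := IntegralSeries.map x hx.norm_le _
  have hexi' : IntegralSeries (PowerSeries.map x' e) := IntegralSeries.map x' hx'.norm_le _
  have hexc : MvPowerSeries.constantCoeff ex = 0 := by
    change MvPowerSeries.constantCoeff (MvPowerSeries.map x e) = 0
    rw [MvPowerSeries.constantCoeff_map]
    exact (congrArg x he0).trans (map_zero x)
  have hea : ‖ev₁ ex a‖ < 1 := norm_ev_lt_one hexi hexc fun _ => ha
  have ht1 : ‖t (k + 1)‖ < 1 := ht.small _
  have htk : ‖t k‖ < 1 := ht.small _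
  -- the two sums over `G` are close
  have h1 : ‖ev₁ ex (ev G.toPowerSeries ![t (k + 1), a]) -
      ev G.toPowerSeries ![t k, b]‖ ≤ η := by
    have hs := norm_fadd_lt hG ht1 ha
    have hs' : ‖ev (lawAt p n F x') ![t (k + 1), a]‖ < 1 :=
      norm_ev_lt_one hG' (F.map x').zero_constantCoeff (norm_pair_lt ht1 ha)
    have e1 : ‖ev₁ ex (ev G.toPowerSeries ![t (k + 1), a]) -
        ev₁ ex (ev (lawAt p n F x') ![t (k + 1), a])‖ ≤ η :=
      norm_ev_sub_ev_le hexi (fun _ => hs) (fun _ => hs') hη0 fun _ => hGG _ _ ht1 ha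
    have e2 : ‖ev₁ ex (ev (lawAt p n F x') ![t (k + 1), a]) -
        ev₁ (PowerSeries.map x' e) (ev (lawAt p n F x') ![t (k + 1), a])‖ ≤ η :=
      norm_ev_sub_ev_le_of_coeff hexi hexi' hη0 (fun _ => hs') fun d => by
        change ‖MvPowerSeries.coeff d (MvPowerSeries.map x e) -
          MvPowerSeries.coeff d (MvPowerSeries.map x' e)‖ ≤ η
        rw [MvPowerSeries.coeff_map, MvPowerSeries.coeff_map]; exact hclose _
    rw [(hz.2 k (Nat.lt_succ_self k)).2] at e2
    have e3 := hGG (t k) b htk hb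
    rw [norm_sub_rev] at e3
    rw [← sub_add_sub_cancel _ (ev₁ ex (ev (lawAt p n F x') ![t (k + 1), a])) _]
    refine (IsUltrametricDist.norm_add_le_max _ _).trans (max_le e1 ?_)
    rw [← sub_add_sub_cancel _ (ev (lawAt p n F x') ![t k, b]) _]
    exact (IsUltrametricDist.norm_add_le_max _ _).trans (max_le e2 e3)
  rw [ev₁_fadd hG hG hexi (IsHom.map hom x) ht1 ha, ht.step] at h1
  -- translation by `t k` is an isometry
  have h2 : ‖ev₁ ex a - b‖ ≤ η := by
    let T : Pt G := ⟨t k, htk⟩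
    let A : Pt G := ⟨ev₁ ex a, hea⟩
    let B : Pt G := ⟨b, hb⟩
    have eA : (-T + (T + A)).val = ev₁ ex a := by rw [neg_add_cancel_left]
    have eB : (-T + (T + B)).val = b := by rw [neg_add_cancel_left]
    rw [← eA, ← eB, Pt.val_add, Pt.val_add (-T) (T + B)]
    refine norm_ev_sub_ev_le hG (norm_pair_lt (-T).small (T + A).small)
      (norm_pair_lt (-T).small (T + B).small) hη0 (Fin.forall_fin_two.2 ⟨?_, ?_⟩)
    · simpa using hη0
    · simpa using h1
  -- `τ ∘ e = τ^P`
  have h3 : ev₁ τ (ev₁ ex a) = ev₁ τ a ^ p ^ h := by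
    have hgs : IntegralSeries (gSer h e x) := fun d => by
      rw [Finsupp.unique_single d]
      exact integral_gSer hx.norm_le h e _
    have hg0 : PowerSeries.constantCoeff (gSer h e x) = 0 := by
      rw [← PowerSeries.coeff_zero_eq_constantCoeff_apply, coeff_gSer, mul_zero,
        PowerSeries.coeff_zero_eq_constantCoeff_apply, he0, map_zero]
    have haP : ‖a ^ p ^ h‖ < 1 := by rw [norm_pow]; exact pow_lt_one₀ (norm_nonneg _) ha hP
    rw [show ev₁ ex a = ev₁ (gSer h e x) (a ^ p ^ h) from ev₁_map_eq_gSer hE hlt.le hx.low a,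
      ← ev₁_subst hτi hgs hg0 haP]
    have eτ : PowerSeries.subst (gSer h e x) τ = PowerSeries.map (iterateFrobenius K p h) τ := by
      rw [gSer, hτe]
      ext d
      rw [PowerSeries.coeff_mk, PowerSeries.coeff_map, iterateFrobenius_def]
    rw [eτ]
    exact ev₁_map_frobenius p h (conv_of_integral hτi fun _ => ha)
  rw [← h3, norm_sub_rev]
  exact norm_ev_sub_ev_le hτi (fun _ => hea) (fun _ => hb) hη0 fun _ => h2

/-- The unipotent coordinates of the deep orbit. -/
theorem coord (hFacts : FactsStatement p n) (hB : BranchStatement p n) : CoordStatement p n := by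
  intro F hF e he h hh hlt K _ _ hult hac hchar x hx t ht τ hτ0 hτ1 hτe
  classical
  obtain ⟨hom, hE⟩ := (hFacts F hF).2 e he
  choose c L hc0 hc1 hLi hL0 hB' using hB F hF e he h hh hlt K hult hac hchar x hx t ht
  set P := p ^ h with hPdef
  have hP2 : 2 ≤ P := (Fact.out : p.Prime).two_le.trans (Nat.le_self_pow (by omega) p)
  have hτi : IntegralSeries τ := fun d => by
    rw [Finsupp.unique_single d]
    exact hτ1 _
  have hu : ‖x (par p n h)‖ < 1 := by
    refine hx.norm_lt _ ?_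
    rw [par, dif_pos ⟨hh, hlt⟩]
    exact X_mem_maximal _
  -- the series for each length
  set T : ℕ → MvPowerSeries (Fin (n - h)) K :=
    fun k => PowerSeries.subst (L k) (PowerSeries.map (iterateFrobenius K p (h * k)) τ) with hT
  set E : ℕ → MvPowerSeries (Fin (n - h)) K := fun k => unscale (c k) (T k) with hEdef
  have hτk : ∀ k, IntegralSeries (PowerSeries.map (iterateFrobenius K p (h * k)) τ) := fun k d => by
    change ‖MvPowerSeries.coeff d (MvPowerSeries.map (iterateFrobenius K p (h * k)) τ)‖ ≤ 1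
    rw [MvPowerSeries.coeff_map, iterateFrobenius_def, norm_pow]
    exact pow_le_one₀ (norm_nonneg _) (hτi d)
  have hTi : ∀ k, IntegralSeries (T k) := fun k =>
    (hτk k).subst (fun _ => hLi k) (PowerSeries.HasSubst.of_constantCoeff_zero (hL0 k)).const
  have hEb : ∀ k d, ‖MvPowerSeries.coeff d (E k)‖ ≤ 1 * ‖c k‖⁻¹ ^ d.degree := fun k d =>
    norm_coeff_unscale_le (c k) (hTi k) d
  have hE0 : ∀ k, MvPowerSeries.constantCoeff (E k) = 0 := fun k => by
    rw [← MvPowerSeries.coeff_zero_eq_constantCoeff_apply, coeff_unscale,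
      MvPowerSeries.coeff_zero_eq_constantCoeff_apply,
      PowerSeries.constantCoeff_subst_eq_zero (hL0 k) _ (by
        rw [← PowerSeries.coeff_zero_eq_constantCoeff_apply, PowerSeries.coeff_map,
          PowerSeries.coeff_zero_eq_constantCoeff_apply, hτ0, map_zero]), zero_mul]
  have hzsmall : ∀ {x' : LT p n →+* K} {k : ℕ} {z : ℕ → K}, IsBranch F e h x x' t k z →
      ‖z k‖ < 1 := by
    intro x' k z hz
    rcases k with _ | k
    · simp [hz.1]
    · exact (pow_lt_one_iff_of_nonneg (norm_nonneg _) (by omega : P ≠ 0)).1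
        ((hz.2 k (Nat.lt_succ_self k)).1.trans hu)
  have hval : ∀ (x' : LT p n →+* K) (k : ℕ) (z : ℕ → K), IsPert h x x' →
      IsBranch F e h x x' t k z → (∀ j, ‖duOf h hh x x' j‖ < ‖c k‖) →
      ev (E k) (duOf h hh x x') = ev₁ τ (z k) ^ P ^ k := by
    intro x' k z hx' hz hdu
    have hdiv : ∀ j, ‖duOf h hh x x' j / c k‖ < 1 := fun j => by
      rw [norm_div, div_lt_one (norm_pos_iff.2 (hc0 k))]; exact hdu j
    rw [hEdef, ev_unscale, hT, ev_psubst (hτk k) (hLi k) (hL0 k) hdiv,
      ← (hB' k x' hx' hdu).2 z hz, hPdef, ← pow_mul]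
    exact ev₁_map_frobenius p (h * k) (conv_of_integral hτi fun _ => hzsmall hz)
  -- consecutive series agree below degree `P ^ k`
  have hagree : ∀ k, ∀ d : Fin (n - h) →₀ ℕ, d.degree < P ^ k →
      MvPowerSeries.coeff d (E k) = MvPowerSeries.coeff d (E (k + 1)) := by
    intro k d hd
    set R := max ‖c k‖⁻¹ ‖c (k + 1)‖⁻¹
    set r₀ := min ‖c k‖ ‖c (k + 1)‖ / 2 with hr₀
    have hmin : 0 < min ‖c k‖ ‖c (k + 1)‖ :=
      lt_min (norm_pos_iff.2 (hc0 k)) (norm_pos_iff.2 (hc0 (k + 1)))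
    have hR : 0 ≤ R := le_max_of_le_left (by positivity)
    refine sub_eq_zero.1 ?_
    rw [← map_sub]
    refine coeff_eq_zero_of_norm_ev_le (f := E k - E (k + 1)) (C := 1) (R := R) (C' := 1)
      (r₀ := r₀) (D := P ^ k) hx.par_ne hu hR (by positivity) (fun d => ?_) ?_ d hd
    · rw [map_sub, sub_eq_add_neg]
      refine (IsUltrametricDist.norm_add_le_max _ _).trans (max_le ?_ ?_)
      · exact (hEb k d).trans (mul_le_mul_of_nonneg_left
          (pow_le_pow_left₀ (by positivity) (le_max_left _ _) _) zero_le_one)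
      · rw [norm_neg]
        exact (hEb (k + 1) d).trans (mul_le_mul_of_nonneg_left
          (pow_le_pow_left₀ (by positivity) (le_max_right _ _) _) zero_le_one)
    · intro ρ hρ0 hρr δ hδ
      have hd1 : ∀ j, ‖δ j‖ < ‖c k‖ := fun j => lt_of_le_of_lt ((hδ j).trans hρr)
        (by have := min_le_left ‖c k‖ ‖c (k + 1)‖; linarith)
      have hd2 : ∀ j, ‖δ j‖ < ‖c (k + 1)‖ := fun j => lt_of_le_of_lt ((hδ j).trans hρr)
        (by have := min_le_right ‖c k‖ ‖c (k + 1)‖; linarith)
      have hd3 : ∀ j, ‖δ j‖ < 1 := fun j => (hd1 j).trans_le (hc1 k)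
      set x' := pertHom (p := p) hx.norm_le hx.norm_lt δ hd3
      obtain ⟨hpert, hdu⟩ := isPert_pertHom hh hx.norm_le hx.norm_lt hx.low δ hd3
      obtain ⟨z, hz⟩ := (hB' (k + 1) x' hpert (by rw [hdu]; exact hd2)).1
      have hzk : IsBranch F e h x x' t k z :=
        ⟨hz.1, fun j hj => hz.2 j (Nat.lt_succ_of_lt hj)⟩
      have e1 := hval x' k z hpert hzk (by rw [hdu]; exact hd1)
      have e2 := hval x' (k + 1) z hpert hz (by rw [hdu]; exact hd2)
      rw [hdu] at e1 e2
      have hcv : ∀ i, (∀ j, ‖δ j‖ < ‖c i‖) → ρ < ‖c i‖ → Conv (E i) δ := fun i _ hρi =>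
        conv_of_bound (by positivity) hρ0.le
          (by rw [inv_mul_lt_iff₀ (norm_pos_iff.2 (hc0 i)), mul_one]; exact hρi) (hEb i) hδ
      rw [ev_sub (hcv k hd1 (lt_of_le_of_lt hρr (by
          have := min_le_left ‖c k‖ ‖c (k + 1)‖; linarith)))
        (hcv (k + 1) hd2 (lt_of_le_of_lt hρr (by
          have := min_le_right ‖c k‖ ‖c (k + 1)‖; linarith))), e1, e2, one_mul,
        pow_succ' P, pow_mul, hPdef, ← pow_mul p h k, ← sub_pow_char_pow, norm_pow]
      exact pow_le_pow_left₀ (norm_nonneg _) (norm_coord_step_le hom hE hh hlt hx ht hτi he.1 hτe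
        hpert hρ0.le (by rw [hdu]; exact hδ) hz) _
  have hchain : ∀ k m, ∀ d : Fin (n - h) →₀ ℕ, d.degree < P ^ k →
      MvPowerSeries.coeff d (E (k + m)) = MvPowerSeries.coeff d (E k) := by
    intro k m d hd
    induction m with
    | zero => rfl
    | succ m ih =>
      rw [← Nat.add_assoc, ← hagree (k + m) d
        (hd.trans_le (Nat.pow_le_pow_right (by omega) (Nat.le_add_right k m))), ih]
  have hdeg : ∀ d : Fin (n - h) →₀ ℕ, d.degree < P ^ (d.degree + 1) := fun d =>
    (Nat.lt_succ_self _).trans (Nat.lt_pow_self hP2)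
  set η : MvPowerSeries (Fin (n - h)) K :=
    fun d => MvPowerSeries.coeff d (E (d.degree + 1)) with hηdef
  refine ⟨η, ?_, fun k D _ hD => ⟨‖c k‖⁻¹ ^ D, ‖c k‖ / 2, by
    have := norm_pos_iff.2 (hc0 k); positivity, fun x' z ρ hx' hz hdu hρs => ?_⟩⟩
  · have e0 : MvPowerSeries.constantCoeff η = MvPowerSeries.constantCoeff (E 1) := by
      rw [← MvPowerSeries.coeff_zero_eq_constantCoeff_apply,
        ← MvPowerSeries.coeff_zero_eq_constantCoeff_apply]
      change MvPowerSeries.coeff 0 (E ((0 : Fin (n - h) →₀ ℕ).degree + 1)) = _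
      simp
    rw [e0, hE0]
  · have htrunc : truncDeg D η = truncDeg D (E k) := by
      funext d
      simp only [truncDeg]
      split_ifs with hd
      · have hd' : d.degree < P ^ k := lt_of_lt_of_le hd hD
        change MvPowerSeries.coeff d (E (d.degree + 1)) = MvPowerSeries.coeff d (E k)
        rcases Nat.le_total k (d.degree + 1) with hle | hle
        · obtain ⟨m, hm⟩ := Nat.exists_eq_add_of_le hle
          rw [hm, hchain k m d hd']
        · obtain ⟨m, hm⟩ := Nat.exists_eq_add_of_le hle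
          rw [hm, hchain (d.degree + 1) m d (hdeg d)]
      · rfl
    have hck : 0 < ‖c k‖ := norm_pos_iff.2 (hc0 k)
    obtain ⟨j₀⟩ : Nonempty (Fin (n - h)) := ⟨⟨0, by omega⟩⟩
    have hρ0 : 0 ≤ ρ := (norm_nonneg _).trans (hdu j₀)
    have hρc : ρ < ‖c k‖ := by linarith
    rw [htrunc, ← hval x' k z hx' hz fun j => lt_of_le_of_lt (hdu j) hρc, norm_sub_rev]
    exact norm_ev_sub_truncDeg_le (by positivity) hρ0
      (by rw [inv_mul_lt_iff₀ hck, mul_one]; exact hρc) (hEb k) hdu D

end Vale.Agent.P217
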