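/-
P217 (ORBIT): a direction in which all first torsion points are stationary is zero.
-/
import Vale.Agent.P217.Orbit.ChartDefs
import Vale.Agent.P217.Orbit.Pert
import Vale.Agent.P217.Orbit.PointFacts
import Vale.Agent.P217.Orbit.Points
import Vale.Agent.P217.EvalRoots
import Vale.Agent.P217.EvalLemmasDeriv

noncomputable section

namespace Vale.Agent.P217

open MvPowerSeries Filter Topology

variable {p n : ℕ} [Fact p.Prime] {K : Type} [NormedField K]

/-- The first-order change of the series `g` in the direction `ξ`. -/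
def tanSer (h : ℕ) (hh : 1 ≤ h) (e : PowerSeries (LT p n)) (x : LT p n →+* K)
    (ξ : Fin (n - h) → K) : PowerSeries K :=
  PowerSeries.mk fun b => ∑ j, ξ j *
    x (MvPowerSeries.pderiv (WittVector p (Res p n)) (slot n h hh j)
      (PowerSeries.coeff (p ^ h * b) e))

lemma norm_coeff_tanSer_le [IsUltrametricDist K] {h : ℕ} (hh : 1 ≤ h) (e : PowerSeries (LT p n))
    {x : LT p n →+* K} (h1 : ∀ a, ‖x a‖ ≤ 1) {ξ : Fin (n - h) → K} {B : ℝ} (hB : 0 ≤ B)
    (hξ : ∀ j, ‖ξ j‖ ≤ B) (b : ℕ) : ‖PowerSeries.coeff b (tanSer h hh e x ξ)‖ ≤ B := by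
  rw [tanSer, PowerSeries.coeff_mk]
  refine IsUltrametricDist.norm_sum_le_of_forall_le_of_nonneg hB fun j _ => ?_
  rw [norm_mul]
  exact (mul_le_mul (hξ j) (h1 _) (norm_nonneg _) hB).trans (mul_one B).le

variable [IsUltrametricDist K] [CompleteSpace K]

/-- Values at a perturbed point agree to first order with the derivatives along the slots. -/
lemma norm_apply_sub_linear_le {h : ℕ} (hh : 1 ≤ h) {x x' : LT p n →+* K}
    (hb : IsBasePoint p n h x) (hx' : IsPert h x x') {η : ℝ} (hη0 : 0 ≤ η) (hη1 : η ≤ 1)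
    (hη : ∀ j, ‖duOf h hh x x' j‖ ≤ η) (a : LT p n) :
    ‖x' a - x a - ∑ j, duOf h hh x x' j *
      x (MvPowerSeries.pderiv (WittVector p (Res p n)) (slot n h hh j) a)‖ ≤ η ^ 2 := by
  classical
  set du := duOf h hh x x' with hdu
  set f := MvPowerSeries.map (constHom x) a with hfdef
  have hf : IntegralSeries f := IntegralSeries.map (constHom x) (fun c => hb.norm_le _) a
  have hu : ∀ l, ‖uvec x l‖ < 1 := fun l => hb.norm_lt _ (X_mem_maximal l)
  have hdu1 : ∀ j, ‖du j‖ < 1 := fun j => norm_duOf_lt hh hb.norm_lt hx' j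
  have hD : ∀ l, ‖extDu h du l‖ < 1 := fun l => norm_extDu_lt hdu1 l
  set T := translate f (uvec x) with hTdef
  have hT : IntegralSeries T := translate_integral hf fun l => (hu l).le
  have e1 : x' a = ev T (extDu h du) := by
    rw [hTdef, ev_translate hf hu hD, hfdef, hdu, apply_eq_ev_of_isPert hh hb.low hx']
  have e2 : x a = MvPowerSeries.constantCoeff T := by
    rw [hTdef, constantCoeff_translate hf hu, hfdef]
    exact ringHom_eq_ev_LT hb.norm_le hb.norm_lt a
  have e3 : ∀ l, x (MvPowerSeries.pderiv (WittVector p (Res p n)) l a) =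
      MvPowerSeries.coeff (Finsupp.single l 1) T := by
    intro l
    rw [hTdef, coeff_single_translate hf hu l, ringHom_eq_ev_LT hb.norm_le hb.norm_lt]
    congr 1
    refine MvPowerSeries.ext fun d => ?_
    simp only [hfdef, MvPowerSeries.coeff_map, MvPowerSeries.coeff_pderiv, map_mul, map_add,
      map_natCast, map_one]
  set L : MvPowerSeries (Fin (n - 1)) K :=
    ∑ l, MvPowerSeries.C (MvPowerSeries.coeff (Finsupp.single l 1) T) * MvPowerSeries.X l with hL
  have hconvL : ∀ l ∈ (Finset.univ : Finset (Fin (n - 1))), Conv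
      (MvPowerSeries.C (MvPowerSeries.coeff (Finsupp.single l 1) T) * MvPowerSeries.X l)
      (extDu h du) := fun l _ => (conv_X l _).C_mul _
  have e4 : ev L (extDu h du) =
      ∑ j, du j * x (MvPowerSeries.pderiv (WittVector p (Res p n)) (slot n h hh j) a) := by
    rw [hL, (conv_sum_and_ev_sum _ hconvL).2]
    refine (Fintype.sum_of_injective (slot n h hh) ?_ _ _ (fun l hl => ?_) (fun j => ?_)).symm
    · intro i j hij
      have := congrArg Fin.val hij
      simp only [slot] at this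
      exact Fin.ext (by omega)
    · rw [ev_C_mul, ev_X, extDu, dif_neg, mul_zero]
      intro hl'
      exact hl ⟨⟨l.val + 1 - h, by omega⟩, Fin.ext (by simp only [slot]; omega)⟩
    · rw [ev_C_mul, ev_X, extDu_slot hh, e3, mul_comm]
  have hR : IntegralSeries (T - MvPowerSeries.C (MvPowerSeries.constantCoeff T) - L) := by
    refine (hT.sub (IntegralSeries.of_C (hT 0))).sub ?_
    intro d
    rw [hL, map_sum]
    refine IsUltrametricDist.norm_sum_le_of_forall_le_of_nonneg zero_le_one fun l _ => ?_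
    exact ((IntegralSeries.of_C (hT _)).mul (IntegralSeries.X l)) d
  have hlow : ∀ d : Fin (n - 1) →₀ ℕ, d.degree < 2 →
      MvPowerSeries.coeff d (T - MvPowerSeries.C (MvPowerSeries.constantCoeff T) - L) = 0 := by
    intro d hd
    rcases Nat.eq_zero_or_pos d.degree with h0 | h0
    · obtain rfl : d = 0 := (Finsupp.degree_eq_zero_iff d).1 h0
      simp [hL]
    · obtain ⟨i, rfl⟩ : ∃ i, d = Finsupp.single i 1 :=
        (Finsupp.sum_eq_one_iff d).1 (by
          have : d.degree = 1 := by omega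
          rwa [Finsupp.degree_apply] at this)
      rw [map_sub, map_sub, hL, map_sum, MvPowerSeries.coeff_C, if_neg (by simp), sub_zero,
        Finset.sum_eq_single i]
      · simp
      · intro l _ hl
        rw [MvPowerSeries.coeff_C_mul, MvPowerSeries.coeff_X,
          if_neg (fun he => hl (Finsupp.single_left_injective one_ne_zero he).symm), mul_zero]
      · simp
  have hcT : Conv T (extDu h du) := conv_of_integral hT hD
  have hcC : Conv (MvPowerSeries.C (MvPowerSeries.constantCoeff T)) (extDu h du) := conv_C _ _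
  have key := norm_ev_le_pow hR hlow hη0 hη1 (fun l => norm_extDu_le hη0 hη l)
  rw [ev_sub (hcT.sub hcC) (by rw [hL]; exact (conv_sum_and_ev_sum _ hconvL).1),
    ev_sub hcT hcC, ev_C, e4, ← e1, ← e2] at key
  exact key

/-- `e` at the perturbed point to first order. -/
lemma norm_ev_map_sub_tanSer_le {e : PowerSeries (LT p n)} {h : ℕ} (hh : 1 ≤ h)
    {x x' : LT p n →+* K}
    (hb : IsBasePoint p n h x) (hx' : IsPert h x x') {ξ : Fin (n - h) → K} {s : K} {B : ℝ}
    (hB : 0 ≤ B) (hξ : ∀ j, ‖ξ j‖ ≤ B) (hs : ‖s‖ * B ≤ 1)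
    (hdu : ∀ j, duOf h hh x x' j = s * ξ j) {y : K} (hy : ‖y‖ < 1) :
    ‖ev₁ (gSer h e x') y - ev₁ (gSer h e x) y - s * ev₁ (tanSer h hh e x ξ) y‖ ≤
      (‖s‖ * B) ^ 2 := by
  have hy' : ∀ _ : Unit, ‖y‖ ≤ ‖y‖ := fun _ => le_rfl
  have hi : ∀ x'' : LT p n →+* K, (∀ a, ‖x'' a‖ ≤ 1) → Conv (gSer h e x'') fun _ : Unit => y :=
    fun x'' hx'' => conv_of_integral
      (integralSeries_powerSeries_iff.2 (integral_gSer hx'' h e)) fun _ => hy
  have ht : Conv (tanSer h hh e x ξ) fun _ : Unit => y := by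
    refine conv_of_bound (C := B) (R := 1) zero_le_one (norm_nonneg y) (by simpa using hy)
      (fun d => ?_) hy'
    obtain ⟨b, rfl⟩ : ∃ b, Finsupp.single () b = d := ⟨d (), by ext; simp⟩
    simpa using norm_coeff_tanSer_le hh e hb.norm_le hB hξ b
  have heq : ev₁ (gSer h e x') y - ev₁ (gSer h e x) y - s * ev₁ (tanSer h hh e x ξ) y =
      ev₁ (gSer h e x' - gSer h e x - PowerSeries.C s * tanSer h hh e x ξ) y := by
    symm
    show ev (_ : MvPowerSeries Unit K) _ = _
    refine (ev_sub ((hi x' hx'.norm_le).sub (hi x hb.norm_le)) (ht.C_mul s)).trans ?_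
    rw [ev_sub (hi x' hx'.norm_le) (hi x hb.norm_le)]
    exact congrArg _ (ev_C_mul s _ _)
  rw [heq]
  refine norm_ev_le_of_coeff (sq_nonneg _) (fun d => ?_) (fun _ => hy.le)
  obtain ⟨b, rfl⟩ : ∃ b, Finsupp.single () b = d := ⟨d (), by ext; simp⟩
  show ‖PowerSeries.coeff b _‖ ≤ _
  rw [map_sub, map_sub, PowerSeries.coeff_C_mul, coeff_gSer, coeff_gSer, tanSer,
    PowerSeries.coeff_mk, Finset.mul_sum]
  have hη : ∀ j, ‖duOf h hh x x' j‖ ≤ ‖s‖ * B := fun j => by
    rw [hdu, norm_mul]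
    exact mul_le_mul_of_nonneg_left (hξ j) (norm_nonneg _)
  refine le_of_eq_of_le ?_ (norm_apply_sub_linear_le hh hb hx'
    (mul_nonneg (norm_nonneg _) hB) hs hη (PowerSeries.coeff (p ^ h * b) e))
  congr 2
  exact Finset.sum_congr rfl fun j _ => by rw [hdu, mul_assoc]

/-- The leading coefficient in a direction whose first maximal entry is `i`. -/
lemma norm_coeff_tanSer_eq {e : PowerSeries (LT p n)} (hE : PSeriesFacts p n e) {h : ℕ}
    (hh : 1 ≤ h) {x : LT p n →+* K} (hb : IsBasePoint p n h x) {ξ : Fin (n - h) → K}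
    {i : Fin (n - h)} (hpos : ξ i ≠ 0) (hlt : ∀ j, j < i → ‖ξ j‖ < ‖ξ i‖) :
    ‖PowerSeries.coeff (p ^ i.val) (tanSer h hh e x ξ)‖ = ‖ξ i‖ := by
  classical
  rw [tanSer, PowerSeries.coeff_mk, ← pow_add, ← Finset.add_sum_erase _ _ (Finset.mem_univ i),
    map_pderiv_coeff_self hE hh i hb.low, mul_one]
  have hsum : ‖∑ j ∈ Finset.univ.erase i, ξ j *
      x (MvPowerSeries.pderiv (WittVector p (Res p n)) (slot n h hh j)
        (PowerSeries.coeff (p ^ (h + i.val)) e))‖ < ‖ξ i‖ := by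
    rcases (Finset.univ.erase i).eq_empty_or_nonempty with hemp | hne
    · simpa [hemp] using norm_pos_iff.2 hpos
    · obtain ⟨j, hj, hle⟩ := IsUltrametricDist.exists_norm_finsetSum_le_of_nonempty hne fun j =>
        ξ j * x (MvPowerSeries.pderiv (WittVector p (Res p n)) (slot n h hh j)
          (PowerSeries.coeff (p ^ (h + i.val)) e))
      refine lt_of_le_of_lt hle ?_
      rcases lt_trichotomy j i with hji | hji | hji
      · rw [norm_mul]
        exact lt_of_le_of_lt (mul_le_of_le_one_right (norm_nonneg _) (hb.norm_le _)) (hlt j hji)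
      · exact absurd hji (Finset.mem_erase.1 hj).1
      · rw [pderiv_coeff_eq_zero hE hh hji, map_zero, mul_zero, norm_zero]
        exact norm_pos_iff.2 hpos
  rw [IsUltrametricDist.norm_add_eq_max_of_norm_ne_norm hsum.ne', max_eq_left hsum.le]

/-- Points of the special law moved little by `e` at every nearby point form a submonoid. -/
def IsStationary (e : PowerSeries (LT p n)) (h : ℕ) (hh : 1 ≤ h) (x : LT p n →+* K)
    (ξ : Fin (n - h) → K) (a : K) : Prop :=
  ∃ C s₀ : ℝ, 0 < s₀ ∧ 0 ≤ C ∧ ∀ (s : K), ‖s‖ ≤ s₀ → ∀ x', IsPert h x x' →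
    (∀ j, duOf h hh x x' j = s * ξ j) → ‖ev₁ (PowerSeries.map x' e) a‖ ≤ C * ‖s‖ ^ 2

lemma IsStationary.zero {e : PowerSeries (LT p n)} (he : IsPSeries p n e) {h : ℕ} (hh : 1 ≤ h)
    (x : LT p n →+* K) (ξ : Fin (n - h) → K) : IsStationary e h hh x ξ 0 := by
  refine ⟨0, 1, zero_lt_one, le_rfl, fun s _ x' _ _ => ?_⟩
  rw [zero_mul, ev₁, ev_apply_zero]
  have : MvPowerSeries.constantCoeff (PowerSeries.map x' e : MvPowerSeries Unit K) = 0 := by
    show PowerSeries.constantCoeff (PowerSeries.map x' e) = 0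
    rw [← PowerSeries.coeff_zero_eq_constantCoeff_apply, PowerSeries.coeff_map,
      PowerSeries.coeff_zero_eq_constantCoeff_apply, he.1, map_zero]
  rw [this, norm_zero]

/-- Values of `e` at nearby arguments. -/
lemma norm_ev_map_sub_le [CharP K p] {e : PowerSeries (LT p n)} (hE : PSeriesFacts p n e) {h : ℕ}
    (hn : h ≤ n) {x : LT p n →+* K} (h1 : ∀ a, ‖x a‖ ≤ 1)
    (hlow : ∀ a ∈ heightIdeal p n h, x a = 0) {a b : K} {δ : ℝ} (ha : ‖a‖ < 1) (hb : ‖b‖ < 1)
    (hab : ‖a - b‖ ≤ δ) :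
    ‖ev₁ (PowerSeries.map x e) a - ev₁ (PowerSeries.map x e) b‖ ≤ δ ^ p ^ h := by
  rw [ev₁_map_eq_gSer hE hn hlow, ev₁_map_eq_gSer hE hn hlow]
  have hP : p ^ h ≠ 0 := pow_ne_zero _ (Fact.out : p.Prime).ne_zero
  refine norm_ev_sub_ev_le (integralSeries_powerSeries_iff.2 (integral_gSer h1 h e))
    (fun _ => by rw [norm_pow]; exact pow_lt_one₀ (norm_nonneg _) ha hP)
    (fun _ => by rw [norm_pow]; exact pow_lt_one₀ (norm_nonneg _) hb hP)
    (pow_nonneg ((norm_nonneg _).trans hab) _) fun _ => ?_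
  rw [← sub_pow_char_pow, norm_pow]
  exact pow_le_pow_left₀ (norm_nonneg _) hab _

lemma IsStationary.fadd [CharP K p] {F : FormalGroup (LT p n)} {e : PowerSeries (LT p n)}
    (hom : IsHom F F e) (hE : PSeriesFacts p n e) {h : ℕ} (hh : 1 ≤ h) (hn : h ≤ n)
    {x : LT p n →+* K} (hb : IsBasePoint p n h x) {ξ : Fin (n - h) → K} {a b : K}
    (ha : ‖a‖ < 1) (hb' : ‖b‖ < 1) (hA : IsStationary e h hh x ξ a)
    (hB : IsStationary e h hh x ξ b) :
    IsStationary e h hh x ξ (ev (F.map x).toPowerSeries ![a, b]) := by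
  obtain ⟨C₁, s₁, hs₁, hC₁, H₁⟩ := hA
  obtain ⟨C₂, s₂, hs₂, hC₂, H₂⟩ := hB
  set B : ℝ := (∑ j, ‖ξ j‖) + 1 with hBdef
  have hB1 : 1 ≤ B := le_add_of_nonneg_left (Finset.sum_nonneg fun j _ => norm_nonneg _)
  set C : ℝ := max (max C₁ C₂) (B ^ 2) with hCdef
  have hC : 0 < C := lt_of_lt_of_le (by positivity) (le_max_right _ _)
  refine ⟨C, min (min s₁ s₂) (1 / (C + B + 1)), lt_min (lt_min hs₁ hs₂) (by positivity), hC.le,
    fun s hs x' hx' hdu => ?_⟩
  have hs1 := hs.trans ((min_le_left _ _).trans (min_le_left _ _))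
  have hs2 := hs.trans ((min_le_left _ _).trans (min_le_right _ _))
  have hs3 : ‖s‖ * (C + B + 1) ≤ 1 := by
    have := hs.trans (min_le_right _ _)
    rwa [le_div_iff₀ (by positivity)] at this
  have hsn := norm_nonneg s
  have hsB : ‖s‖ * B ≤ 1 := by nlinarith
  have hsC : C * ‖s‖ ^ 2 ≤ 1 := by nlinarith
  have hη : ∀ j, ‖duOf h hh x x' j‖ ≤ ‖s‖ * B := fun j => by
    rw [hdu, norm_mul]
    refine mul_le_mul_of_nonneg_left ?_ hsn
    exact (Finset.single_le_sum (f := fun j => ‖ξ j‖) (fun j _ => norm_nonneg _)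
      (Finset.mem_univ j)).trans (le_add_of_nonneg_right zero_le_one)
  have hG' := integral_lawAt (F := F) hx'.norm_le
  have hG := integral_lawAt (F := F) hb.norm_le
  set c := ev (F.map x).toPowerSeries ![a, b] with hc
  set c' := ev (F.map x').toPowerSeries ![a, b] with hc'
  have hc1 : ‖c‖ < 1 := norm_fadd_lt hG ha hb'
  have hc'1 : ‖c'‖ < 1 := norm_fadd_lt hG' ha hb'
  have hcc : ‖c - c'‖ ≤ ‖s‖ * B := by
    refine norm_ev_sub_ev_le_of_coeff hG hG' (by positivity) (norm_pair_lt ha hb') fun d => ?_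
    rw [FormalGroup.map_toPowerSeries, FormalGroup.map_toPowerSeries, MvPowerSeries.coeff_map,
      MvPowerSeries.coeff_map, norm_sub_rev]
    exact norm_apply_sub_le hh hb.norm_le hb.norm_lt hb.low hx' hη (by positivity) _
  have h1 : ‖ev₁ (PowerSeries.map x' e) c - ev₁ (PowerSeries.map x' e) c'‖ ≤ C * ‖s‖ ^ 2 := by
    refine (norm_ev_map_sub_le hE hn hx'.norm_le hx'.low hc1 hc'1 hcc).trans ?_
    have hP : 2 ≤ p ^ h :=
      (Fact.out : p.Prime).two_le.trans (Nat.le_self_pow (by omega) p)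
    refine (pow_le_pow_of_le_one (by positivity) hsB hP).trans ?_
    rw [mul_pow, mul_comm]
    exact mul_le_mul_of_nonneg_right (le_max_right _ _) (sq_nonneg _)
  have h2 : ‖ev₁ (PowerSeries.map x' e) c'‖ ≤ C * ‖s‖ ^ 2 := by
    have hie : IntegralSeries (PowerSeries.map x' e : MvPowerSeries Unit K) :=
      IntegralSeries.map x' hx'.norm_le e
    rw [hc', ev₁_fadd hG' hG' hie (hom.map x') ha hb']
    refine norm_fadd_le hG' hsC ((H₁ s hs1 x' hx' hdu).trans ?_) ((H₂ s hs2 x' hx' hdu).trans ?_)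
    · exact mul_le_mul_of_nonneg_right ((le_max_left _ _).trans (le_max_left _ _)) (sq_nonneg _)
    · exact mul_le_mul_of_nonneg_right ((le_max_right _ _).trans (le_max_left _ _)) (sq_nonneg _)
  have e0 : ev₁ (PowerSeries.map x' e) c =
      (ev₁ (PowerSeries.map x' e) c - ev₁ (PowerSeries.map x' e) c') +
        ev₁ (PowerSeries.map x' e) c' := by ring
  rw [e0]
  exact (IsUltrametricDist.norm_add_le_max _ _).trans (max_le h1 h2)

/-- The first-order change vanishes at the roots coming from stationary points. -/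
lemma ev_tanSer_eq_zero [CharP K p] {e : PowerSeries (LT p n)} (hE : PSeriesFacts p n e) {h : ℕ}
    (hh : 1 ≤ h) (hn : h < n) {x : LT p n →+* K} (hb : IsBasePoint p n h x)
    {ξ : Fin (n - h) → K} {a : K} (ha : ‖a‖ < 1) (hst : IsStationary e h hh x ξ a)
    (hroot : ev₁ (PowerSeries.map x e) a = 0) :
    ev₁ (tanSer h hh e x ξ) (a ^ p ^ h) = 0 := by
  obtain ⟨C, s₀, hs₀, hC, H⟩ := hst
  set B : ℝ := (∑ j, ‖ξ j‖) + 1 with hBdef
  have hB1 : 1 ≤ B := le_add_of_nonneg_left (Finset.sum_nonneg fun j _ => norm_nonneg _)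
  have hξ : ∀ j, ‖ξ j‖ ≤ B := fun j => (Finset.single_le_sum (f := fun j => ‖ξ j‖)
    (fun j _ => norm_nonneg _) (Finset.mem_univ j)).trans (le_add_of_nonneg_right zero_le_one)
  set π := x (par p n h) with hπ
  have hπ1 : ‖π‖ < 1 := by
    refine hb.norm_lt _ ?_
    rw [par, dif_pos ⟨hh, hn⟩]
    exact X_mem_maximal _
  have hπ0 : 0 < ‖π‖ := norm_pos_iff.2 hb.par_ne
  have hy : ‖a ^ p ^ h‖ < 1 := by
    rw [norm_pow]
    exact pow_lt_one₀ (norm_nonneg _) ha (pow_ne_zero _ (Fact.out : p.Prime).ne_zero)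
  set d := ev₁ (tanSer h hh e x ξ) (a ^ p ^ h) with hd
  have key : ∀ᶠ k : ℕ in atTop, ‖d‖ ≤ max C (B ^ 2) * ‖π‖ ^ k := by
    have hlim := tendsto_pow_atTop_nhds_zero_of_lt_one hπ0.le hπ1
    filter_upwards [hlim.eventually (eventually_le_nhds hs₀),
      hlim.eventually (eventually_le_nhds (show (0 : ℝ) < 1 / (B + 1) by positivity))] with k hk hk'
    set s := π ^ k with hsdef
    have hsn : ‖s‖ = ‖π‖ ^ k := norm_pow π k
    have hsB : ‖s‖ * (B + 1) ≤ 1 := by
      rw [hsn]
      rwa [le_div_iff₀ (by positivity)] at hk'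
    have hsB' : ‖s‖ * B ≤ 1 := by nlinarith [norm_nonneg s]
    have hsmall : ∀ j, ‖s * ξ j‖ < 1 := fun j => by
      rw [norm_mul]
      have := hξ j
      have h0 : 0 < ‖s‖ := by rw [hsn]; positivity
      nlinarith [norm_nonneg (ξ j)]
    obtain ⟨hp', hdu'⟩ := isPert_pertHom hh hb.norm_le hb.norm_lt hb.low (fun j => s * ξ j) hsmall
    set x' := pertHom hb.norm_le hb.norm_lt (fun j => s * ξ j) hsmall
    have hdu : ∀ j, duOf h hh x x' j = s * ξ j := fun j => congrFun hdu' j
    have h1 := H s (by rw [hsn]; exact hk) x' hp' hdu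
    have h2 := norm_ev_map_sub_tanSer_le (e := e) hh hb hp'
      (le_trans zero_le_one hB1) hξ hsB' hdu hy
    rw [ev₁_map_eq_gSer hE hn.le hp'.low] at h1
    rw [ev₁_map_eq_gSer hE hn.le hb.low] at hroot
    rw [hroot, sub_zero, ← hd] at h2
    have e0 : s * d = ev₁ (gSer h e x') (a ^ p ^ h) -
        (ev₁ (gSer h e x') (a ^ p ^ h) - s * d) := by ring
    have h3 : ‖s * d‖ ≤ max C (B ^ 2) * ‖s‖ ^ 2 := by
      rw [e0]
      refine (norm_sub_le_max_norm _ _).trans (max_le (h1.trans ?_) (h2.trans ?_))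
      · exact mul_le_mul_of_nonneg_right (le_max_left _ _) (sq_nonneg _)
      · rw [mul_pow, mul_comm]
        exact mul_le_mul_of_nonneg_right (le_max_right _ _) (sq_nonneg _)
    rw [norm_mul, hsn] at h3
    refine le_of_mul_le_mul_left ?_ (pow_pos hπ0 k)
    calc ‖π‖ ^ k * ‖d‖ ≤ _ := h3
      _ = _ := by ring
  have hlim' : Tendsto (fun k : ℕ => max C (B ^ 2) * ‖π‖ ^ k) atTop (𝓝 0) := by
    simpa using (tendsto_pow_atTop_nhds_zero_of_lt_one hπ0.le hπ1).const_mul (max C (B ^ 2))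
  exact norm_le_zero_iff.1 (ge_of_tendsto hlim' key)

/-- Block TANGENT. -/
theorem tangent (hFacts : FactsStatement p n) : TangentStatement p n := by
  classical
  intro F hF e he h hh hlt P K _ _ hult hac hchar G hbase ξ hstat
  have := hult
  have := hchar
  obtain ⟨hL, hPE⟩ := hFacts F hF
  obtain ⟨hom, hE⟩ := hPE e he
  have hint := integral_lawAt (F := F) hbase.norm_le
  have : Fact (IntegralSeries (F.map G.x).toPowerSeries) := ⟨hint⟩
  have := isComm_map hL G.x
  -- the torsion points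
  let z : Fin (n - h) → Pt (F.map G.x) := fun l => ⟨G.tor l, G.tor_small l⟩
  have hpz : ∀ l, p • z l = 0 := fun l => Pt.ext (by
    rw [Pt.val_nsmul, copies_p_eq hF he hbase.norm_le (G.tor_small l), G.tor_root, Pt.val_zero])
  -- each is stationary
  have htor : ∀ l, IsStationary e h hh G.x ξ (G.tor l) := by
    intro l
    obtain ⟨C, s₀, hs₀, H⟩ := hstat l
    refine ⟨max C 0, s₀, hs₀, le_max_right _ _, fun s hs x' hx' hdu => ?_⟩
    obtain ⟨zz, ⟨hz0, hz⟩, hbound⟩ := H s hs x' hx' hdu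
    obtain ⟨hz1, heq⟩ := hz 0 Nat.zero_lt_one
    rw [zero_add] at hz1 heq
    simp only [one_ne_zero, if_false, if_true, hz0, lawAt_eq_map] at heq
    have hint' := integral_lawAt (F := F) hx'.norm_le
    have hP : p ^ h ≠ 0 := pow_ne_zero _ (Fact.out : p.Prime).ne_zero
    have hzP : ‖zz 1‖ ^ p ^ h < 1 := lt_of_lt_of_le hz1 (hbase.norm_le _)
    have hzs : ‖zz 1‖ < 1 := (pow_lt_one_iff_of_nonneg (norm_nonneg _) hP).1 hzP
    have hie : IntegralSeries (PowerSeries.map x' e : MvPowerSeries Unit K) :=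
      IntegralSeries.map x' hx'.norm_le e
    rw [fadd_zero hint' (by simp), ev₁_fadd hint' hint' hie (hom.map x') (G.tor_small l) hzs]
      at heq
    have : Fact (IntegralSeries (F.map x').toPowerSeries) := ⟨hint'⟩
    have hc : PowerSeries.constantCoeff (PowerSeries.map x' e) = 0 := (hom.map x').1
    let A : Pt (F.map x') :=
      ⟨ev₁ (PowerSeries.map x' e) (G.tor l), norm_ev_lt_one hie hc fun _ => G.tor_small l⟩
    let B : Pt (F.map x') :=
      ⟨ev₁ (PowerSeries.map x' e) (zz 1), norm_ev_lt_one hie hc fun _ => hzs⟩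
    have hAB : A + B = 0 := Pt.ext heq
    have hneg : ‖A.val‖ ≤ ‖B.val‖ := by
      rw [eq_neg_of_add_eq_zero_left hAB]
      exact Pt.norm_val_neg_le B
    refine hneg.trans (le_trans ?_ (hbound.trans
      (mul_le_mul_of_nonneg_right (le_max_left _ _) (sq_nonneg _))))
    show ‖ev₁ (PowerSeries.map x' e) (zz 1)‖ ≤ _
    rw [ev₁_map_eq_gSer hE hlt.le hx'.low]
    exact norm_ev_le_of_constantCoeff
      (integralSeries_powerSeries_iff.2 (integral_gSer hx'.norm_le h e))
      (constantCoeff_gSer he h x') (by positivity) hzP.le fun _ => (norm_pow _ _).le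
  -- hence so are all their sums
  have hmul : ∀ (a : Pt (F.map G.x)), IsStationary e h hh G.x ξ a.val →
      ∀ m : ℕ, IsStationary e h hh G.x ξ (m • a).val := by
    intro a ha m
    induction m with
    | zero => simpa using IsStationary.zero he hh G.x ξ
    | succ m ih =>
      rw [succ_nsmul, Pt.val_add]
      exact IsStationary.fadd hom hE hh hlt.le hbase (m • a).small a.small ih ha
  let Z : (Fin (n - h) → Fin p) → Pt (F.map G.x) := fun c => ∑ l, (c l : ℕ) • z l
  have hZstat : ∀ c, IsStationary e h hh G.x ξ (Z c).val := by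
    intro c
    refine Finset.sum_induction _ (fun a : Pt (F.map G.x) => IsStationary e h hh G.x ξ a.val)
      (fun a b ha hb => ?_) ?_ fun l _ => hmul (z l) (htor l) _
    · rw [Pt.val_add]
      exact IsStationary.fadd hom hE hh hlt.le hbase a.small b.small ha hb
    · simpa using IsStationary.zero he hh G.x ξ
  have hZroot : ∀ c, ev₁ (PowerSeries.map G.x e) (Z c).val = 0 := by
    intro c
    rw [← copies_p_eq hF he hbase.norm_le (Z c).small, ← Pt.val_nsmul]
    have hp0 : p • Z c = 0 := by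
      simp only [Z, Finset.smul_sum, smul_comm p, hpz, smul_zero, Finset.sum_const_zero]
    rw [hp0, Pt.val_zero]
  have hZinj : Function.Injective Z := by
    intro c c' hcc
    have hsum : ∀ l, p ∣ (c l : ℕ) + (p - (c' l : ℕ)) := by
      refine G.tor_indep _ ?_
      rw [lawAt_eq_map, show G.tor = fun l => (z l).val from rfl, Pt.combination_eq_sum]
      have h0 : (∑ l, ((c l : ℕ) + (p - (c' l : ℕ))) • z l) = 0 := by
        have hc' : ∀ l, (p - (c' l : ℕ)) • z l = -((c' l : ℕ) • z l) := fun l =>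
          eq_neg_of_add_eq_zero_left (by
            rw [← add_nsmul, Nat.sub_add_cancel (c' l).isLt.le, hpz])
        simp only [add_nsmul, hc', Finset.sum_add_distrib, Finset.sum_neg_distrib]
        exact add_neg_eq_zero.2 hcc
      rw [h0, Pt.val_zero]
    funext l
    obtain ⟨k, hk⟩ := hsum l
    have h1 := (c l).isLt
    have h2 := (c' l).isLt
    rcases Nat.lt_trichotomy k 1 with hk1 | hk1 | hk1
    · obtain rfl : k = 0 := by omega
      omega
    · subst hk1
      exact Fin.ext (by omega)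
    · have := Nat.mul_le_mul_left p hk1
      omega
  have hP : p ^ h ≠ 0 := pow_ne_zero _ (Fact.out : p.Prime).ne_zero
  let Y : (Fin (n - h) → Fin p) → K := fun c => (Z c).val ^ p ^ h
  have hYinj : Function.Injective Y := by
    intro c c' hcc
    refine hZinj (Pt.ext ?_)
    refine sub_eq_zero.1 (eq_zero_of_pow_eq_zero (n := p ^ h) ?_)
    rw [sub_pow_char_pow, sub_eq_zero]
    exact hcc
  have hY1 : ∀ c, ‖Y c‖ < 1 := fun c => by
    rw [norm_pow]
    exact pow_lt_one₀ (norm_nonneg _) (Z c).small hP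
  by_contra hne
  obtain ⟨j₀, hj₀⟩ := Function.ne_iff.1 hne
  obtain ⟨jm, -, hjm⟩ := Finset.univ.exists_max_image (fun j => ‖ξ j‖) ⟨j₀, Finset.mem_univ _⟩
  obtain ⟨i, hi, hmin⟩ := (Finset.univ.filter fun j => ‖ξ j‖ = ‖ξ jm‖).exists_min_image id
    ⟨jm, by simp⟩
  rw [Finset.mem_filter] at hi
  have hpos : ξ i ≠ 0 := by
    intro h0
    refine hj₀ (norm_le_zero_iff.1 ((hjm j₀ (Finset.mem_univ _)).trans ?_))
    rw [← hi.2, h0, norm_zero]
  have hlt' : ∀ j, j < i → ‖ξ j‖ < ‖ξ i‖ := by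
    intro j hj
    rw [hi.2]
    refine lt_of_le_of_ne (hjm j (Finset.mem_univ _)) fun heq => ?_
    exact absurd hj (not_lt.2 (hmin j (by simp [heq])))
  obtain ⟨ρ, hρ0, hρ1, hρ⟩ := exists_radius hY1
  have hcard : p ^ i.val < (Finset.univ.image Y).card := by
    rw [Finset.card_image_of_injective _ hYinj, Finset.card_univ, Fintype.card_fun,
      Fintype.card_fin, Fintype.card_fin]
    exact Nat.pow_lt_pow_right (Fact.out : p.Prime).one_lt i.isLt
  have hb := norm_coeff_le_of_vanish (s := tanSer h hh e G.x ξ) (B := ‖ξ i‖)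
    (norm_coeff_tanSer_le hh e hbase.norm_le (norm_nonneg _)
      fun j => hi.2 ▸ hjm j (Finset.mem_univ _))
    hρ0.le (S := Finset.univ.image Y) (fun w hw => ?_) hcard
  · rw [norm_coeff_tanSer_eq hE hh hbase hpos hlt'] at hb
    nlinarith [norm_pos_iff.2 hpos]
  · obtain ⟨c, -, rfl⟩ := Finset.mem_image.1 hw
    exact ⟨hρ c, hY1 c,
      ev_tanSer_eq_zero hE hh hlt hbase (Z c).small (hZstat c) (hZroot c)⟩

end Vale.Agent.P217
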